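import Mathlib

/-!
# Gaussian integrals against the explicit density, and the function `fmax`
-/

open MeasureTheory Real ProbabilityTheory
open scoped RealInnerProductSpace

namespace Vale.Agent.P226

/-- Euclidean `r`-space. -/
abbrev EE (r : ℕ) := EuclideanSpace ℝ (Fin r)

/-- The standard Gaussian density on `EE r`. -/
noncomputable def dens {r : ℕ} (x : EE r) : ℝ :=
  ((2 * π) ^ ((r : ℝ) / 2))⁻¹ * Real.exp (-‖x‖ ^ 2 / 2)

lemma dens_pos {r : ℕ} (x : EE r) : 0 < dens x := by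
  unfold dens; positivity

lemma dens_nonneg {r : ℕ} (x : EE r) : 0 ≤ dens x := (dens_pos x).le

lemma continuous_dens {r : ℕ} : Continuous (dens (r := r)) := by
  unfold dens; fun_prop

lemma dens_neg {r : ℕ} (x : EE r) : dens (-x) = dens x := by simp [dens]

lemma dens_congr {r : ℕ} {x y : EE r} (h : ‖x‖ = ‖y‖) : dens x = dens y := by simp [dens, h]

lemma integrable_exp_norm {r : ℕ} {b : ℝ} (hb : 0 < b) :
    Integrable (fun x : EE r => Real.exp (-b * ‖x‖ ^ 2)) := by
  refine Integrable.of_integral_ne_zero ?_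
  rw [GaussianFourier.integral_rexp_neg_mul_sq_norm hb]
  positivity

lemma integrable_dens {r : ℕ} : Integrable (dens (r := r)) := by
  unfold dens
  refine Integrable.const_mul ?_ _
  have := integrable_exp_norm (r := r) (b := 1/2) (by norm_num)
  refine this.congr (ae_of_all _ fun x => ?_)
  simp only; ring_nf

lemma integral_dens (r : ℕ) : ∫ x : EE r, dens x = 1 := by
  unfold dens
  rw [integral_const_mul]
  have := GaussianFourier.integral_rexp_neg_mul_sq_norm (V := EE r) (b := 1/2) (by norm_num)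
  have h2 : (fun x : EE r => Real.exp (-‖x‖ ^ 2 / 2))
      = fun x => Real.exp (-(1/2) * ‖x‖ ^ 2) := by funext x; ring_nf
  rw [h2, this, finrank_euclideanSpace_fin]
  rw [show π / (1/2) = 2 * π by ring]
  field_simp

/-- The standard Gaussian measure has density `dens`. -/
lemma stdGaussian_eq_withDensity (r : ℕ) :
    stdGaussian (EE r) = volume.withDensity (fun x => ENNReal.ofReal (dens x)) := by
  have hfin : IsFiniteMeasure (volume.withDensity (fun x : EE r => ENNReal.ofReal (dens x))) :=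
    isFiniteMeasure_withDensity_ofReal integrable_dens.2
  apply Measure.ext_of_charFun
  ext t
  rw [charFun_stdGaussian, charFun_apply]
  have hm : Measurable fun x : EE r => ENNReal.ofReal (dens x) := by
    exact continuous_dens.measurable.ennreal_ofReal
  rw [integral_withDensity_eq_integral_toReal_smul hm (ae_of_all _ fun x => ENNReal.ofReal_lt_top)]
  have key := GaussianFourier.integral_cexp_neg_mul_sq_norm_add (V := EE r) (b := (1/2 : ℂ))
    (by norm_num) Complex.I t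
  have : ∀ x : EE r, (ENNReal.ofReal (dens x)).toReal • Complex.exp (⟪x, t⟫ * Complex.I)
      = (((2 * π) ^ ((r : ℝ) / 2))⁻¹ : ℝ) *
        Complex.exp (-(1/2 : ℂ) * ‖x‖ ^ 2 + Complex.I * ⟪t, x⟫) := by
    intro x
    rw [ENNReal.toReal_ofReal (dens_nonneg x), Complex.real_smul, dens, Complex.ofReal_mul,
      Complex.ofReal_exp, mul_assoc, ← Complex.exp_add, real_inner_comm]
    congr 2
    push_cast; ring
  simp only [this]
  rw [integral_const_mul, key, finrank_euclideanSpace_fin, Complex.I_sq]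
  have hpi : ((π : ℂ) / (1/2)) = ((2 * π : ℝ) : ℂ) := by push_cast; ring
  rw [hpi]
  have hc : ((2 * π : ℝ) : ℂ) ^ ((r : ℂ) / 2) = (((2 * π) ^ ((r : ℝ) / 2) : ℝ) : ℂ) := by
    rw [Complex.ofReal_cpow (by positivity)]; push_cast; ring_nf
  rw [hc, ← mul_assoc, ← Complex.ofReal_mul, inv_mul_cancel₀ (by positivity)]
  simp only [Complex.ofReal_one, one_mul]
  congr 1; ring

lemma integral_stdGaussian {r : ℕ} (h : EE r → ℝ) :
    ∫ x, h x ∂stdGaussian (EE r) = ∫ x, h x * dens x := by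
  rw [stdGaussian_eq_withDensity,
    integral_withDensity_eq_integral_toReal_smul continuous_dens.measurable.ennreal_ofReal
      (ae_of_all _ fun x => ENNReal.ofReal_lt_top)]
  congr 1; funext x
  rw [ENNReal.toReal_ofReal (dens_nonneg x), smul_eq_mul, mul_comm]

lemma setIntegral_stdGaussian {r : ℕ} (h : EE r → ℝ) {A : Set (EE r)} (hA : MeasurableSet A) :
    ∫ x in A, h x ∂stdGaussian (EE r) = ∫ x in A, h x * dens x := by
  rw [stdGaussian_eq_withDensity, restrict_withDensity hA,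
    integral_withDensity_eq_integral_toReal_smul continuous_dens.measurable.ennreal_ofReal
      (ae_of_all _ fun x => ENNReal.ofReal_lt_top)]
  congr 1; funext x
  rw [ENNReal.toReal_ofReal (dens_nonneg x), smul_eq_mul, mul_comm]

/-- Polynomial growth bound. -/
def GB {r : ℕ} (h : EE r → ℝ) : Prop := ∃ C N, 0 ≤ C ∧ ∀ x, |h x| ≤ C * (1 + ‖x‖) ^ (N : ℕ)

lemma GB.const {r : ℕ} (c : ℝ) : GB (fun _ : EE r => c) :=
  ⟨|c|, 0, abs_nonneg _, fun x => by simp⟩

lemma GB.norm {r : ℕ} : GB (fun x : EE r => ‖x‖) :=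
  ⟨1, 1, zero_le_one, fun x => by rw [abs_of_nonneg (norm_nonneg x)]; simp⟩

lemma GB.inner {r : ℕ} (a : EE r) : GB (fun x : EE r => ⟪a, x⟫) := by
  refine ⟨‖a‖, 1, norm_nonneg _, fun x => ?_⟩
  calc |⟪a, x⟫| ≤ ‖a‖ * ‖x‖ := abs_real_inner_le_norm a x
    _ ≤ ‖a‖ * (1 + ‖x‖) ^ 1 := by
      rw [pow_one]; exact mul_le_mul_of_nonneg_left (by linarith) (norm_nonneg _)

lemma GB.mono {r : ℕ} {h g : EE r → ℝ} (hg : GB g) (hle : ∀ x, |h x| ≤ |g x|) : GB h := by
  obtain ⟨C, N, hC, hb⟩ := hg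
  exact ⟨C, N, hC, fun x => (hle x).trans (hb x)⟩

lemma GB.add {r : ℕ} {h g : EE r → ℝ} (hh : GB h) (hg : GB g) : GB (fun x => h x + g x) := by
  obtain ⟨C, N, hC, hb⟩ := hh
  obtain ⟨D, M, hD, hd⟩ := hg
  refine ⟨C + D, max N M, by positivity, fun x => ?_⟩
  have h1 : 1 ≤ 1 + ‖x‖ := by linarith [norm_nonneg x]
  have e1 := pow_le_pow_right₀ h1 (le_max_left N M)
  have e2 := pow_le_pow_right₀ h1 (le_max_right N M)
  calc |h x + g x| ≤ |h x| + |g x| := abs_add_le _ _
    _ ≤ C * (1 + ‖x‖) ^ N + D * (1 + ‖x‖) ^ M := add_le_add (hb x) (hd x)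
    _ ≤ (C + D) * (1 + ‖x‖) ^ max N M := by
      nlinarith [mul_le_mul_of_nonneg_left e1 hC, mul_le_mul_of_nonneg_left e2 hD]

lemma GB.mul {r : ℕ} {h g : EE r → ℝ} (hh : GB h) (hg : GB g) : GB (fun x => h x * g x) := by
  obtain ⟨C, N, hC, hb⟩ := hh
  obtain ⟨D, M, hD, hd⟩ := hg
  refine ⟨C * D, N + M, by positivity, fun x => ?_⟩
  calc |h x * g x| = |h x| * |g x| := abs_mul _ _
    _ ≤ (C * (1 + ‖x‖) ^ N) * (D * (1 + ‖x‖) ^ M) :=
      mul_le_mul (hb x) (hd x) (abs_nonneg _) (by positivity)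
    _ = (C * D) * (1 + ‖x‖) ^ (N + M) := by rw [pow_add]; ring

lemma GB.neg {r : ℕ} {h : EE r → ℝ} (hh : GB h) : GB (fun x => -h x) :=
  hh.mono fun x => by simp

lemma GB.sub {r : ℕ} {h g : EE r → ℝ} (hh : GB h) (hg : GB g) : GB (fun x => h x - g x) := by
  simpa [sub_eq_add_neg] using hh.add hg.neg

lemma GB.pow {r : ℕ} {h : EE r → ℝ} (hh : GB h) (n : ℕ) : GB (fun x => h x ^ n) := by
  induction n with
  | zero => simpa using GB.const 1
  | succ n ih => simpa [pow_succ] using ih.mul hh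

lemma GB.sum {r : ℕ} {ι : Type*} (s : Finset ι) {h : ι → EE r → ℝ} (hh : ∀ i ∈ s, GB (h i)) :
    GB (fun x => ∑ i ∈ s, h i x) := by
  classical
  induction s using Finset.induction with
  | empty => simpa using GB.const 0
  | insert a s ha ih =>
    simp only [Finset.sum_insert ha]
    exact (hh a (Finset.mem_insert_self a s)).add
      (ih fun i hi => hh i (Finset.mem_insert_of_mem hi))

lemma GB.max0 {r : ℕ} {h : EE r → ℝ} (hh : GB h) : GB (fun x => max (h x) 0) :=
  hh.mono fun x => by rcases le_total (h x) 0 with hx | hx <;> simp [hx]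

/-- A polynomial is dominated by a Gaussian growth. -/
lemma pow_le_exp_sq (N : ℕ) {b : ℝ} (hb : 0 < b) :
    ∃ K, 0 ≤ K ∧ ∀ t : ℝ, 0 ≤ t → (1 + t) ^ N ≤ K * Real.exp (b * t ^ 2) := by
  refine ⟨Real.exp ((N : ℝ) ^ 2 / (4 * b)), (Real.exp_pos _).le, fun t ht => ?_⟩
  have h1 : 1 + t ≤ Real.exp t := by linarith [Real.add_one_le_exp t]
  calc (1 + t) ^ N ≤ (Real.exp t) ^ N := pow_le_pow_left₀ (by linarith) h1 N
    _ = Real.exp (N * t) := (Real.exp_nat_mul t N).symm
    _ ≤ Real.exp ((N : ℝ) ^ 2 / (4 * b) + b * t ^ 2) := by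
      apply Real.exp_le_exp.2
      have : (N : ℝ) * t * (4 * b) ≤ (N : ℝ) ^ 2 + b * t ^ 2 * (4 * b) := by
        nlinarith [sq_nonneg ((N : ℝ) - 2 * b * t)]
      have h4 : 0 < 4 * b := by positivity
      rw [div_add' _ _ _ h4.ne', le_div_iff₀ h4]; linarith
    _ = _ := Real.exp_add _ _

lemma GB.integrable {r : ℕ} {h : EE r → ℝ} (hh : GB h)
    (hm : AEStronglyMeasurable h volume) :
    Integrable (fun x => h x * dens x) := by
  obtain ⟨C, N, hC, hb⟩ := hh
  obtain ⟨K, hK, hKb⟩ := pow_le_exp_sq N (b := 1/4) (by norm_num)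
  refine Integrable.mono' ((integrable_exp_norm (r := r) (b := 1/4) (by norm_num)).const_mul
    (C * K * ((2 * π) ^ ((r : ℝ) / 2))⁻¹)) (hm.mul continuous_dens.aestronglyMeasurable)
    (ae_of_all _ fun x => ?_)
  rw [Real.norm_eq_abs, abs_mul, abs_of_nonneg (dens_nonneg x)]
  have h2 : |h x| ≤ C * (K * Real.exp (1/4 * ‖x‖ ^ 2)) :=
    (hb x).trans (mul_le_mul_of_nonneg_left (hKb _ (norm_nonneg x)) hC)
  calc |h x| * dens x ≤ C * (K * Real.exp (1/4 * ‖x‖ ^ 2)) * dens x :=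
        mul_le_mul_of_nonneg_right h2 (dens_nonneg x)
    _ = C * K * ((2 * π) ^ ((r : ℝ) / 2))⁻¹ * Real.exp (-(1/4) * ‖x‖ ^ 2) := by
      unfold dens
      rw [show (C * (K * Real.exp (1/4 * ‖x‖ ^ 2))) *
          (((2 * π) ^ ((r : ℝ) / 2))⁻¹ * Real.exp (-‖x‖ ^ 2 / 2))
          = C * K * ((2 * π) ^ ((r : ℝ) / 2))⁻¹ *
            (Real.exp (1/4 * ‖x‖ ^ 2) * Real.exp (-‖x‖ ^ 2 / 2)) by ring, ← Real.exp_add]
      ring_nf

lemma GB.integrable' {r : ℕ} {h : EE r → ℝ} (hh : GB h) (hm : Measurable h) :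
    Integrable (fun x => h x * dens x) := hh.integrable hm.aestronglyMeasurable

lemma integral_inner_dens {r : ℕ} (a : EE r) : ∫ x : EE r, ⟪a, x⟫ * dens x = 0 := by
  have h := integral_neg_eq_self (fun x : EE r => ⟪a, x⟫ * dens x) volume
  simp only [inner_neg_right, dens_neg, neg_mul] at h
  rw [integral_neg] at h
  linarith

end Vale.Agent.P226
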