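import Vale.Agent.P226.Basic

/-!
# The expected maximum of Gaussian linear forms
-/

open MeasureTheory Real ProbabilityTheory
open scoped RealInnerProductSpace

namespace Vale.Agent.P226

variable {r k : ℕ}

/-- Maximum of finitely many linear forms. -/
noncomputable def maxv [NeZero k] (v : Fin k → EE r) (x : EE r) : ℝ :=
  Finset.univ.sup' Finset.univ_nonempty (fun i => ⟪v i, x⟫)

lemma le_maxv [NeZero k] (v : Fin k → EE r) (i : Fin k) (x : EE r) : ⟪v i, x⟫ ≤ maxv v x :=
  Finset.le_sup' (fun i => ⟪v i, x⟫) (Finset.mem_univ i)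

lemma maxv_le [NeZero k] (v : Fin k → EE r) (x : EE r) {c : ℝ} (h : ∀ i, ⟪v i, x⟫ ≤ c) :
    maxv v x ≤ c :=
  Finset.sup'_le _ _ (fun i _ => h i)

lemma exists_eq_maxv [NeZero k] (v : Fin k → EE r) (x : EE r) : ∃ i, maxv v x = ⟪v i, x⟫ := by
  obtain ⟨i, -, hi⟩ := Finset.exists_mem_eq_sup' Finset.univ_nonempty (fun i => ⟪v i, x⟫)
  exact ⟨i, hi⟩

lemma continuous_maxv [NeZero k] (v : Fin k → EE r) : Continuous (maxv v) :=
  Continuous.finset_sup'_apply _ (fun _ _ => by fun_prop)

lemma GB_maxv [NeZero k] (v : Fin k → EE r) : GB (maxv v) := by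
  refine (GB.sum Finset.univ (h := fun i (x : EE r) => ‖v i‖ * ‖x‖)
    (fun i _ => (GB.const ‖v i‖).mul GB.norm)).mono (fun x => ?_)
  obtain ⟨i, hi⟩ := exists_eq_maxv v x
  rw [hi]
  exact ((abs_real_inner_le_norm _ _).trans
    (Finset.single_le_sum (f := fun j => ‖v j‖ * ‖x‖)
      (fun j _ => mul_nonneg (norm_nonneg _) (norm_nonneg _)) (Finset.mem_univ i))).trans
    (le_abs_self _)

/-- `E max_i ⟪v_i, X⟫`. -/
noncomputable def fmax [NeZero k] (v : Fin k → EE r) : ℝ := ∫ x, maxv v x * dens x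

lemma integrable_maxv [NeZero k] (v : Fin k → EE r) :
    Integrable (fun x => maxv v x * dens x) :=
  (GB_maxv v).integrable' (continuous_maxv v).measurable

lemma maxv_add_const [NeZero k] (v : Fin k → EE r) (c : EE r) (x : EE r) :
    maxv (fun i => v i + c) x = maxv v x + ⟪c, x⟫ := by
  apply le_antisymm
  · refine maxv_le _ _ fun i => ?_
    rw [inner_add_left]; linarith [le_maxv v i x]
  · obtain ⟨i, hi⟩ := exists_eq_maxv v x
    have := le_maxv (fun i => v i + c) i x
    simp only [inner_add_left] at this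
    linarith

lemma fmax_add_const [NeZero k] (v : Fin k → EE r) (c : EE r) :
    fmax (fun i => v i + c) = fmax v := by
  unfold fmax
  simp only [maxv_add_const, add_mul]
  rw [integral_add (integrable_maxv v) ((GB.inner c).integrable' (by fun_prop)),
    integral_inner_dens, add_zero]

lemma fmax_nonneg [NeZero k] (v : Fin k → EE r) : 0 ≤ fmax v := by
  have h : ∫ x, ⟪v 0, x⟫ * dens x ≤ fmax v := by
    refine integral_mono ((GB.inner _).integrable' (by fun_prop)) (integrable_maxv v) fun x => ?_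
    exact mul_le_mul_of_nonneg_right (le_maxv v 0 x) (dens_nonneg x)
  rwa [integral_inner_dens] at h

lemma maxv_smul [NeZero k] (v : Fin k → EE r) {t : ℝ} (ht : 0 ≤ t) (x : EE r) :
    maxv (fun i => t • v i) x = t * maxv v x := by
  apply le_antisymm
  · refine maxv_le _ _ fun i => ?_
    rw [real_inner_smul_left]; exact mul_le_mul_of_nonneg_left (le_maxv v i x) ht
  · obtain ⟨i, hi⟩ := exists_eq_maxv v x
    have := le_maxv (fun i => t • v i) i x
    simp only [real_inner_smul_left] at this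
    rw [hi]; exact this

lemma fmax_smul [NeZero k] (v : Fin k → EE r) {t : ℝ} (ht : 0 ≤ t) :
    fmax (fun i => t • v i) = t * fmax v := by
  unfold fmax
  simp only [maxv_smul v ht, mul_assoc]
  rw [integral_const_mul]

lemma abs_maxv_sub_le [NeZero k] (v w : Fin k → EE r) (x : EE r) :
    |maxv v x - maxv w x| ≤ (∑ i, ‖v i - w i‖) * ‖x‖ := by
  have key : ∀ a b : Fin k → EE r, maxv a x ≤ maxv b x + (∑ i, ‖a i - b i‖) * ‖x‖ := by
    intro a b
    refine maxv_le _ _ fun i => ?_
    have h1 : ⟪a i, x⟫ = ⟪b i, x⟫ + ⟪a i - b i, x⟫ := by rw [inner_sub_left]; ring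
    have h2 : ⟪a i - b i, x⟫ ≤ (∑ j, ‖a j - b j‖) * ‖x‖ :=
      (real_inner_le_norm _ _).trans (mul_le_mul_of_nonneg_right
        (Finset.single_le_sum (f := fun j => ‖a j - b j‖) (fun j _ => norm_nonneg _)
          (Finset.mem_univ i)) (norm_nonneg _))
    linarith [le_maxv b i x]
  have h1 := key v w
  have h2 := key w v
  have h3 : (∑ i, ‖w i - v i‖) = ∑ i, ‖v i - w i‖ :=
    Finset.sum_congr rfl fun i _ => norm_sub_rev _ _
  rw [h3] at h2
  rw [abs_sub_le_iff]; constructor <;> linarith

lemma continuous_fmax [NeZero k] : Continuous (fun v : Fin k → EE r => fmax v) := by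
  set M := ∫ x : EE r, ‖x‖ * dens x with hM
  have hMi : Integrable (fun x : EE r => ‖x‖ * dens x) := GB.norm.integrable' (by fun_prop)
  have hb : ∀ v w : Fin k → EE r, |fmax v - fmax w| ≤ (∑ i, ‖v i - w i‖) * M := by
    intro v w
    unfold fmax
    rw [← integral_sub (integrable_maxv v) (integrable_maxv w), hM, ← integral_const_mul]
    refine (abs_integral_le_integral_abs).trans
      (integral_mono (((integrable_maxv v).sub (integrable_maxv w)).abs) (hMi.const_mul _) ?_)
    intro x
    simp only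
    rw [← sub_mul, abs_mul, abs_of_nonneg (dens_nonneg x), ← mul_assoc]
    exact mul_le_mul_of_nonneg_right (abs_maxv_sub_le v w x) (dens_nonneg x)
  rw [continuous_iff_continuousAt]
  intro w
  rw [ContinuousAt, tendsto_iff_norm_sub_tendsto_zero]
  refine squeeze_zero (g := fun v => (∑ i, ‖v i - w i‖) * M) (fun v => norm_nonneg _)
    (fun v => by rw [Real.norm_eq_abs]; exact hb v w) ?_
  have hc : Continuous (fun v : Fin k → EE r => (∑ i, ‖v i - w i‖) * M) := by fun_prop
  simpa using hc.tendsto w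

/-- Squared norm sum. -/
noncomputable def ssq {d : ℕ} (v : Fin k → EE d) : ℝ := ∑ i, ‖v i‖ ^ 2

/-- A linear isometry has an adjoint pushing Gaussians to Gaussians. -/
lemma map_adjoint_stdGaussian {d e : ℕ} (ι : EE e →ₗᵢ[ℝ] EE d) :
    (stdGaussian (EE d)).map (ContinuousLinearMap.adjoint ι.toContinuousLinearMap)
      = stdGaussian (EE e) := by
  apply Measure.ext_of_charFun
  ext t
  rw [charFun_apply, integral_map (by fun_prop) (by fun_prop)]
  have : ∀ x : EE d, ⟪ContinuousLinearMap.adjoint ι.toContinuousLinearMap x, t⟫ = ⟪x, ι t⟫ :=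
    fun x => ContinuousLinearMap.adjoint_inner_left _ _ _
  simp only [this]
  rw [← charFun_apply, charFun_stdGaussian, charFun_stdGaussian, ι.norm_map]

/-- Transport of integrals along a linear isometric embedding. -/
lemma integral_comp_isometry {d e : ℕ} (ι : EE e →ₗᵢ[ℝ] EE d) (h : EE e → ℝ)
    (hh : Measurable h) :
    ∫ x : EE d, h (ContinuousLinearMap.adjoint ι.toContinuousLinearMap x) * dens x
      = ∫ y : EE e, h y * dens y := by
  rw [← integral_stdGaussian, ← integral_stdGaussian, ← map_adjoint_stdGaussian ι,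
    integral_map (by fun_prop) hh.aestronglyMeasurable]

lemma fmax_isometry [NeZero k] {d e : ℕ} (ι : EE e →ₗᵢ[ℝ] EE d) (v : Fin k → EE e) :
    fmax (fun i => ι (v i)) = fmax v := by
  have : ∀ x, maxv (fun i => ι (v i)) x
      = maxv v (ContinuousLinearMap.adjoint ι.toContinuousLinearMap x) := by
    intro x
    simp only [maxv, ContinuousLinearMap.adjoint_inner_right]
    rfl
  simp only [fmax, this]
  exact integral_comp_isometry ι (maxv v) (continuous_maxv v).measurable

lemma ssq_isometry {d e : ℕ} (ι : EE e →ₗᵢ[ℝ] EE d) (v : Fin k → EE e) :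
    ssq (fun i => ι (v i)) = ssq v := by simp [ssq]

/-- The target constant. -/
noncomputable def Tc : ℝ := 9 / (8 * π)

lemma Tc_pos : 0 < Tc := by unfold Tc; positivity

/-- The bound at `k` vectors in dimension `d`. -/
def BoundAt (k : ℕ) [NeZero k] (d : ℕ) : Prop :=
  ∀ v : Fin k → EE d, fmax v ^ 2 ≤ Tc * ssq v

lemma ssq_center_le [NeZero k] {d : ℕ} (v : Fin k → EE d) :
    ssq (fun i => v i + -((k : ℝ)⁻¹ • ∑ j, v j)) ≤ ssq v := by
  set c := (k : ℝ)⁻¹ • ∑ j, v j with hc
  have hk : (k : ℝ) ≠ 0 := Nat.cast_ne_zero.2 (NeZero.ne k)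
  have hs : ∑ i, v i = (k : ℝ) • c := by rw [hc, smul_inv_smul₀ hk]
  unfold ssq
  have e : ∀ i, ‖v i + -c‖ ^ 2 = ‖v i‖ ^ 2 - 2 * ⟪v i, c⟫ + ‖c‖ ^ 2 := fun i => by
    rw [← sub_eq_add_neg, norm_sub_sq_real]
  simp only [e, Finset.sum_add_distrib, Finset.sum_sub_distrib, ← Finset.mul_sum, ← sum_inner, hs,
    real_inner_smul_left, real_inner_self_eq_norm_sq, Finset.sum_const, Finset.card_univ,
    Fintype.card_fin, nsmul_eq_mul]
  nlinarith [mul_nonneg (Nat.cast_nonneg (α := ℝ) k) (sq_nonneg ‖c‖)]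

lemma center_sum [NeZero k] {d : ℕ} (v : Fin k → EE d) :
    ∑ i, (v i + -((k : ℝ)⁻¹ • ∑ j, v j)) = 0 := by
  have hk : (k : ℝ) ≠ 0 := Nat.cast_ne_zero.2 (NeZero.ne k)
  rw [Finset.sum_add_distrib, Finset.sum_const, Finset.card_univ, Fintype.card_fin,
    ← Nat.cast_smul_eq_nsmul ℝ, smul_neg, smul_inv_smul₀ hk, add_neg_cancel]

/-- Dimension reduction: dimension `r ≥ k-1` suffices. -/
lemma boundAt_all [NeZero k] {r : ℕ} (hr : k ≤ r + 1) (H : BoundAt k r) (d : ℕ) :
    BoundAt k d := by
  intro v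
  set c := -((k : ℝ)⁻¹ • ∑ j, v j) with hc
  set w := fun i => v i + c with hw
  have h1 : fmax w = fmax v := fmax_add_const v c
  have h2 : ssq w ≤ ssq v := ssq_center_le v
  have hsum : ∑ i, w i = 0 := center_sum v
  set W := Submodule.span ℝ (Set.range w) with hW
  have hdim : Module.finrank ℝ W ≤ r := by
    obtain ⟨m, hm⟩ := Nat.exists_eq_succ_of_ne_zero (NeZero.ne k)
    subst hm
    have hsub : W ≤ Submodule.span ℝ (Set.range fun j : Fin m => w j.castSucc) := by
      rw [hW, Submodule.span_le]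
      rintro _ ⟨i, rfl⟩
      induction i using Fin.lastCases with
      | cast j => exact Submodule.subset_span ⟨j, rfl⟩
      | last =>
        have : w (Fin.last m) = -∑ j : Fin m, w j.castSucc := by
          rw [Fin.sum_univ_castSucc] at hsum
          rw [eq_neg_iff_add_eq_zero, add_comm]; exact hsum
        rw [this]
        exact Submodule.neg_mem _ (Submodule.sum_mem _ fun j _ => Submodule.subset_span ⟨j, rfl⟩)
    have := (Submodule.finrank_mono hsub).trans
      (finrank_range_le_card (R := ℝ) (fun j : Fin m => w j.castSucc))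
    simp only [Fintype.card_fin] at this
    omega
  set e := Module.finrank ℝ W with he
  let b := stdOrthonormalBasis ℝ W
  let φ : EE e →ₗᵢ[ℝ] EE d := W.subtypeₗᵢ.comp b.repr.symm.toLinearIsometry
  let ψ : EE e →ₗᵢ[ℝ] EE r :=
    LinearMap.isometryOfInner
      (Module.Basis.constr (EuclideanSpace.basisFun (Fin e) ℝ).toBasis ℝ
        (fun i => EuclideanSpace.basisFun (Fin r) ℝ (Fin.castLE hdim i)))
      (by
        intro x y
        have hx : ∀ z : EE e, (Module.Basis.constr (EuclideanSpace.basisFun (Fin e) ℝ).toBasis ℝ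
            (fun i => EuclideanSpace.basisFun (Fin r) ℝ (Fin.castLE hdim i))) z
            = ∑ i, z i • EuclideanSpace.basisFun (Fin r) ℝ (Fin.castLE hdim i) := by
          intro z
          rw [Module.Basis.constr_apply_fintype]
          simp
        rw [hx, hx]
        have ho : Orthonormal ℝ (fun i => EuclideanSpace.basisFun (Fin r) ℝ (Fin.castLE hdim i)) :=
          (EuclideanSpace.basisFun (Fin r) ℝ).orthonormal.comp _ (Fin.castLE_injective hdim)
        rw [ho.inner_sum, PiLp.inner_apply]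
        simp [mul_comm])
  have hmem : ∀ i, ∃ u : EE e, φ u = w i := fun i =>
    ⟨b.repr ⟨w i, Submodule.subset_span ⟨i, rfl⟩⟩, by simp [φ]⟩
  choose u hu using hmem
  have hu' : (fun i => φ (u i)) = w := funext hu
  have e1 : fmax w = fmax u := by rw [← hu', fmax_isometry]
  have e2 : ssq w = ssq u := by rw [← hu', ssq_isometry]
  have key := H (fun i => ψ (u i))
  rw [fmax_isometry, ssq_isometry] at key
  rw [← h1, e1]
  refine key.trans (mul_le_mul_of_nonneg_left ?_ Tc_pos.le)
  rw [← e2]; exact h2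

end Vale.Agent.P226
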