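import Vale.Agent.P226.Radial
import Vale.Agent.P226.Fmax

/-!
# The spherical cap bound for the first moment of a cone
-/

open MeasureTheory Real Set
open scoped RealInnerProductSpace

namespace Vale.Agent.P226

variable {r : ℕ}

/-- The integral of the positive part of `x₀ - c‖x‖`. -/
noncomputable def Hc (r : ℕ) [NeZero r] (c : ℝ) : ℝ :=
  ∫ x : EE r, max (x 0 - c * ‖x‖) 0 * dens x

/-- A linear isometry of the space sending the first basis vector to a given unit vector. -/
lemma exists_isometry_first [NeZero r] (u : EE r) (hu : ‖u‖ = 1) :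
    ∃ ι : EE r →ₗᵢ[ℝ] EE r, ι (EuclideanSpace.single (0 : Fin r) (1 : ℝ)) = u := by
  have hcard : Module.finrank ℝ (EE r) = Fintype.card (Fin r) := by simp
  have ho : Orthonormal ℝ (({(0 : Fin r)} : Set (Fin r)).domRestrict (fun _ => u)) := by
    constructor
    · intro i; exact hu
    · intro i j hij; exact absurd (Subsingleton.elim i j) hij
  obtain ⟨b, hb⟩ := ho.exists_orthonormalBasis_extension_of_card_eq hcard
  refine ⟨b.repr.symm.toLinearIsometry, ?_⟩
  simp [hb 0 rfl]

lemma adjoint_apply_zero [NeZero r] (ι : EE r →ₗᵢ[ℝ] EE r) (x : EE r) :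
    (ContinuousLinearMap.adjoint ι.toContinuousLinearMap x) 0
      = ⟪ι (EuclideanSpace.single (0 : Fin r) (1 : ℝ)), x⟫ := by
  have h := ContinuousLinearMap.adjoint_inner_right ι.toContinuousLinearMap
    (EuclideanSpace.single (0 : Fin r) (1 : ℝ)) x
  rw [EuclideanSpace.inner_single_left] at h
  simpa using h

lemma norm_adjoint [NeZero r] (ι : EE r →ₗᵢ[ℝ] EE r) (x : EE r) :
    ‖ContinuousLinearMap.adjoint ι.toContinuousLinearMap x‖ = ‖x‖ := by
  have hsurj : Function.Surjective ι.toLinearMap :=
    LinearMap.injective_iff_surjective.1 ι.injective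
  obtain ⟨y, rfl⟩ := hsurj x
  have : ContinuousLinearMap.adjoint ι.toContinuousLinearMap (ι y) = y := by
    apply ext_inner_right ℝ
    intro z
    rw [ContinuousLinearMap.adjoint_inner_left]
    exact ι.inner_map_map y z
  change ‖ContinuousLinearMap.adjoint ι.toContinuousLinearMap (ι y)‖ = ‖ι y‖
  rw [this, ι.norm_map]

lemma integral_pos_part [NeZero r] (u : EE r) (hu : ‖u‖ = 1) (c : ℝ) :
    ∫ x : EE r, max (⟪u, x⟫ - c * ‖x‖) 0 * dens x = Hc r c := by
  obtain ⟨ι, hι⟩ := exists_isometry_first u hu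
  have h := integral_comp_isometry ι (fun y : EE r => max (y 0 - c * ‖y‖) 0) (by fun_prop)
  simp only [adjoint_apply_zero, hι, norm_adjoint] at h
  exact h

lemma cap_bound [NeZero r] {A : Set (EE r)} (hA : MeasurableSet A) (hc : IsCone A) (u : EE r)
    (c : ℝ) :
    ∫ x in A, ⟪u, x⟫ * dens x ≤ ‖u‖ * (c * Er r * pm A + Hc r c) := by
  rcases eq_or_ne u 0 with rfl | hu
  · simp
  have hn : 0 < ‖u‖ := norm_pos_iff.2 hu
  set w := ‖u‖⁻¹ • u with hw
  have hw1 : ‖w‖ = 1 := norm_smul_inv_norm hu
  have h1 : Integrable (fun x : EE r => ⟪w, x⟫ * dens x) := (GB.inner w).integrable' (by fun_prop)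
  have h2 : Integrable (fun x : EE r => c * ‖x‖ * dens x) :=
    ((GB.const c).mul GB.norm).integrable' (by fun_prop)
  have h3 : Integrable (fun x : EE r => max (⟪w, x⟫ - c * ‖x‖) 0 * dens x) :=
    (((GB.inner w).sub ((GB.const c).mul GB.norm)).max0).integrable' (by fun_prop)
  have key : ∫ x in A, ⟪w, x⟫ * dens x ≤ c * Er r * pm A + Hc r c := by
    calc ∫ x in A, ⟪w, x⟫ * dens x
        ≤ ∫ x in A, (c * ‖x‖ * dens x + max (⟪w, x⟫ - c * ‖x‖) 0 * dens x) := by
          refine setIntegral_mono h1.integrableOn (h2.add h3).integrableOn fun x => ?_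
          rw [← add_mul]
          exact mul_le_mul_of_nonneg_right
            (by linarith [le_max_left (⟪w, x⟫ - c * ‖x‖) 0]) (dens_nonneg x)
      _ = c * Er r * pm A + ∫ x in A, max (⟪w, x⟫ - c * ‖x‖) 0 * dens x := by
          rw [integral_add h2.integrableOn h3.integrableOn, mul_assoc c, ← cone_norm hA hc,
            ← integral_const_mul]
          simp only [mul_assoc]
      _ ≤ _ := by
          rw [← integral_pos_part w hw1 c]
          have := setIntegral_le_integral (s := A) h3
            (ae_of_all _ fun x => mul_nonneg (le_max_right _ _) (dens_nonneg x))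
          linarith
  have e : ∀ x : EE r, ⟪u, x⟫ * dens x = ‖u‖ * (⟪w, x⟫ * dens x) := by
    intro x; rw [hw, real_inner_smul_left]; field_simp
  simp only [e]
  rw [integral_const_mul]
  exact mul_le_mul_of_nonneg_left key hn.le

end Vale.Agent.P226
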