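import Mathlib

/-!
# Rational certificates for the many-cell cases
-/

namespace Vale.Agent.P226

/-- One row of a certificate. -/
structure CertRow where
  lo : ℚ
  hi : ℚ
  θ : ℚ
  α : ℚ
  β1 : ℚ
  β2 : ℚ

/-- Value of the quadratic attached to a line. -/
def quadVal (w α : ℚ) (l : ℚ × ℚ) (x : ℚ) : ℚ := w * (l.1 * x + l.2) ^ 2 - α * x

/-- Checks `w n² - α p ≤ β` on `[P,1]` from piecewise linear upper bounds of `n`. -/
def segOK (w α β : ℚ) : ℚ → List ((ℚ × ℚ) × ℚ) → Bool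
  | P, [] => decide (1 ≤ P)
  | P, (l, Q) :: rest =>
    if Q ≤ P then segOK w α β P rest
    else decide (quadVal w α l P ≤ β) && decide (quadVal w α l Q ≤ β) && segOK w α β Q rest

lemma quad_le_between {w a b α β P Q p : ℝ} (hw : 0 ≤ w) (hP : P ≤ p) (hQ : p ≤ Q)
    (hvP : w * (a * P + b) ^ 2 - α * P ≤ β) (hvQ : w * (a * Q + b) ^ 2 - α * Q ≤ β) :
    w * (a * p + b) ^ 2 - α * p ≤ β := by
  rcases (hP.trans hQ).lt_or_eq with h | h
  · refine le_of_mul_le_mul_left ?_ (sub_pos.2 h)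
    have h1 := mul_le_mul_of_nonneg_left hvP (sub_nonneg.2 hQ)
    have h2 := mul_le_mul_of_nonneg_left hvQ (sub_nonneg.2 hP)
    have h3 : 0 ≤ w * a ^ 2 * ((p - P) * (Q - p) * (Q - P)) :=
      mul_nonneg (mul_nonneg hw (sq_nonneg a))
        (mul_nonneg (mul_nonneg (sub_nonneg.2 hP) (sub_nonneg.2 hQ)) (sub_nonneg.2 h.le))
    linarith
  · have : p = P := le_antisymm (h ▸ hQ) hP
    rw [this]; exact hvP

lemma segOK_sound {w α β : ℚ} (hw : 0 ≤ w) {n p : ℝ} (hn : 0 ≤ n) (hp1 : p ≤ 1) :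
    ∀ (segs : List ((ℚ × ℚ) × ℚ)) (P : ℚ), segOK w α β P segs = true → (P : ℝ) ≤ p →
      (∀ s ∈ segs, n ≤ (s.1.1 : ℝ) * p + (s.1.2 : ℝ)) → (P : ℝ) < p →
      (w : ℝ) * n ^ 2 - (α : ℝ) * p ≤ (β : ℝ) := by
  intro segs
  induction segs with
  | nil =>
    intro P h _ _ hP
    simp only [segOK, decide_eq_true_eq] at h
    have : (1 : ℝ) ≤ (P : ℝ) := by exact_mod_cast h
    linarith
  | cons hd rest ih =>
    obtain ⟨l, Q⟩ := hd
    intro P h hP hl hP'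
    have hrest : ∀ s ∈ rest, n ≤ (s.1.1 : ℝ) * p + (s.1.2 : ℝ) := fun s hs =>
      hl s (List.mem_cons_of_mem _ hs)
    simp only [segOK] at h
    split_ifs at h with hQP
    · exact ih P h hP hrest hP'
    · simp only [Bool.and_eq_true, decide_eq_true_eq] at h
      obtain ⟨⟨h1, h2⟩, h3⟩ := h
      rcases le_or_gt p (Q : ℝ) with hpQ | hpQ
      · have hn2 : n ^ 2 ≤ ((l.1 : ℝ) * p + (l.2 : ℝ)) ^ 2 :=
          pow_le_pow_left₀ hn (hl (l, Q) (List.mem_cons_self ..)) 2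
        have h1' : (w : ℝ) * ((l.1 : ℝ) * (P : ℝ) + (l.2 : ℝ)) ^ 2 - (α : ℝ) * (P : ℝ) ≤ β := by
          exact_mod_cast h1
        have h2' : (w : ℝ) * ((l.1 : ℝ) * (Q : ℝ) + (l.2 : ℝ)) ^ 2 - (α : ℝ) * (Q : ℝ) ≤ β := by
          exact_mod_cast h2
        have hw' : (0 : ℝ) ≤ w := by exact_mod_cast hw
        have := quad_le_between hw' hP hpQ h1' h2'
        linarith [mul_le_mul_of_nonneg_left hn2 hw']
      · exact ih Q h3 hpQ.le hrest hpQ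

lemma segOK_sound' {w α β : ℚ} (hw : 0 ≤ w) {n p : ℝ} (hn : 0 ≤ n) (hp1 : p ≤ 1)
    (segs : List ((ℚ × ℚ) × ℚ)) (P : ℚ) (hok : segOK w α β P segs = true) (hPp : (P : ℝ) ≤ p)
    (hl : ∀ s ∈ segs, n ≤ (s.1.1 : ℝ) * p + (s.1.2 : ℝ)) (hP1 : P < 1) :
    (w : ℝ) * n ^ 2 - (α : ℝ) * p ≤ (β : ℝ) := by
  rcases hPp.lt_or_eq with h | h
  · exact segOK_sound hw hn hp1 segs P hok hPp hl h
  induction segs with
  | nil =>
    simp only [segOK, decide_eq_true_eq] at hok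
    linarith
  | cons hd rest ih =>
    obtain ⟨l, Q⟩ := hd
    simp only [segOK] at hok
    split_ifs at hok with hQP
    · exact ih hok fun s hs => hl s (List.mem_cons_of_mem _ hs)
    · simp only [Bool.and_eq_true, decide_eq_true_eq] at hok
      have hn2 : n ^ 2 ≤ ((l.1 : ℝ) * p + (l.2 : ℝ)) ^ 2 :=
        pow_le_pow_left₀ hn (hl (l, Q) (List.mem_cons_self ..)) 2
      have h1' : (w : ℝ) * ((l.1 : ℝ) * (P : ℝ) + (l.2 : ℝ)) ^ 2 - (α : ℝ) * (P : ℝ) ≤ β := by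
        exact_mod_cast hok.1.1
      have hw' : (0 : ℝ) ≤ w := by exact_mod_cast hw
      rw [h] at h1'
      linarith [mul_le_mul_of_nonneg_left hn2 hw']

/-- A row of the certificate for a fixed number `k` of cells. -/
def rowOKFin (k : ℕ) (s T0 : ℚ) (segs : List ((ℚ × ℚ) × ℚ)) (c : CertRow) : Bool :=
  decide (0 ≤ c.lo) && decide (c.lo / s < 1) && decide (0 ≤ c.θ) && decide (c.θ ≤ 1) &&
    segOK 1 c.α c.β1 (c.lo / s) segs && segOK (1 - c.θ) c.α c.β2 (c.lo / s) segs &&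
    decide (c.θ * ((k : ℚ) * ((k : ℚ) - 1)) * c.hi ^ 2 + c.α + 2 * c.β1 + ((k : ℚ) - 2) * c.β2 ≤ T0)

/-- A row of the certificate that covers every `k ≥ 10`. -/
def rowOKUnif (s T0 : ℚ) (segs : List ((ℚ × ℚ) × ℚ)) (c : CertRow) : Bool :=
  decide (0 ≤ c.lo) && decide (c.lo / (10 * s) < 1) && decide (0 ≤ c.θ) && decide (c.θ ≤ 1) &&
    decide (0 ≤ c.α) &&
    segOK 1 c.α c.β1 0 segs && segOK (1 - c.θ) c.α c.β2 (c.lo / (10 * s)) segs &&
    decide (c.β2 = (1 - c.θ) * s ^ 2 * (c.lo / (10 * s)) ^ 2 - c.α * (c.lo / (10 * s))) &&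
    decide (2 * (1 - c.θ) * s ^ 2 * (c.lo / (10 * s)) ≤ c.α) &&
    decide (c.θ * c.hi ^ 2 + c.α + 2 * c.β1 + 8 * c.β2 ≤ T0)

/-- The rows cover an interval. -/
def chainOK (ok : CertRow → Bool) (top : ℚ) : ℚ → List CertRow → Bool
  | cur, [] => decide (top ≤ cur)
  | cur, c :: rest => decide (c.lo = cur) && ok c && chainOK ok top c.hi rest

lemma chainOK_sound {ok : CertRow → Bool} {top : ℚ} {x : ℝ} (hx : x ≤ (top : ℝ)) :
    ∀ (rows : List CertRow) (cur : ℚ), chainOK ok top cur rows = true → (cur : ℝ) < x →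
      ∃ c, ok c = true ∧ (c.lo : ℝ) < x ∧ x ≤ (c.hi : ℝ) := by
  intro rows
  induction rows with
  | nil =>
    intro cur h hcur
    simp only [chainOK, decide_eq_true_eq] at h
    have : (top : ℝ) ≤ (cur : ℝ) := by exact_mod_cast h
    linarith
  | cons c rest ih =>
    intro cur h hcur
    simp only [chainOK, Bool.and_eq_true, decide_eq_true_eq] at h
    obtain ⟨⟨h1, h2⟩, h3⟩ := h
    rcases le_or_gt x (c.hi : ℝ) with hx1 | hx1
    · exact ⟨c, h2, by rw [h1]; exact hcur, hx1⟩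
    · exact ih c.hi h3 hx1

lemma cert_sum {k : ℕ} (θ α β1 β2 : ℝ) (n p : Fin k → ℝ) (hsum : ∑ i, p i = 1)
    (a b : Fin k) (hab : a ≠ b) (h1 : ∀ i, n i ^ 2 - α * p i ≤ β1)
    (h2 : ∀ i, (1 - θ) * n i ^ 2 - α * p i ≤ β2) (hθ : 0 ≤ θ) (K e : ℝ)
    (hpair : ∑ i, n i ^ 2 ≤ K * e ^ 2 + (n a ^ 2 + n b ^ 2)) :
    ∑ i, n i ^ 2 ≤ θ * (K * e ^ 2) + α + 2 * β1 + ((k : ℝ) - 2) * β2 := by
  classical
  have hmem : b ∈ (Finset.univ : Finset (Fin k)).erase a := by simp [hab.symm]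
  have split : ∀ f : Fin k → ℝ, ∑ i, f i =
      f a + f b + ∑ i ∈ (Finset.univ.erase a).erase b, f i := fun f => by
    rw [← Finset.add_sum_erase _ f (Finset.mem_univ a), ← Finset.add_sum_erase _ f hmem]
    ring
  have hR : ∑ i ∈ (Finset.univ.erase a).erase b, ((1 - θ) * n i ^ 2)
      ≤ ∑ i ∈ (Finset.univ.erase a).erase b, (α * p i + β2) :=
    Finset.sum_le_sum fun i _ => by linarith [h2 i]
  rw [Finset.sum_add_distrib, ← Finset.mul_sum, ← Finset.mul_sum, Finset.sum_const,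
    Finset.card_erase_of_mem hmem, Finset.card_erase_of_mem (Finset.mem_univ a), Finset.card_univ,
    Fintype.card_fin, nsmul_eq_mul] at hR
  have hk : 2 ≤ k := by
    have := Finset.card_le_univ ({a, b} : Finset (Fin k))
    rw [Finset.card_pair hab, Fintype.card_fin] at this; exact this
  rw [Nat.cast_sub (by omega), Nat.cast_sub (by omega)] at hR
  simp only [Nat.cast_one] at hR
  have hp := split p
  have hF := split fun i => n i ^ 2
  rw [hsum] at hp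
  have h3 := mul_le_mul_of_nonneg_left hpair hθ
  have h4 : ∑ i, n i ^ 2 = θ * ∑ i, n i ^ 2 + (1 - θ) * ∑ i, n i ^ 2 := by ring
  have h5 := congrArg (fun x => (1 - θ) * x) hF
  have h6 := congrArg (fun x => α * x) hp

  linarith [h1 a, h1 b]

/-- The pure inequality excluded by a certificate, fixed `k`. -/
theorem cert_fin {k : ℕ} (hk : 2 ≤ k) (s T0 : ℚ) (hs : 0 < s) (segs : List ((ℚ × ℚ) × ℚ))
    (rows : List CertRow) (hcheck : chainOK (rowOKFin k s T0 segs) (s / k) 0 rows = true)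
    (n p : Fin k → ℝ) (hn : ∀ i, 0 < n i) (hsum : ∑ i, p i = 1) (hns : ∀ i, n i ≤ (s : ℝ) * p i)
    (hline : ∀ i, ∀ t ∈ segs, n i ≤ (t.1.1 : ℝ) * p i + (t.1.2 : ℝ))
    (hpair : ∀ m, ∃ a b, a ≠ b ∧
      ∑ i, n i ^ 2 ≤ (k : ℝ) * ((k : ℝ) - 1) * n m ^ 2 + (n a ^ 2 + n b ^ 2)) :
    ∑ i, n i ^ 2 ≤ (T0 : ℝ) := by
  have : NeZero k := ⟨by omega⟩
  obtain ⟨m, -, hm⟩ := Finset.exists_min_image Finset.univ n Finset.univ_nonempty
  set e := n m with he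
  have hsR : (0 : ℝ) < s := by exact_mod_cast hs
  have hp : ∀ i, e / (s : ℝ) ≤ p i := fun i => by
    rw [div_le_iff₀ hsR]
    linarith [hm i (Finset.mem_univ i), hns i]
  have hp1 : ∀ i, p i ≤ 1 := fun i => by
    rw [← hsum]
    exact Finset.single_le_sum (fun j _ => (div_nonneg (hn m).le hsR.le).trans (hp j))
      (Finset.mem_univ i)
  have htop : e ≤ ((s / k : ℚ) : ℝ) := by
    have h1 : ∑ _i : Fin k, e ≤ ∑ i, (s : ℝ) * p i :=
      Finset.sum_le_sum fun i _ => (hm i (Finset.mem_univ i)).trans (hns i)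
    rw [Finset.sum_const, Finset.card_univ, Fintype.card_fin, nsmul_eq_mul, ← Finset.mul_sum,
      hsum, mul_one] at h1
    push_cast
    rw [le_div_iff₀ (by positivity)]; linarith
  obtain ⟨c, hc, hlo, hhi⟩ := chainOK_sound htop rows 0 hcheck (by simpa using hn m)
  simp only [rowOKFin, Bool.and_eq_true, decide_eq_true_eq] at hc
  obtain ⟨⟨⟨⟨⟨⟨g1, g2⟩, g3⟩, g4⟩, g5⟩, g6⟩, g7⟩ := hc
  have hP : ∀ i, ((c.lo / s : ℚ) : ℝ) ≤ p i := fun i => by
    refine le_trans ?_ (hp i)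
    push_cast
    exact div_le_div_of_nonneg_right hlo.le hsR.le
  obtain ⟨a, b, hab, hp2⟩ := hpair m
  have q1 : ∀ i, n i ^ 2 - (c.α : ℝ) * p i ≤ (c.β1 : ℝ) := fun i => by
    have := segOK_sound' (w := 1) zero_le_one (hn i).le (hp1 i) segs _ g5 (hP i) (hline i) g2
    simpa using this
  have q2 : ∀ i, (1 - (c.θ : ℝ)) * n i ^ 2 - (c.α : ℝ) * p i ≤ (c.β2 : ℝ) := fun i => by
    have := segOK_sound' (w := 1 - c.θ) (sub_nonneg.2 g4) (hn i).le (hp1 i) segs _ g6 (hP i)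
      (hline i) g2
    simpa using this
  have hθ : (0 : ℝ) ≤ c.θ := by exact_mod_cast g3
  refine (cert_sum _ _ _ _ n p hsum a b hab q1 q2 hθ _ e hp2).trans ?_
  have g7' : (c.θ : ℝ) * ((k : ℝ) * ((k : ℝ) - 1)) * (c.hi : ℝ) ^ 2 + (c.α : ℝ) + 2 * (c.β1 : ℝ)
      + ((k : ℝ) - 2) * (c.β2 : ℝ) ≤ (T0 : ℝ) := by exact_mod_cast g7
  have hK : (0 : ℝ) ≤ (c.θ : ℝ) * ((k : ℝ) * ((k : ℝ) - 1)) := by
    have : (2 : ℝ) ≤ k := by exact_mod_cast hk
    exact mul_nonneg hθ (mul_nonneg (by positivity) (by linarith))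
  linarith [mul_le_mul_of_nonneg_left (pow_le_pow_left₀ (hn m).le hhi 2) hK]

/-- The pure inequality excluded by a uniform certificate, all `k ≥ 10`. -/
theorem cert_unif {k : ℕ} (hk : 10 ≤ k) (s T0 : ℚ) (hs : 0 < s) (segs : List ((ℚ × ℚ) × ℚ))
    (rows : List CertRow) (hcheck : chainOK (rowOKUnif s T0 segs) s 0 rows = true)
    (n p : Fin k → ℝ) (hn : ∀ i, 0 < n i) (hsum : ∑ i, p i = 1) (hns : ∀ i, n i ≤ (s : ℝ) * p i)
    (hline : ∀ i, ∀ t ∈ segs, n i ≤ (t.1.1 : ℝ) * p i + (t.1.2 : ℝ))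
    (hpair : ∀ m, ∃ a b, a ≠ b ∧
      ∑ i, n i ^ 2 ≤ (k : ℝ) * ((k : ℝ) - 1) * n m ^ 2 + (n a ^ 2 + n b ^ 2)) :
    ∑ i, n i ^ 2 ≤ (T0 : ℝ) := by
  have : NeZero k := ⟨by omega⟩
  have hkR : (10 : ℝ) ≤ k := by exact_mod_cast hk
  obtain ⟨m, -, hm⟩ := Finset.exists_min_image Finset.univ n Finset.univ_nonempty
  set e := n m with he
  have hsR : (0 : ℝ) < s := by exact_mod_cast hs
  have hp : ∀ i, e / (s : ℝ) ≤ p i := fun i => by
    rw [div_le_iff₀ hsR]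
    linarith [hm i (Finset.mem_univ i), hns i]
  have hp0 : ∀ i, 0 < p i := fun i => (div_pos (hn m) hsR).trans_le (hp i)
  have hp1 : ∀ i, p i ≤ 1 := fun i => by
    rw [← hsum]; exact Finset.single_le_sum (fun j _ => (hp0 j).le) (Finset.mem_univ i)
  set u := (k : ℝ) * e with hu
  have htop : u ≤ (s : ℝ) := by
    have h1 : ∑ _i : Fin k, e ≤ ∑ i, (s : ℝ) * p i :=
      Finset.sum_le_sum fun i _ => (hm i (Finset.mem_univ i)).trans (hns i)
    rw [Finset.sum_const, Finset.card_univ, Fintype.card_fin, nsmul_eq_mul, ← Finset.mul_sum,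
      hsum, mul_one] at h1
    exact h1
  obtain ⟨c, hc, hlo, hhi⟩ := chainOK_sound htop rows 0 hcheck
    (by simpa using mul_pos (by linarith : (0 : ℝ) < k) (hn m))
  simp only [rowOKUnif, Bool.and_eq_true, decide_eq_true_eq] at hc
  obtain ⟨⟨⟨⟨⟨⟨⟨⟨⟨g1, g2⟩, g3⟩, g4⟩, g4'⟩, g5⟩, g6⟩, g8⟩, g9⟩, g7⟩ := hc
  obtain ⟨a, b, hab, hp2⟩ := hpair m
  set θ := (c.θ : ℝ) with hθdef
  set α := (c.α : ℝ) with hαdef
  have hθ : (0 : ℝ) ≤ θ := by rw [hθdef]; exact_mod_cast g3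
  have hθ1 : θ ≤ 1 := by rw [hθdef]; exact_mod_cast g4
  have hw : 0 ≤ 1 - θ := sub_nonneg.2 hθ1
  have hlo0 : (0 : ℝ) ≤ c.lo := by exact_mod_cast g1
  set P10 := (c.lo : ℝ) / (10 * (s : ℝ)) with hP10
  set Pk := (c.lo : ℝ) / ((k : ℝ) * (s : ℝ)) with hPk
  have hPk0 : 0 ≤ Pk := by positivity
  have hPkp : ∀ i, Pk ≤ p i := fun i => by
    refine le_trans ?_ (hp i)
    rw [hPk, div_mul_eq_div_div]
    refine div_le_div_of_nonneg_right ?_ hsR.le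
    rw [div_le_iff₀ (by linarith)]; linarith
  have hPk10 : Pk ≤ P10 :=
    div_le_div_of_nonneg_left hlo0 (by positivity) (mul_le_mul_of_nonneg_right hkR hsR.le)
  have g8' : (c.β2 : ℝ) = (1 - θ) * (s : ℝ) ^ 2 * P10 ^ 2 - α * P10 := by
    rw [hθdef, hαdef, hP10]; exact_mod_cast g8
  have g9' : 2 * (1 - θ) * (s : ℝ) ^ 2 * P10 ≤ α := by
    rw [hθdef, hαdef, hP10]; exact_mod_cast g9
  set β := (1 - θ) * (s : ℝ) ^ 2 * Pk ^ 2 - α * Pk with hβ
  have hmono : ∀ x, Pk ≤ x → x ≤ P10 → (1 - θ) * (s : ℝ) ^ 2 * x ^ 2 - α * x ≤ β := by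
    intro x h1 h2
    have hx : (1 - θ) * (s : ℝ) ^ 2 * (x + Pk) ≤ α := by
      refine le_trans ?_ g9'
      nlinarith [mul_le_mul_of_nonneg_left (add_le_add h2 hPk10) (mul_nonneg hw (sq_nonneg (s : ℝ)))]
    nlinarith [mul_le_mul_of_nonneg_left hx (sub_nonneg.2 h1)]
  have q1 : ∀ i, n i ^ 2 - α * p i ≤ (c.β1 : ℝ) := fun i => by
    have := segOK_sound (w := 1) zero_le_one (hn i).le (hp1 i) segs 0 g5
      (by simpa using (hp0 i).le) (hline i) (by simpa using hp0 i)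
    simpa using this
  have q2 : ∀ i, (1 - θ) * n i ^ 2 - α * p i ≤ β := fun i => by
    rcases le_or_gt P10 (p i) with h | h
    · have := segOK_sound' (w := 1 - c.θ) (sub_nonneg.2 g4) (hn i).le (hp1 i) segs _ g6
        (by push_cast; exact h) (hline i) g2
      push_cast at this
      rw [g8'] at this
      exact this.trans (hmono P10 hPk10 le_rfl)
    · have h1 := pow_le_pow_left₀ (hn i).le (hns i) 2
      linarith [mul_le_mul_of_nonneg_left h1 hw, hmono _ (hPkp i) h.le]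
  refine (cert_sum _ _ _ _ n p hsum a b hab q1 q2 hθ _ e hp2).trans ?_
  have g7' : θ * (c.hi : ℝ) ^ 2 + α + 2 * (c.β1 : ℝ) + 8 * (c.β2 : ℝ) ≤ (T0 : ℝ) := by
    rw [hθdef, hαdef]; exact_mod_cast g7
  have h1 : (k : ℝ) * ((k : ℝ) - 1) * e ^ 2 ≤ (c.hi : ℝ) ^ 2 := by
    have := pow_le_pow_left₀ (mul_nonneg (by linarith) (hn m).le : 0 ≤ u) hhi 2
    have h0 : 0 ≤ (k : ℝ) * e ^ 2 := by positivity
    linarith
  have h2 : ((k : ℝ) - 2) * β ≤ 8 * (c.β2 : ℝ) := by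
    have hkP : (k : ℝ) * Pk = 10 * P10 := by rw [hPk, hP10]; field_simp
    have hb : (1 - θ) * (s : ℝ) ^ 2 * P10 - α ≤ 0 := by
      have := mul_nonneg (mul_nonneg hw (sq_nonneg (s : ℝ)))
        (by positivity : (0 : ℝ) ≤ P10)
      linarith
    have hb2 : (1 - θ) * (s : ℝ) ^ 2 * Pk - α ≤ (1 - θ) * (s : ℝ) ^ 2 * P10 - α := by
      have := mul_le_mul_of_nonneg_left hPk10 (mul_nonneg hw (sq_nonneg (s : ℝ)))
      linarith
    have e1 : ((k : ℝ) - 2) * β = (((k : ℝ) - 2) * Pk) * ((1 - θ) * (s : ℝ) ^ 2 * Pk - α) := by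
      rw [hβ]; ring
    have hA : 8 * P10 ≤ ((k : ℝ) - 2) * Pk := by linarith
    calc ((k : ℝ) - 2) * β
        = (((k : ℝ) - 2) * Pk) * ((1 - θ) * (s : ℝ) ^ 2 * Pk - α) := e1
      _ ≤ (((k : ℝ) - 2) * Pk) * ((1 - θ) * (s : ℝ) ^ 2 * P10 - α) :=
          mul_le_mul_of_nonneg_left hb2 (mul_nonneg (by linarith) hPk0)
      _ ≤ (8 * P10) * ((1 - θ) * (s : ℝ) ^ 2 * P10 - α) := mul_le_mul_of_nonpos_right hA hb
      _ = _ := by rw [g8']; ring
  linarith [mul_le_mul_of_nonneg_left h1 hθ]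

end Vale.Agent.P226
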