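import Vale.Agent.P226.Cert

/-!
# Certificate data
-/

namespace Vale.Agent.P226

/-- A rational lower bound for the target constant. -/
def T0q : ℚ := 3580986 / 10000000

/-- Envelope for `five`. -/
def segs_five : List ((ℚ × ℚ) × ℚ) :=
  [(((607 / 400 : ℚ), (0 : ℚ)), (105633 / 1000000 : ℚ)),
   (((12506059 / 10000000 : ℚ), (35241 / 1250000 : ℚ)), (68279 / 500000 : ℚ)),
   (((328221 / 312500 : ℚ), (138863 / 2500000 : ℚ)), (192791 / 1000000 : ℚ)),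
   (((4246977 / 5000000 : ℚ), (942791 / 10000000 : ℚ)), (122647 / 500000 : ℚ)),
   (((875569 / 1250000 : ℚ), (327033 / 2500000 : ℚ)), (284323 / 1000000 : ℚ)),
   (((749911 / 1250000 : ℚ), (49811 / 312500 : ℚ)), (316597 / 1000000 : ℚ)),
   (((998533 / 2000000 : ℚ), (956323 / 5000000 : ℚ)), (17881 / 50000 : ℚ)),
   (((1745667 / 5000000 : ℚ), (153097 / 625000 : ℚ)), (407313 / 1000000 : ℚ)),
   (((2003929 / 10000000 : ℚ), (95481 / 312500 : ℚ)), (466101 / 1000000 : ℚ)),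
   (((0 : ℚ), (1994713 / 5000000 : ℚ)), (1 : ℚ))]

/-- Rows for `five`. -/
def rows_five : List CertRow :=
  [⟨(0 : ℚ), (4937 / 100000 : ℚ), (3 / 5 : ℚ), (31 / 200 : ℚ), (108637 / 1250000 : ℚ), (1 / 10000000 : ℚ)⟩,
   ⟨(4937 / 100000 : ℚ), (1273 / 20000 : ℚ), (3 / 8 : ℚ), (53 / 200 : ℚ), (419919 / 10000000 : ℚ), (-3549 / 500000 : ℚ)⟩,
   ⟨(1273 / 20000 : ℚ), (7113 / 100000 : ℚ), (7 / 40 : ℚ), (143 / 400 : ℚ), (557 / 62500 : ℚ), (-58263 / 5000000 : ℚ)⟩,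
   ⟨(7113 / 100000 : ℚ), (3763 / 50000 : ℚ), (1 / 8 : ℚ), (153 / 400 : ℚ), (4669 / 5000000 : ℚ), (-3371 / 250000 : ℚ)⟩,
   ⟨(3763 / 50000 : ℚ), (3969 / 50000 : ℚ), (3 / 40 : ℚ), (163 / 400 : ℚ), (-17453 / 2500000 : ℚ), (-29941 / 2000000 : ℚ)⟩,
   ⟨(3969 / 50000 : ℚ), (8421 / 100000 : ℚ), (1 / 20 : ℚ), (21 / 50 : ℚ), (-52681 / 5000000 : ℚ), (-79901 / 5000000 : ℚ)⟩,
   ⟨(8421 / 100000 : ℚ), (607 / 2000 : ℚ), (0 : ℚ), (89 / 200 : ℚ), (-21963 / 1250000 : ℚ), (-21963 / 1250000 : ℚ)⟩]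

theorem check_five : chainOK (rowOKFin 5 (607 / 400 : ℚ) T0q segs_five) ((607 / 400 : ℚ) / 5) 0 rows_five = true := by
  decide +kernel

/-- Envelope for `six`. -/
def segs_six : List ((ℚ × ℚ) × ℚ) :=
  [(((1543 / 1000 : ℚ), (0 : ℚ)), (23257 / 200000 : ℚ)),
   (((11489541 / 10000000 : ℚ), (91643 / 2000000 : ℚ)), (33439 / 200000 : ℚ)),
   (((9000141 / 10000000 : ℚ), (87443 / 1000000 : ℚ)), (231497 / 1000000 : ℚ)),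
   (((7000111 / 10000000 : ℚ), (1337431 / 10000000 : ℚ)), (147131 / 500000 : ℚ)),
   (((62501 / 125000 : ℚ), (481491 / 2500000 : ℚ)), (72153 / 200000 : ℚ)),
   (((3000049 / 10000000 : ℚ), (529501 / 2000000 : ℚ)), (4473 / 10000 : ℚ)),
   (((0 : ℚ), (1994713 / 5000000 : ℚ)), (1 : ℚ))]

/-- Rows for `six`. -/
def rows_six : List CertRow :=
  [⟨(0 : ℚ), (91 / 2500 : ℚ), (1 : ℚ), (0 : ℚ), (1591553 / 10000000 : ℚ), (1 / 10000000 : ℚ)⟩,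
   ⟨(91 / 2500 : ℚ), (5027 / 100000 : ℚ), (9 / 20 : ℚ), (93 / 400 : ℚ), (69047 / 1250000 : ℚ), (-1189 / 250000 : ℚ)⟩,
   ⟨(5027 / 100000 : ℚ), (2959 / 50000 : ℚ), (7 / 40 : ℚ), (143 / 400 : ℚ), (102177 / 10000000 : ℚ), (-47811 / 5000000 : ℚ)⟩,
   ⟨(2959 / 50000 : ℚ), (1543 / 6000 : ℚ), (0 : ℚ), (7 / 16 : ℚ), (-5311 / 400000 : ℚ), (-5311 / 400000 : ℚ)⟩]

theorem check_six : chainOK (rowOKFin 6 (1543 / 1000 : ℚ) T0q segs_six) ((1543 / 1000 : ℚ) / 6) 0 rows_six = true := by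
  decide +kernel

/-- Envelope for `seven`. -/
def segs_seven : List ((ℚ × ℚ) × ℚ) :=
  [(((1571 / 1000 : ℚ), (0 : ℚ)), (64273 / 500000 : ℚ)),
   (((10008667 / 10000000 : ℚ), (732881 / 10000000 : ℚ)), (196187 / 1000000 : ℚ)),
   (((1598323 / 2000000 : ℚ), (5643 / 50000 : ℚ)), (255933 / 1000000 : ℚ)),
   (((1200019 / 2000000 : ℚ), (327659 / 2000000 : ℚ)), (156403 / 500000 : ℚ)),
   (((4493689 / 10000000 : ℚ), (527377 / 2500000 : ℚ)), (364687 / 1000000 : ℚ)),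
   (((2987283 / 10000000 : ℚ), (21271 / 80000 : ℚ)), (89081 / 200000 : ℚ)),
   (((0 : ℚ), (1994713 / 5000000 : ℚ)), (1 : ℚ))]

/-- Rows for `seven`. -/
def rows_seven : List CertRow :=
  [⟨(0 : ℚ), (3077 / 100000 : ℚ), (1 : ℚ), (0 : ℚ), (12434 / 78125 : ℚ), (1 / 10000000 : ℚ)⟩,
   ⟨(3077 / 100000 : ℚ), (4261 / 100000 : ℚ), (9 / 20 : ℚ), (93 / 400 : ℚ), (557077 / 10000000 : ℚ), (-4033 / 1000000 : ℚ)⟩,
   ⟨(4261 / 100000 : ℚ), (157 / 3125 : ℚ), (9 / 40 : ℚ), (67 / 200 : ℚ), (23467 / 1250000 : ℚ), (-76659 / 10000000 : ℚ)⟩,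
   ⟨(157 / 3125 : ℚ), (1521 / 25000 : ℚ), (1 / 40 : ℚ), (171 / 400 : ℚ), (-43369 / 5000000 : ℚ), (-55961 / 5000000 : ℚ)⟩,
   ⟨(1521 / 25000 : ℚ), (1571 / 7000 : ℚ), (0 : ℚ), (179 / 400 : ℚ), (-136287 / 10000000 : ℚ), (-136287 / 10000000 : ℚ)⟩]

theorem check_seven : chainOK (rowOKFin 7 (1571 / 1000 : ℚ) T0q segs_seven) ((1571 / 1000 : ℚ) / 7) 0 rows_seven = true := by
  decide +kernel

/-- Envelope for `eight`. -/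
def segs_eight : List ((ℚ × ℚ) × ℚ) :=
  [(((1569 / 1000 : ℚ), (0 : ℚ)), (73301 / 500000 : ℚ)),
   (((1598323 / 2000000 : ℚ), (5643 / 50000 : ℚ)), (255933 / 1000000 : ℚ)),
   (((1200019 / 2000000 : ℚ), (327659 / 2000000 : ℚ)), (321081 / 1000000 : ℚ)),
   (((31317 / 78125 : ℚ), (1138867 / 5000000 : ℚ)), (427007 / 1000000 : ℚ)),
   (((0 : ℚ), (1994713 / 5000000 : ℚ)), (1 : ℚ))]

/-- Rows for `eight`. -/
def rows_eight : List CertRow :=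
  [⟨(0 : ℚ), (333 / 12500 : ℚ), (1 : ℚ), (0 : ℚ), (12434 / 78125 : ℚ), (1 / 10000000 : ℚ)⟩,
   ⟨(333 / 12500 : ℚ), (961 / 25000 : ℚ), (11 / 40 : ℚ), (61 / 200 : ℚ), (72873 / 2500000 : ℚ), (-583 / 125000 : ℚ)⟩,
   ⟨(961 / 25000 : ℚ), (1569 / 8000 : ℚ), (0 : ℚ), (43 / 100 : ℚ), (-22643 / 2500000 : ℚ), (-22643 / 2500000 : ℚ)⟩]

theorem check_eight : chainOK (rowOKFin 8 (1569 / 1000 : ℚ) T0q segs_eight) ((1569 / 1000 : ℚ) / 8) 0 rows_eight = true := by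
  decide +kernel

/-- Envelope for `nine`. -/
def segs_nine : List ((ℚ × ℚ) × ℚ) :=
  [(((1649 / 1000 : ℚ), (0 : ℚ)), (25269 / 200000 : ℚ)),
   (((21 / 20 : ℚ), (756807 / 10000000 : ℚ)), (165007 / 1000000 : ℚ)),
   (((9 / 10 : ℚ), (1004317 / 10000000 : ℚ)), (40119 / 200000 : ℚ)),
   (((39 / 50 : ℚ), (1245031 / 10000000 : ℚ)), (11873 / 50000 : ℚ)),
   (((13 / 20 : ℚ), (1553729 / 10000000 : ℚ)), (274337 / 1000000 : ℚ)),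
   (((11 / 20 : ℚ), (914033 / 5000000 : ℚ)), (308611 / 1000000 : ℚ)),
   (((9 / 20 : ℚ), (2136677 / 10000000 : ℚ)), (344639 / 1000000 : ℚ)),
   (((7 / 20 : ℚ), (620329 / 2500000 : ℚ)), (391757 / 1000000 : ℚ)),
   (((1 / 5 : ℚ), (383619 / 1250000 : ℚ)), (230119 / 500000 : ℚ)),
   (((0 : ℚ), (997357 / 2500000 : ℚ)), (1 : ℚ))]

/-- Rows for `nine`. -/
def rows_nine : List CertRow :=
  [⟨(0 : ℚ), (1239 / 50000 : ℚ), (5 / 8 : ℚ), (61 / 400 : ℚ), (889691 / 10000000 : ℚ), (1 / 10000000 : ℚ)⟩,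
   ⟨(1239 / 50000 : ℚ), (807 / 25000 : ℚ), (2 / 5 : ℚ), (103 / 400 : ℚ), (29711 / 625000 : ℚ), (-3501 / 1000000 : ℚ)⟩,
   ⟨(807 / 25000 : ℚ), (3617 / 100000 : ℚ), (1 / 4 : ℚ), (131 / 400 : ℚ), (232163 / 10000000 : ℚ), (-28147 / 5000000 : ℚ)⟩,
   ⟨(3617 / 100000 : ℚ), (121 / 3125 : ℚ), (1 / 4 : ℚ), (33 / 100 : ℚ), (224447 / 10000000 : ℚ), (-62571 / 10000000 : ℚ)⟩,
   ⟨(121 / 3125 : ℚ), (4141 / 100000 : ℚ), (3 / 20 : ℚ), (3 / 8 : ℚ), (21393 / 2500000 : ℚ), (-75089 / 10000000 : ℚ)⟩,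
   ⟨(4141 / 100000 : ℚ), (897 / 20000 : ℚ), (1 / 20 : ℚ), (169 / 400 : ℚ), (-43991 / 10000000 : ℚ), (-5613 / 625000 : ℚ)⟩,
   ⟨(897 / 20000 : ℚ), (1649 / 9000 : ℚ), (0 : ℚ), (179 / 400 : ℚ), (-101597 / 10000000 : ℚ), (-101597 / 10000000 : ℚ)⟩]

theorem check_nine : chainOK (rowOKFin 9 (1649 / 1000 : ℚ) T0q segs_nine) ((1649 / 1000 : ℚ) / 9) 0 rows_nine = true := by
  decide +kernel

/-- Envelope for `many`. -/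
def segs_many : List ((ℚ × ℚ) × ℚ) :=
  [(((8233 / 5000 : ℚ), (0 : ℚ)), (126853 / 1000000 : ℚ)),
   (((21 / 20 : ℚ), (756807 / 10000000 : ℚ)), (165007 / 1000000 : ℚ)),
   (((9 / 10 : ℚ), (1004317 / 10000000 : ℚ)), (40119 / 200000 : ℚ)),
   (((39 / 50 : ℚ), (1245031 / 10000000 : ℚ)), (11873 / 50000 : ℚ)),
   (((13 / 20 : ℚ), (1553729 / 10000000 : ℚ)), (274337 / 1000000 : ℚ)),
   (((11 / 20 : ℚ), (914033 / 5000000 : ℚ)), (308611 / 1000000 : ℚ)),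
   (((9 / 20 : ℚ), (2136677 / 10000000 : ℚ)), (344639 / 1000000 : ℚ)),
   (((7 / 20 : ℚ), (620329 / 2500000 : ℚ)), (391757 / 1000000 : ℚ)),
   (((1 / 5 : ℚ), (383619 / 1250000 : ℚ)), (230119 / 500000 : ℚ)),
   (((0 : ℚ), (997357 / 2500000 : ℚ)), (1 : ℚ))]

/-- Rows for `many`. -/
def rows_many : List CertRow :=
  [⟨(0 : ℚ), (21029 / 100000 : ℚ), (5 / 8 : ℚ), (61 / 400 : ℚ), (889691 / 10000000 : ℚ), (0 : ℚ)⟩,
   ⟨(21029 / 100000 : ℚ), (27383 / 100000 : ℚ), (3 / 8 : ℚ), (107 / 400 : ℚ), (54737 / 1250000 : ℚ), (-41361272282047 / 13172800000000000 : ℚ)⟩,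
   ⟨(27383 / 100000 : ℚ), (30891 / 100000 : ℚ), (11 / 40 : ℚ), (5 / 16 : ℚ), (35351 / 1250000 : ℚ), (-1532410651700427 / 329320000000000000 : ℚ)⟩,
   ⟨(30891 / 100000 : ℚ), (6747 / 20000 : ℚ), (1 / 8 : ℚ), (19 / 50 : ℚ), (71023 / 10000000 : ℚ), (-414548594584089 / 65864000000000000 : ℚ)⟩,
   ⟨(6747 / 20000 : ℚ), (1172 / 3125 : ℚ), (3 / 40 : ℚ), (81 / 200 : ℚ), (2439 / 10000000 : ℚ), (-95434440096411 / 13172800000000000 : ℚ)⟩,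
   ⟨(1172 / 3125 : ℚ), (43851 / 100000 : ℚ), (3 / 40 : ℚ), (163 / 400 : ℚ), (0 : ℚ), (-160407185521 / 20100097656250 : ℚ)⟩,
   ⟨(43851 / 100000 : ℚ), (25319 / 50000 : ℚ), (3 / 40 : ℚ), (33 / 80 : ℚ), (0 : ℚ), (-3031948671661179 / 329320000000000000 : ℚ)⟩,
   ⟨(25319 / 50000 : ℚ), (11379 / 20000 : ℚ), (1 / 10 : ℚ), (163 / 400 : ℚ), (0 : ℚ), (-210437300165183 / 20582500000000000 : ℚ)⟩,
   ⟨(11379 / 20000 : ℚ), (8233 / 5000 : ℚ), (0 : ℚ), (183 / 400 : ℚ), (0 : ℚ), (-4139870149647 / 329320000000000 : ℚ)⟩]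

theorem check_many : chainOK (rowOKUnif (8233 / 5000 : ℚ) T0q segs_many) (8233 / 5000 : ℚ) 0 rows_many = true := by
  decide +kernel

end Vale.Agent.P226
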