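import Vale.Agent.P226.Cap

/-!
# A maximiser exceeding the target: first order structure
-/

open MeasureTheory Real Set
open scoped RealInnerProductSpace

namespace Vale.Agent.P226

variable {k r : ℕ}

/-- A normalised maximiser with value above the target. -/
structure Maxi (k r : ℕ) [NeZero k] where
  v : Fin k → EE r
  big : Tc < ssq v
  val : fmax v = ssq v
  opt : ∀ u : Fin k → EE r, fmax u ≤ (ssq v + ssq u) / 2

lemma exists_maxi [NeZero k] (h : ¬ BoundAt k r) : Nonempty (Maxi k r) := by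
  simp only [BoundAt, not_forall, not_le] at h
  obtain ⟨v0, hv0⟩ := h
  have hc : Continuous (fun v : Fin k → EE r => ssq v) := by unfold ssq; fun_prop
  have hbdd : IsCompact {v : Fin k → EE r | ssq v = 1} := by
    refine Metric.isCompact_of_isClosed_isBounded (isClosed_eq hc continuous_const) ?_
    refine isBounded_iff_forall_norm_le.2 ⟨1, fun v hv => ?_⟩
    refine (pi_norm_le_iff_of_nonneg zero_le_one).2 fun i => ?_
    have : ‖v i‖ ^ 2 ≤ 1 := by
      have hv1 : ssq v = 1 := hv
      rw [← hv1]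
      exact Finset.single_le_sum (f := fun j => ‖v j‖ ^ 2) (fun j _ => sq_nonneg _)
        (Finset.mem_univ i)
    nlinarith [norm_nonneg (v i)]
  have hs0 : 0 < ssq v0 := by
    rcases (Finset.sum_nonneg (fun i (_ : i ∈ Finset.univ) => sq_nonneg ‖v0 i‖)).lt_or_eq
      with hp | hp
    · exact hp
    · exfalso
      have hz : v0 = fun _ => 0 := funext fun i => by
        have := (Finset.sum_eq_zero_iff_of_nonneg (fun i _ => sq_nonneg ‖v0 i‖)).1 hp.symm i
          (Finset.mem_univ i)
        simpa using this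
      subst hz
      have h0 : fmax (fun _ : Fin k => (0 : EE r)) = 0 := by
        simpa using fmax_smul (fun _ : Fin k => (0 : EE r)) le_rfl
      simp [h0, ssq] at hv0
  have hnorm : ∀ u : Fin k → EE r, 0 < ssq u →
      ssq (fun i => (Real.sqrt (ssq u))⁻¹ • u i) = 1 := by
    intro u hu
    simp only [ssq, norm_smul, mul_pow, norm_inv, Real.norm_eq_abs, inv_pow, sq_abs,
      ← Finset.mul_sum]
    have hss : (0 : ℝ) ≤ ∑ i, ‖u i‖ ^ 2 := hu.le
    rw [Real.sq_sqrt hss]
    exact inv_mul_cancel₀ hu.ne'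
  obtain ⟨w, hw, hmax⟩ := hbdd.exists_isMaxOn ⟨_, hnorm v0 hs0⟩ continuous_fmax.continuousOn
  set M := fmax w with hM
  have hbound : ∀ u : Fin k → EE r, fmax u ≤ M * Real.sqrt (ssq u) := by
    intro u
    rcases (Finset.sum_nonneg (fun i (_ : i ∈ Finset.univ) => sq_nonneg ‖u i‖)).lt_or_eq
      with hp | hp
    · have hs : 0 < Real.sqrt (ssq u) := Real.sqrt_pos.2 hp
      have h1 : fmax (fun i => (Real.sqrt (ssq u))⁻¹ • u i) ≤ M := hmax (hnorm u hp)
      rw [fmax_smul u (inv_nonneg.2 hs.le)] at h1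
      rw [inv_mul_le_iff₀ hs] at h1
      linarith
    · have hz : u = fun _ => 0 := funext fun i => by
        have := (Finset.sum_eq_zero_iff_of_nonneg (fun i _ => sq_nonneg ‖u i‖)).1 hp.symm i
          (Finset.mem_univ i)
        simpa using this
      subst hz
      have h0 : fmax (fun _ : Fin k => (0 : EE r)) = 0 := by
        simpa using fmax_smul (fun _ : Fin k => (0 : EE r)) le_rfl
      rw [h0]; exact mul_nonneg (fmax_nonneg _) (Real.sqrt_nonneg _)
  have hM0 : 0 ≤ M := fmax_nonneg _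
  have hMT : Tc < M ^ 2 := by
    by_contra hle
    rw [not_lt] at hle
    have h1 := hbound v0
    have h2 := pow_le_pow_left₀ (fmax_nonneg v0) h1 2
    rw [mul_pow, Real.sq_sqrt hs0.le] at h2
    nlinarith [mul_le_mul_of_nonneg_right hle hs0.le]
  have hss : ssq (fun i => M • w i) = M ^ 2 := by
    have : ssq w = 1 := hw
    simp only [ssq, norm_smul, mul_pow, Real.norm_eq_abs, sq_abs, ← Finset.mul_sum] at this ⊢
    rw [this, mul_one]
  refine ⟨⟨fun i => M • w i, by rw [hss]; exact hMT, ?_, fun u => ?_⟩⟩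
  · rw [fmax_smul w hM0, hss, ← hM, sq]
  · rw [hss]
    refine (hbound u).trans ?_
    have hsu : (0 : ℝ) ≤ ssq u := Finset.sum_nonneg fun i _ => sq_nonneg _
    nlinarith [sq_nonneg (M - Real.sqrt (ssq u)), Real.sq_sqrt hsu]

namespace Maxi

variable [NeZero k] (P : Maxi k r)

/-- Closed cells. -/
def cell (m : Fin k) : Set (EE r) := {x | ∀ j, ⟪P.v j, x⟫ ≤ ⟪P.v m, x⟫}

/-- Disjoint cells: first maximiser. -/
def dcell (m : Fin k) : Set (EE r) :=
  {x | (∀ j, ⟪P.v j, x⟫ ≤ ⟪P.v m, x⟫) ∧ ∀ j, j < m → ⟪P.v j, x⟫ < ⟪P.v m, x⟫}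

lemma isClosed_cell (m : Fin k) : IsClosed (P.cell m) := by
  simp only [cell, ofPred_forall]
  exact isClosed_iInter fun j => isClosed_le (by fun_prop) (by fun_prop)

lemma measurableSet_cell (m : Fin k) : MeasurableSet (P.cell m) :=
  (P.isClosed_cell m).measurableSet

lemma isCone_cell (m : Fin k) : IsCone (P.cell m) := by
  intro t x ht
  simp only [cell, Set.mem_ofPred_eq, real_inner_smul_right, mul_le_mul_iff_of_pos_left ht]

lemma measurableSet_dcell (m : Fin k) : MeasurableSet (P.dcell m) := by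
  have : P.dcell m = P.cell m ∩ ⋂ (j) (_ : j < m), {x | ⟪P.v j, x⟫ < ⟪P.v m, x⟫} := by
    ext x; simp [dcell, cell]
  rw [this]
  exact (P.measurableSet_cell m).inter (MeasurableSet.iInter fun j => MeasurableSet.iInter fun _ =>
    (isOpen_lt (by fun_prop) (by fun_prop)).measurableSet)

lemma dcell_disjoint : Pairwise (Function.onFun Disjoint P.dcell) := by
  intro a b hab
  rw [Function.onFun, Set.disjoint_left]
  intro x ha hb
  rcases lt_or_gt_of_ne hab with h | h
  · exact absurd (ha.1 b) (not_le.2 (hb.2 a h))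
  · exact absurd (hb.1 a) (not_le.2 (ha.2 b h))

lemma dcell_cover : ⋃ m, P.dcell m = univ := by
  refine eq_univ_of_forall fun x => mem_iUnion.2 ?_
  obtain ⟨i, hi⟩ := exists_eq_maxv P.v x
  classical
  set s := Finset.univ.filter (fun j => ⟪P.v j, x⟫ = maxv P.v x) with hs
  have hne : s.Nonempty := ⟨i, by simp [hs, hi]⟩
  refine ⟨s.min' hne, ?_, ?_⟩
  · intro j
    have h := Finset.min'_mem s hne
    simp only [hs, Finset.mem_filter, Finset.mem_univ, true_and] at h
    rw [h]; exact le_maxv _ _ _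
  · intro j hj
    have h := Finset.min'_mem s hne
    simp only [hs, Finset.mem_filter, Finset.mem_univ, true_and] at h
    rw [h]
    refine lt_of_le_of_ne (le_maxv _ _ _) fun he => ?_
    exact absurd (Finset.min'_le s j (by simp [hs, he])) (not_le.2 hj)

/-- Moment vectors of the disjoint cells. -/
noncomputable def zc (m : Fin k) : EE r := ∫ x in P.dcell m, dens x • x

lemma integrable_smul_id : Integrable (fun x : EE r => dens x • x) := by
  refine Integrable.mono' ((GB.norm (r := r)).integrable' (by fun_prop))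
    (continuous_dens.smul continuous_id).aestronglyMeasurable (ae_of_all _ fun x => ?_)
  rw [norm_smul, Real.norm_eq_abs, abs_of_nonneg (dens_nonneg x), mul_comm]

lemma inner_zc (y : EE r) (m : Fin k) :
    ⟪y, P.zc m⟫ = ∫ x in P.dcell m, ⟪y, x⟫ * dens x := by
  rw [zc, ← integral_inner integrable_smul_id.integrableOn y]
  simp only [real_inner_smul_right, mul_comm]

lemma sum_setIntegral (h : EE r → ℝ) (hi : Integrable h) :
    ∑ m, ∫ x in P.dcell m, h x = ∫ x, h x := by
  rw [← integral_iUnion_fintype P.measurableSet_dcell P.dcell_disjoint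
    (fun m => hi.integrableOn), P.dcell_cover, setIntegral_univ]

lemma fmax_ge (u : Fin k → EE r) : ∑ m, ⟪u m, P.zc m⟫ ≤ fmax u := by
  unfold fmax
  rw [← P.sum_setIntegral _ (integrable_maxv u)]
  refine Finset.sum_le_sum fun m _ => ?_
  rw [inner_zc]
  refine setIntegral_mono ((GB.inner _).integrable' (by fun_prop)).integrableOn
    (integrable_maxv u).integrableOn fun x => ?_
  exact mul_le_mul_of_nonneg_right (le_maxv u m x) (dens_nonneg x)

lemma fmax_eq : fmax P.v = ∑ m, ⟪P.v m, P.zc m⟫ := by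
  unfold fmax
  rw [← P.sum_setIntegral _ (integrable_maxv P.v)]
  refine Finset.sum_congr rfl fun m _ => ?_
  rw [inner_zc]
  refine setIntegral_congr_fun (P.measurableSet_dcell m) fun x hx => ?_
  rw [le_antisymm (maxv_le _ _ hx.1) (le_maxv _ _ _)]

lemma zc_eq (m : Fin k) : P.zc m = P.v m := by
  have h1 : ∑ i, ⟪P.v i, P.zc i⟫ = ssq P.v := by rw [← P.fmax_eq, P.val]
  have h2 : ssq P.zc ≤ (ssq P.v + ssq P.zc) / 2 := by
    refine le_trans ?_ (P.opt P.zc)
    refine le_trans (le_of_eq ?_) (P.fmax_ge P.zc)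
    simp [ssq]
  have h3 : ∑ i, ‖P.v i - P.zc i‖ ^ 2 ≤ 0 := by
    simp only [norm_sub_sq_real, Finset.sum_add_distrib, Finset.sum_sub_distrib, ← Finset.mul_sum,
      h1]
    simp only [ssq] at h2 ⊢
    linarith
  have h4 := (Finset.sum_eq_zero_iff_of_nonneg (fun i _ => sq_nonneg ‖P.v i - P.zc i‖)).1
    (le_antisymm h3 (Finset.sum_nonneg fun i _ => sq_nonneg _)) m (Finset.mem_univ m)
  have h5 : P.v m - P.zc m = 0 := norm_eq_zero.1 (pow_eq_zero_iff two_ne_zero |>.1 h4)
  exact (sub_eq_zero.1 h5).symm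

lemma moment_dcell (y : EE r) (m : Fin k) :
    ∫ x in P.dcell m, ⟪y, x⟫ * dens x = ⟪y, P.v m⟫ := by
  rw [← P.inner_zc, P.zc_eq]

lemma sum_v : ∑ m, P.v m = 0 := by
  apply ext_inner_left ℝ
  intro y
  rw [inner_sum, inner_zero_right]
  rw [Finset.sum_congr rfl (fun m _ => (P.moment_dcell y m).symm)]
  rw [P.sum_setIntegral _ ((GB.inner y).integrable' (by fun_prop)), integral_inner_dens]

end Maxi

end Vale.Agent.P226
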