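import Vale.Agent.P226.Radial

/-!
# Derivatives of Gaussian integrals over translated sets
-/

open MeasureTheory Real Set Filter
open scoped RealInnerProductSpace Topology

namespace Vale.Agent.P226

variable {r : ℕ}

lemma norm_sub_sq_ge (x g : EE r) : ‖x‖ ^ 2 / 2 - ‖g‖ ^ 2 ≤ ‖x - g‖ ^ 2 := by
  have h := norm_sub_norm_le x (x - g)
  rw [sub_sub_cancel] at h
  nlinarith [norm_nonneg x, norm_nonneg g, norm_nonneg (x - g), sq_nonneg (‖x - g‖ - ‖g‖)]

/-- Uniform domination of a polynomially bounded function times a translated density. -/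
lemma shifted_bound {h : EE r → ℝ} (hh : GB h) (G : EE r) :
    ∃ K : EE r → ℝ, Integrable K ∧
      ∀ (s : ℝ) (x : EE r), |s| ≤ 1 → |h (x - s • G)| * dens (x - s • G) ≤ K x := by
  obtain ⟨C, N, hC, hb⟩ := hh
  obtain ⟨K, hK, hKb⟩ := pow_le_exp_sq N (b := 1/8) (by norm_num)
  set c := ((2 * π) ^ ((r : ℝ) / 2))⁻¹ with hc
  have hc0 : 0 ≤ c := by positivity
  refine ⟨fun x => C * (1 + ‖G‖) ^ N * K * c * Real.exp (‖G‖ ^ 2 / 2) *
      Real.exp (-(1/8) * ‖x‖ ^ 2), (integrable_exp_norm (by norm_num)).const_mul _, ?_⟩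
  intro s x hs
  have hsG : ‖s • G‖ ≤ ‖G‖ := by
    rw [norm_smul, Real.norm_eq_abs]
    exact mul_le_of_le_one_left (norm_nonneg _) hs
  have h1 : 1 + ‖x - s • G‖ ≤ (1 + ‖G‖) * (1 + ‖x‖) := by
    nlinarith [norm_sub_le x (s • G), mul_nonneg (norm_nonneg G) (norm_nonneg x)]
  have h2 : |h (x - s • G)| ≤ C * (1 + ‖G‖) ^ N * (K * Real.exp (1/8 * ‖x‖ ^ 2)) := by
    refine (hb _).trans ?_
    rw [mul_assoc]
    refine mul_le_mul_of_nonneg_left ?_ hC
    calc (1 + ‖x - s • G‖) ^ N ≤ ((1 + ‖G‖) * (1 + ‖x‖)) ^ N :=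
          pow_le_pow_left₀ (by positivity) h1 N
      _ = (1 + ‖G‖) ^ N * (1 + ‖x‖) ^ N := mul_pow _ _ _
      _ ≤ _ := mul_le_mul_of_nonneg_left (hKb _ (norm_nonneg x)) (by positivity)
  have h3 : dens (x - s • G) ≤ c * (Real.exp (‖G‖ ^ 2 / 2) * Real.exp (-(1/4) * ‖x‖ ^ 2)) := by
    unfold dens
    rw [← hc, ← Real.exp_add]
    refine mul_le_mul_of_nonneg_left (Real.exp_le_exp.2 ?_) hc0
    have := norm_sub_sq_ge x (s • G)
    have h4 : ‖s • G‖ ^ 2 ≤ ‖G‖ ^ 2 := pow_le_pow_left₀ (norm_nonneg _) hsG 2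
    linarith
  calc |h (x - s • G)| * dens (x - s • G)
      ≤ (C * (1 + ‖G‖) ^ N * (K * Real.exp (1/8 * ‖x‖ ^ 2))) *
          (c * (Real.exp (‖G‖ ^ 2 / 2) * Real.exp (-(1/4) * ‖x‖ ^ 2))) :=
        mul_le_mul h2 h3 (dens_nonneg _) (by positivity)
    _ = C * (1 + ‖G‖) ^ N * K * c * Real.exp (‖G‖ ^ 2 / 2) *
          (Real.exp (1/8 * ‖x‖ ^ 2) * Real.exp (-(1/4) * ‖x‖ ^ 2)) := by ring
    _ = _ := by rw [← Real.exp_add]; ring_nf

/-- A smooth test function along a direction `G`, with derivative `ψ'`. -/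
structure Test (G : EE r) (ψ ψ' : EE r → ℝ) : Prop where
  cont : Continuous ψ
  cont' : Continuous ψ'
  gb : GB ψ
  gb' : GB ψ'
  deriv : ∀ (x : EE r) (s : ℝ), HasDerivAt (fun s : ℝ => ψ (x + s • G)) (ψ' (x + s • G)) s

/-- `ψ` times the density along the direction. -/
lemma hasDerivAt_dens (G x : EE r) (s : ℝ) :
    HasDerivAt (fun s : ℝ => dens (x - s • G)) (⟪G, x - s • G⟫ * dens (x - s • G)) s := by
  have h1 : HasDerivAt (fun s : ℝ => -‖x - s • G‖ ^ 2 / 2) ⟪G, x - s • G⟫ s := by
    have hd : HasDerivAt (fun s : ℝ => x - s • G) (-G) s := by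
      simpa using ((hasDerivAt_id s).smul_const G).const_sub x
    refine ((hd.norm_sq.fun_neg).div_const 2).congr_deriv ?_
    rw [inner_neg_right, real_inner_comm]; ring
  have h2 := (h1.exp).const_mul (((2 * π) ^ ((r : ℝ) / 2))⁻¹)
  unfold dens
  exact h2.congr_deriv (by ring)

/-- The translation functional. -/
noncomputable def LD (A : Set (EE r)) (G : EE r) (ψ ψ' : EE r → ℝ) : ℝ :=
  ∫ x in A, (⟪G, x⟫ * ψ x - ψ' x) * dens x

lemma Test.hasDerivAt {G : EE r} {ψ ψ' : EE r → ℝ} (h : Test G ψ ψ') (A : Set (EE r)) :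
    HasDerivAt (fun s : ℝ => ∫ x in A, ψ (x - s • G) * dens (x - s • G)) (LD A G ψ ψ') 0 := by
  have hcont : ∀ s : ℝ, Continuous fun x => ψ (x - s • G) * dens (x - s • G) := fun s =>
    (h.cont.comp (by fun_prop)).mul (continuous_dens.comp (by fun_prop))
  obtain ⟨K, hK, hKb⟩ := shifted_bound (((GB.inner G).mul h.gb).sub h.gb') G
  have hFi : Integrable (fun x => ψ (x - (0 : ℝ) • G) * dens (x - (0 : ℝ) • G))
      (volume.restrict A) := by
    simpa using (h.gb.integrable h.cont.aestronglyMeasurable).restrict (s := A)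
  have key := hasDerivAt_integral_of_dominated_loc_of_deriv_le
    (μ := volume.restrict A) (s := Metric.ball (0 : ℝ) 1) (x₀ := 0)
    (F := fun s x => ψ (x - s • G) * dens (x - s • G))
    (F' := fun s x => (⟪G, x - s • G⟫ * ψ (x - s • G) - ψ' (x - s • G)) * dens (x - s • G))
    (bound := K) (Metric.ball_mem_nhds 0 one_pos)
    (Eventually.of_forall fun s => (hcont s).aestronglyMeasurable) hFi
    (by
      refine Continuous.aestronglyMeasurable ?_
      have := h.cont; have := h.cont'; have := continuous_dens (r := r)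
      fun_prop)
    (ae_of_all _ fun x s hs => by
      rw [Real.norm_eq_abs, abs_mul, abs_of_nonneg (dens_nonneg _)]
      refine hKb s x (le_of_lt ?_)
      simpa using hs)
    hK.integrableOn
    (ae_of_all _ fun x s _ => by
      have h1 : HasDerivAt (fun s : ℝ => ψ (x - s • G)) (-ψ' (x - s • G)) s := by
        have := (h.deriv x (-s)).scomp s (hasDerivAt_neg s)
        simpa [Function.comp_def, neg_smul, ← sub_eq_add_neg] using this
      exact (h1.fun_mul (hasDerivAt_dens G x s)).congr_deriv (by ring))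
  have := key.2
  simpa [LD] using this

/-- Nonnegativity of the functional when the test function is almost nonnegative on the strip. -/
lemma Test.LD_nonneg {G : EE r} {ψ ψ' : EE r → ℝ} (h : Test G ψ ψ') {A : Set (EE r)}
    (hA : IsClosed A) (hmono : ∀ x ∈ A, ∀ s : ℝ, 0 ≤ s → x + s • G ∈ A) {κ : EE r → ℝ}
    (hκ : GB κ) (hκc : Continuous κ)
    (hC : ∀ x, x ∉ A → ∀ s : ℝ, 0 < s → s ≤ 1 → x + s • G ∈ A → -(s * |κ x|) ≤ ψ x) :
    0 ≤ LD A G ψ ψ' := by
  have hd := h.hasDerivAt A
  rw [hasDerivAt_iff_tendsto_slope] at hd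
  have hd' := hd.mono_left (nhdsWithin_mono 0 (show Set.Ioi (0 : ℝ) ⊆ {0}ᶜ from
    fun s hs => ne_of_gt hs))
  set S : ℝ → Set (EE r) := fun s => {x | x + s • G ∈ A} \ A with hS
  have hSm : ∀ s, MeasurableSet (S s) := fun s =>
    ((hA.preimage (by fun_prop : Continuous fun x : EE r => x + s • G)).measurableSet).diff hA.measurableSet
  have hint : Integrable (fun x => ψ x * dens x) := h.gb.integrable h.cont.aestronglyMeasurable
  have hg : Integrable (fun x : EE r => |κ x| * dens x) :=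
    (hκ.mono fun x => le_of_eq (abs_abs _)).integrable hκc.abs.aestronglyMeasurable
  have hlim : Tendsto (fun s : ℝ => -(1 : ℝ) * ∫ x in S s, |κ x| * dens x)
      (𝓝[>] (0 : ℝ)) (𝓝 0) := by
    have : Tendsto (fun s : ℝ => ∫ x, (S s).indicator (fun x => |κ x| * dens x) x)
        (𝓝[>] (0 : ℝ)) (𝓝 (∫ _x : EE r, (0 : ℝ))) := by
      refine tendsto_integral_filter_of_dominated_convergence (fun x => |κ x| * dens x)
        (Eventually.of_forall fun s => (hg.indicator (hSm s)).aestronglyMeasurable)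
        (Eventually.of_forall fun s => ae_of_all _ fun x => ?_) hg (ae_of_all _ fun x => ?_)
      · have : 0 ≤ |κ x| * dens x := mul_nonneg (abs_nonneg _) (dens_nonneg x)
        rw [Real.norm_eq_abs]
        by_cases hx : x ∈ S s
        · rw [indicator_of_mem hx, abs_of_nonneg this]
        · rw [indicator_of_notMem hx, abs_zero]; exact this
      · by_cases hx : x ∈ A
        · exact tendsto_const_nhds.congr fun s => by simp [hS, hx]
        · have hopen : IsOpen {s : ℝ | x + s • G ∉ A} :=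
            (hA.isOpen_compl).preimage (by fun_prop)
          have hmem : {s : ℝ | x + s • G ∉ A} ∈ 𝓝[>] (0 : ℝ) :=
            mem_nhdsWithin_of_mem_nhds (hopen.mem_nhds (by simpa using hx))
          refine tendsto_const_nhds.congr' ?_
          filter_upwards [hmem] with s hs
          simp [hS, hs]
    simp only [integral_zero] at this
    have h2 := this.const_mul (-(1 : ℝ))
    simp only [mul_zero] at h2
    refine h2.congr fun s => ?_
    rw [integral_indicator (hSm s)]
  refine le_of_tendsto_of_tendsto hlim hd' ?_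
  filter_upwards [self_mem_nhdsWithin, mem_nhdsWithin_of_mem_nhds
    (Iio_mem_nhds (zero_lt_one (α := ℝ)))] with s hs hs1
  have hs0 : (0 : ℝ) < s := hs
  have hshift : ∫ x in A, ψ (x - s • G) * dens (x - s • G)
      = ∫ x in {x | x + s • G ∈ A}, ψ x * dens x := by
    rw [← integral_indicator hA.measurableSet,
      ← integral_indicator (f := fun x => ψ x * dens x)
        (show MeasurableSet {x : EE r | x + s • G ∈ A} from
          (hA.preimage (by fun_prop : Continuous fun x : EE r => x + s • G)).measurableSet),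
      ← integral_sub_right_eq_self (μ := volume)
        (fun x => ({x | x + s • G ∈ A}).indicator (fun x => ψ x * dens x) x) (s • G)]
    congr 1; funext x
    by_cases hx : x ∈ A <;> simp [hx]
  have hsplit : {x | x + s • G ∈ A} = A ∪ S s := by
    rw [hS, union_sdiff_self]
    exact (union_eq_self_of_subset_left fun x hx => hmono x hx s hs0.le).symm
  rw [slope_def_field, hshift, hsplit, setIntegral_union
    (Set.disjoint_sdiff_right) (hSm s) hint.integrableOn hint.integrableOn]
  simp only [zero_smul, sub_zero, add_sub_cancel_left]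
  rw [le_div_iff₀ hs0, mul_comm (-(1 : ℝ)) _, mul_assoc, ← integral_mul_const]
  refine setIntegral_mono_on (hg.mul_const _).integrableOn hint.integrableOn (hSm s) fun x hx => ?_
  have := mul_le_mul_of_nonneg_right (hC x hx.2 s hs0 hs1.le hx.1) (dens_nonneg x)
  calc |κ x| * dens x * (-1 * s) = -(s * |κ x|) * dens x := by ring
    _ ≤ ψ x * dens x := this

lemma Test.const (G : EE r) (c : ℝ) : Test G (fun _ => c) (fun _ => 0) :=
  ⟨by fun_prop, by fun_prop, GB.const c, GB.const 0, fun _ _ => hasDerivAt_const _ _⟩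

lemma Test.inner (G a : EE r) : Test G (fun x => ⟪a, x⟫) (fun _ => ⟪a, G⟫) := by
  refine ⟨by fun_prop, by fun_prop, GB.inner a, GB.const _, fun x s => ?_⟩
  simp only [inner_add_right, real_inner_smul_right]
  simpa using ((hasDerivAt_id s).mul_const ⟪a, G⟫).const_add ⟪a, x⟫

lemma Test.add {G : EE r} {f f' g g' : EE r → ℝ} (hf : Test G f f') (hg : Test G g g') :
    Test G (fun x => f x + g x) (fun x => f' x + g' x) :=
  ⟨hf.cont.add hg.cont, hf.cont'.add hg.cont', hf.gb.add hg.gb, hf.gb'.add hg.gb',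
    fun x s => (hf.deriv x s).add (hg.deriv x s)⟩

lemma Test.sub {G : EE r} {f f' g g' : EE r → ℝ} (hf : Test G f f') (hg : Test G g g') :
    Test G (fun x => f x - g x) (fun x => f' x - g' x) :=
  ⟨hf.cont.sub hg.cont, hf.cont'.sub hg.cont', hf.gb.sub hg.gb, hf.gb'.sub hg.gb',
    fun x s => (hf.deriv x s).sub (hg.deriv x s)⟩

lemma Test.mul {G : EE r} {f f' g g' : EE r → ℝ} (hf : Test G f f') (hg : Test G g g') :
    Test G (fun x => f x * g x) (fun x => f' x * g x + f x * g' x) :=
  ⟨hf.cont.mul hg.cont, (hf.cont'.mul hg.cont).add (hf.cont.mul hg.cont'), hf.gb.mul hg.gb,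
    (hf.gb'.mul hg.gb).add (hf.gb.mul hg.gb'), fun x s => (hf.deriv x s).mul (hg.deriv x s)⟩

lemma Test.sum {G : EE r} {ι : Type*} (t : Finset ι) {f f' : ι → EE r → ℝ}
    (h : ∀ i ∈ t, Test G (f i) (f' i)) :
    Test G (fun x => ∑ i ∈ t, f i x) (fun x => ∑ i ∈ t, f' i x) :=
  ⟨continuous_finsetSum _ fun i hi => (h i hi).cont,
    continuous_finsetSum _ fun i hi => (h i hi).cont',
    GB.sum _ fun i hi => (h i hi).gb, GB.sum _ fun i hi => (h i hi).gb',
    fun x s => HasDerivAt.fun_sum fun i hi => (h i hi).deriv x s⟩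

lemma Test.integrableOn {G : EE r} {ψ ψ' : EE r → ℝ} (h : Test G ψ ψ') (A : Set (EE r)) :
    IntegrableOn (fun x => (⟪G, x⟫ * ψ x - ψ' x) * dens x) A :=
  (((GB.inner G).mul h.gb).sub h.gb').integrable
    (((continuous_const.inner continuous_id).mul h.cont).sub h.cont').aestronglyMeasurable
    |>.integrableOn

end Vale.Agent.P226
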