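import Vale.Agent.P226.Simplex
import Vale.Agent.P226.Translate

/-!
# The dual frame of a cell
-/

open MeasureTheory Real Set
open scoped RealInnerProductSpace

namespace Vale.Agent.P226
namespace Simp

variable {k r : ℕ} [NeZero k] (P : Simp k r)

/-- The normal vectors of the cell `m`. -/
def e (m l : Fin k) : EE r := P.v m - P.v l

lemma e_self (m : Fin k) : P.e m m = 0 := by simp [e]

lemma mem_cell {m : Fin k} {x : EE r} : x ∈ P.cell m ↔ ∀ l, 0 ≤ ⟪P.e m l, x⟫ := by
  simp [Maxi.cell, e, inner_sub_left]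

lemma sum_e (m : Fin k) : ∑ l, P.e m l = (k : ℝ) • P.v m := by
  simp [e, Finset.sum_sub_distrib, P.sum_v, Nat.cast_smul_eq_nsmul]

/-- Dual vectors inside the span of the normals. -/
lemma exists_frame (m : Fin k) :
    ∃ G : Fin k → EE r, G m = 0 ∧
      (∀ j l, ⟪P.e m l, G j⟫ = if j = l ∧ l ≠ m then 1 else 0) ∧
      ∑ j, ⟪P.e m j, P.v m⟫ • G j = P.v m := by
  classical
  obtain ⟨G0, hG0⟩ := P.exists_dual m
  set W := Submodule.span ℝ (Set.range (P.e m)) with hW
  have hmem : ∀ l, P.e m l ∈ W := fun l => Submodule.subset_span ⟨l, rfl⟩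
  set G : Fin k → EE r := fun j => if j = m then 0 else W.starProjection (G0 j) with hG
  have hGW : ∀ j, G j ∈ W := by
    intro j
    by_cases hj : j = m
    · simp [hG, hj]
    · simp [hG, hj]
  have hpair : ∀ j l, ⟪P.e m l, G j⟫ = if j = l ∧ l ≠ m then 1 else 0 := by
    intro j l
    by_cases hl : l = m
    · subst hl; simp [P.e_self]
    by_cases hj : j = m
    · subst hj; simp [hG, Ne.symm hl]
    simp only [hG, if_neg hj]
    rw [← Submodule.inner_starProjection_left_eq_right,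
      Submodule.starProjection_eq_self_iff.2 (hmem l), e, hG0 j l hj hl]
    simp [hl]
  refine ⟨G, by simp [hG], hpair, ?_⟩
  set z := (∑ j, ⟪P.e m j, P.v m⟫ • G j) - P.v m with hz
  have hzW : z ∈ W := by
    refine W.sub_mem (W.sum_mem fun j _ => W.smul_mem _ (hGW j)) ?_
    have hk : (k : ℝ) ≠ 0 := Nat.cast_ne_zero.2 (NeZero.ne k)
    have : P.v m = (k : ℝ)⁻¹ • ∑ l, P.e m l := by rw [P.sum_e, inv_smul_smul₀ hk]
    rw [this]
    exact W.smul_mem _ (W.sum_mem fun l _ => hmem l)
  have hzo : ∀ w ∈ W, ⟪w, z⟫ = 0 := by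
    intro w hw
    induction hw using Submodule.span_induction with
    | mem x hx =>
      obtain ⟨l, rfl⟩ := hx
      simp only [hz, inner_sub_right, inner_sum, real_inner_smul_right, hpair]
      by_cases hl : l = m
      · subst hl; simp [P.e_self]
      · simp [hl]
    | zero => simp
    | add x y _ _ hx hy => simp [inner_add_left, hx, hy]
    | smul a x _ hx => simp [real_inner_smul_left, hx]
  have := hzo z hzW
  rw [inner_self_eq_zero] at this
  exact sub_eq_zero.1 (hz.symm.trans this)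

/-- The chosen dual frame. -/
noncomputable def G (m : Fin k) : Fin k → EE r := Classical.choose (P.exists_frame m)

lemma G_self (m : Fin k) : P.G m m = 0 := (Classical.choose_spec (P.exists_frame m)).1

lemma inner_e_G (m j l : Fin k) : ⟪P.e m l, P.G m j⟫ = if j = l ∧ l ≠ m then 1 else 0 :=
  (Classical.choose_spec (P.exists_frame m)).2.1 j l

lemma sum_w_G (m : Fin k) : ∑ j, ⟪P.e m j, P.v m⟫ • P.G m j = P.v m :=
  (Classical.choose_spec (P.exists_frame m)).2.2

lemma inner_e_G_nonneg (m j l : Fin k) : 0 ≤ ⟪P.e m l, P.G m j⟫ := by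
  rw [P.inner_e_G]; split_ifs <;> norm_num

lemma inner_G_vm {m j : Fin k} (hj : j ≠ m) : ⟪P.G m j, P.v m⟫ = (k : ℝ)⁻¹ := by
  have hk : (k : ℝ) ≠ 0 := Nat.cast_ne_zero.2 (NeZero.ne k)
  have h := congrArg (fun z => ⟪z, P.G m j⟫) (P.sum_e m)
  simp only [sum_inner, P.inner_e_G, real_inner_smul_left] at h
  rw [Finset.sum_eq_single j (fun l _ hl => by simp [Ne.symm hl]) (by simp)] at h
  simp only [hj, ne_eq, not_false_eq_true, and_self, if_true] at h
  rw [real_inner_comm]
  field_simp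
  linarith

/-- Sum of the dual vectors. -/
noncomputable def F (m : Fin k) : EE r := ∑ j, P.G m j

lemma inner_e_F {m l : Fin k} (hl : l ≠ m) : ⟪P.e m l, P.F m⟫ = 1 := by
  simp [F, inner_sum, P.inner_e_G, hl]

lemma inner_e_F_nonneg (m l : Fin k) : 0 ≤ ⟪P.e m l, P.F m⟫ := by
  rw [F, inner_sum]; exact Finset.sum_nonneg fun j _ => P.inner_e_G_nonneg m j l

/-- The constant `(k-1)/k`. -/
noncomputable def kap (_ : Simp k r) : ℝ := ((k : ℝ) - 1) / k

lemma kap_pos : 0 < P.kap := by
  have : (4 : ℝ) ≤ k := by exact_mod_cast P.hk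
  unfold kap; exact div_pos (by linarith) (by linarith)

lemma inner_F_vm (m : Fin k) : ⟪P.F m, P.v m⟫ = P.kap := by
  classical
  simp only [F, sum_inner, kap]
  rw [← Finset.add_sum_erase _ _ (Finset.mem_univ m), P.G_self, inner_zero_left, zero_add,
    Finset.sum_congr rfl (fun j hj => P.inner_G_vm (Finset.ne_of_mem_erase hj))]
  simp only [Finset.sum_const, Finset.card_erase_of_mem (Finset.mem_univ m), Finset.card_univ,
    Fintype.card_fin, nsmul_eq_mul]
  rw [Nat.cast_sub (Nat.one_le_iff_ne_zero.2 (NeZero.ne k)), Nat.cast_one]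
  ring

lemma add_smul_mem_cell {m : Fin k} {G : EE r} (hG : ∀ l, 0 ≤ ⟪P.e m l, G⟫) :
    ∀ x ∈ P.cell m, ∀ s : ℝ, 0 ≤ s → x + s • G ∈ P.cell m := by
  intro x hx s hs
  rw [P.mem_cell] at hx ⊢
  intro l
  rw [inner_add_right, real_inner_smul_right]
  exact add_nonneg (hx l) (mul_nonneg hs (hG l))

/-- The functional attached to a vector, applied to an everywhere nonnegative test function. -/
lemma LD_G_nonneg {m j : Fin k} {ψ ψ' : EE r → ℝ} (h : Test (P.G m j) ψ ψ') (h0 : ∀ x, 0 ≤ ψ x) :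
    0 ≤ LD (P.cell m) (P.G m j) ψ ψ' :=
  h.LD_nonneg (P.isClosed_cell m) (P.add_smul_mem_cell fun l => P.inner_e_G_nonneg m j l)
    (κ := fun _ => (0 : ℝ)) (GB.const 0) continuous_const
    (fun x _ s _ _ _ => by simpa using h0 x)

end Simp
end Vale.Agent.P226
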