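import Vale.Agent.P226.Radial

/-!
# Gaussian measure and first moment of a trihedral cone
-/

open MeasureTheory Real Set Filter
open scoped RealInnerProductSpace Topology

namespace Vale.Agent.P226

/-- Cosine of the angle between two of the vectors. -/
noncomputable def rho (e : Fin 3 → EE 3) (i j : Fin 3) : ℝ := ⟪e i, e j⟫ / (‖e i‖ * ‖e j‖)

/-- A planar wedge. -/
def wedgeSet (ρ σ : ℝ) : Set (ℝ × ℝ) := {p | 0 ≤ p.1 ∧ 0 ≤ ρ * p.1 + σ * p.2}

/-- The planar Gaussian weight. -/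
noncomputable def gw (p : ℝ × ℝ) : ℝ := Real.exp (-(p.1 ^ 2 + p.2 ^ 2) / 2)

lemma measurableSet_wedgeSet (ρ σ : ℝ) : MeasurableSet (wedgeSet ρ σ) :=
  ((isClosed_le continuous_const continuous_fst).inter
    (isClosed_le continuous_const (by fun_prop : Continuous fun p : ℝ × ℝ => ρ * p.1 + σ * p.2))
    ).measurableSet

lemma wedge_angle {α : ℝ} (hα : α ∈ Ioo (-(π / 2)) (π / 2)) :
    ∫ p in wedgeSet (sin α) (cos α), gw p = π / 2 + α := by
  rw [← integral_indicator (measurableSet_wedgeSet _ _),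
    ← integral_comp_polarCoord_symm, polarCoord_target]
  have hcongr : ∀ p ∈ Ioi (0 : ℝ) ×ˢ Ioo (-π) π,
      p.1 • (wedgeSet (sin α) (cos α)).indicator gw (polarCoord.symm p)
        = (p.1 ^ 1 * Real.exp (-p.1 ^ 2 / 2)) *
          (Icc (-α) (π / 2)).indicator (fun _ => (1 : ℝ)) p.2 := by
    rintro ⟨r, θ⟩ ⟨hr, hθ⟩
    simp only [mem_Ioi] at hr
    simp only [mem_Ioo] at hθ
    have hiff : polarCoord.symm (r, θ) ∈ wedgeSet (sin α) (cos α) ↔ θ ∈ Icc (-α) (π / 2) := by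
      simp only [polarCoord_symm_apply, wedgeSet, Set.mem_ofPred_eq, mem_Icc]
      have e : sin α * (r * cos θ) + cos α * (r * sin θ) = r * sin (θ + α) := by
        rw [sin_add]; ring
      rw [e, mul_nonneg_iff_of_pos_left hr, mul_nonneg_iff_of_pos_left hr]
      constructor
      · rintro ⟨h1, h2⟩
        have h3 : θ ≤ π / 2 := by
          by_contra hc
          linarith [cos_neg_of_pi_div_two_lt_of_lt (not_le.1 hc)
            (by linarith [pi_pos] : θ < π + π / 2)]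
        have h4 : -(π / 2) ≤ θ := by
          by_contra hc
          have := cos_neg_of_pi_div_two_lt_of_lt (x := -θ) (by linarith [not_le.1 hc])
            (by linarith [pi_pos])
          rw [cos_neg] at this; linarith
        refine ⟨?_, h3⟩
        by_contra hc
        linarith [sin_neg_of_neg_of_neg_pi_lt (x := θ + α) (by linarith [not_le.1 hc])
          (by linarith [hα.1])]
      · rintro ⟨h1, h2⟩
        exact ⟨cos_nonneg_of_mem_Icc ⟨by linarith [hα.2], h2⟩,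
          sin_nonneg_of_nonneg_of_le_pi (by linarith) (by linarith [hα.2])⟩
    by_cases h : θ ∈ Icc (-α) (π / 2)
    · rw [indicator_of_mem (hiff.2 h), indicator_of_mem h, smul_eq_mul, mul_one, pow_one, gw,
        polarCoord_symm_apply]
      congr 2
      linear_combination (-(r ^ 2) / 2) * sin_sq_add_cos_sq θ
    · rw [indicator_of_notMem (fun hh => h (hiff.1 hh)), indicator_of_notMem h]
      simp
  rw [setIntegral_congr_fun (measurableSet_Ioi.prod measurableSet_Ioo) hcongr,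
    Measure.volume_eq_prod, setIntegral_prod_mul (fun r : ℝ => r ^ 1 * Real.exp (-r ^ 2 / 2))
      (fun θ : ℝ => (Icc (-α) (π / 2)).indicator (fun _ => (1 : ℝ)) θ)]
  have h1 : ∫ x in Ioi (0 : ℝ), x ^ 1 * Real.exp (-x ^ 2 / 2) = 1 := Jn_one
  have h2 : ∫ θ in Ioo (-π) π, (Icc (-α) (π / 2)).indicator (fun _ => (1 : ℝ)) θ
      = π / 2 + α := by
    rw [setIntegral_indicator measurableSet_Icc, inter_eq_right.2 ?_, setIntegral_const,
      Real.volume_real_Icc_of_le (by linarith [hα.1]), smul_eq_mul]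
    · ring
    · intro x hx
      exact ⟨by linarith [hx.1, hα.2, pi_pos], by linarith [hx.2, pi_pos]⟩
  rw [h1, h2, one_mul]

lemma wedge_measure {ρ σ : ℝ} (hρ : ρ ^ 2 < 1) (hσ : σ ^ 2 = 1 - ρ ^ 2) :
    ∫ p in wedgeSet ρ σ, gw p = π / 2 + arcsin ρ := by
  have hρ1 : -1 < ρ ∧ ρ < 1 := abs_lt.1 ((sq_lt_one_iff_abs_lt_one _).1 hρ)
  have hα : arcsin ρ ∈ Ioo (-(π / 2)) (π / 2) :=
    ⟨neg_pi_div_two_lt_arcsin.2 hρ1.1, arcsin_lt_pi_div_two.2 hρ1.2⟩
  have hw := wedge_angle hα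
  rw [sin_arcsin hρ1.1.le hρ1.2.le, cos_arcsin] at hw
  set s := √(1 - ρ ^ 2) with hs
  have hs2 : s ^ 2 = 1 - ρ ^ 2 := Real.sq_sqrt (by linarith)
  rcases sq_eq_sq_iff_eq_or_eq_neg.1 (hσ.trans hs2.symm) with h | h
  · rw [h]; exact hw
  · rw [h, ← hw, ← integral_indicator (measurableSet_wedgeSet _ _),
      ← integral_indicator (measurableSet_wedgeSet _ _)]
    let T : ℝ × ℝ ≃ᵐ ℝ × ℝ := MeasurableEquiv.prodCongr (MeasurableEquiv.refl ℝ) (MeasurableEquiv.neg ℝ)
    have hT : MeasurePreserving T (volume : Measure (ℝ × ℝ)) volume :=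
      (MeasurePreserving.id (volume : Measure ℝ)).prod (Measure.measurePreserving_neg volume)
    rw [← hT.integral_comp' (wedgeSet ρ s |>.indicator gw)]
    congr 1
    funext p
    have e1 : T p = (p.1, -p.2) := rfl
    rw [e1]
    have hiff : ((p.1, -p.2) ∈ wedgeSet ρ s) ↔ p ∈ wedgeSet ρ (-s) := by
      simp [wedgeSet]
    by_cases hp : p ∈ wedgeSet ρ (-s)
    · rw [indicator_of_mem hp, indicator_of_mem (hiff.2 hp)]; simp [gw]
    · rw [indicator_of_notMem hp, indicator_of_notMem (fun hh => hp (hiff.1 hh))]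

section coord

variable (b : OrthonormalBasis (Fin 3) ℝ (EE 3))

/-- The point with given coordinates in an orthonormal basis. -/
noncomputable def pt (z : ℝ × ℝ × ℝ) : EE 3 := z.1 • b 0 + z.2.1 • b 1 + z.2.2 • b 2

lemma inner_pt (u : EE 3) (z : ℝ × ℝ × ℝ) :
    ⟪u, pt b z⟫ = z.1 * ⟪u, b 0⟫ + z.2.1 * ⟪u, b 1⟫ + z.2.2 * ⟪u, b 2⟫ := by
  simp [pt, inner_add_right, real_inner_smul_right]

lemma norm_pt_sq (z : ℝ × ℝ × ℝ) : ‖pt b z‖ ^ 2 = z.1 ^ 2 + z.2.1 ^ 2 + z.2.2 ^ 2 := by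
  have h := orthonormal_iff_ite.1 b.orthonormal
  rw [← real_inner_self_eq_norm_sq, inner_pt b]
  simp [pt, inner_add_left, real_inner_smul_left, h]
  ring

/-- Coordinates as a measurable equivalence. -/
noncomputable def coordEquiv : (ℝ × ℝ × ℝ) ≃ᵐ EE 3 :=
  (((MeasurableEquiv.prodCongr (MeasurableEquiv.refl ℝ) MeasurableEquiv.finTwoArrow.symm).trans
    (MeasurableEquiv.piFinSuccAbove (fun _ : Fin 3 => ℝ) 0).symm).trans
      (MeasurableEquiv.toLp 2 (Fin 3 → ℝ))).trans b.measurableEquiv.symm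

lemma coordEquiv_apply (z : ℝ × ℝ × ℝ) : coordEquiv b z = pt b z := by
  show b.repr.symm (WithLp.toLp 2 (Fin.insertNth 0 z.1 ![z.2.1, z.2.2])) = _
  rw [← b.sum_repr_symm, Fin.sum_univ_three, Fin.insertNth_zero']
  rfl

lemma measurePreserving_coordEquiv :
    MeasurePreserving (coordEquiv b) (volume : Measure (ℝ × ℝ × ℝ)) volume :=
  ((((MeasurePreserving.id (volume : Measure ℝ)).prod
    ((volume_preserving_finTwoArrow ℝ).symm _)).trans
      ((volume_preserving_piFinSuccAbove (fun _ : Fin 3 => ℝ) 0).symm _)).trans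
        (PiLp.volume_preserving_toLp (Fin 3))).trans b.measurePreserving_measurableEquiv.symm

lemma integral_pt (f : EE 3 → ℝ) : ∫ x, f x = ∫ z, f (pt b z) := by
  rw [← (measurePreserving_coordEquiv b).integral_comp' f]
  simp only [coordEquiv_apply]

lemma integrable_pt {f : EE 3 → ℝ} (hf : Integrable f) : Integrable fun z => f (pt b z) := by
  have h := (measurePreserving_coordEquiv b).integrable_comp_emb
    (coordEquiv b).measurableEmbedding |>.2 hf
  simpa [Function.comp_def, coordEquiv_apply] using h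

lemma dens_pt (z : ℝ × ℝ × ℝ) : dens (pt b z) =
    ((2 * π) ^ ((3 : ℝ) / 2))⁻¹ * Real.exp (-(z.1 ^ 2) / 2) * gw z.2 := by
  rw [dens, norm_pt_sq, gw, mul_assoc, ← Real.exp_add, Nat.cast_ofNat]
  congr 2
  ring

end coord

lemma two_pi_rpow : (2 * π) ^ ((3 : ℝ) / 2) = 2 * π * √(2 * π) := by
  rw [show (3 : ℝ) / 2 = 1 + 1 / 2 by norm_num, Real.rpow_add (by positivity), Real.rpow_one,
    Real.sqrt_eq_rpow]

/-- Gaussian measure of an intersection of two half-spaces. -/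
lemma pm_wedge (u w : EE 3) (hu : u ≠ 0) (hw : w ≠ 0) (hlt : |⟪u, w⟫ / (‖u‖ * ‖w‖)| < 1) :
    pm {x | 0 ≤ ⟪u, x⟫ ∧ 0 ≤ ⟪w, x⟫} = 1 / 4 + arcsin (⟪u, w⟫ / (‖u‖ * ‖w‖)) / (2 * π) := by
  set ρ := ⟪u, w⟫ / (‖u‖ * ‖w‖) with hρ
  have hun : 0 < ‖u‖ := norm_pos_iff.2 hu
  have hwn : 0 < ‖w‖ := norm_pos_iff.2 hw
  have hsq : ρ ^ 2 < 1 := (sq_lt_one_iff_abs_lt_one _).2 hlt
  set σ := √(1 - ρ ^ 2) with hσ
  have hσ2 : σ ^ 2 = 1 - ρ ^ 2 := Real.sq_sqrt (by linarith)
  have hσ0 : 0 < σ := Real.sqrt_pos.2 (by linarith)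
  obtain ⟨u1, hu1⟩ : ∃ x, x = ‖u‖⁻¹ • u := ⟨_, rfl⟩
  obtain ⟨w1, hw1⟩ : ∃ x, x = ‖w‖⁻¹ • w := ⟨_, rfl⟩
  have huu : ⟪u1, u1⟫ = 1 := by
    rw [hu1, real_inner_smul_left, real_inner_smul_right, real_inner_self_eq_norm_sq]
    field_simp
  have hww : ⟪w1, w1⟫ = 1 := by
    rw [hw1, real_inner_smul_left, real_inner_smul_right, real_inner_self_eq_norm_sq]
    field_simp
  have huw : ⟪u1, w1⟫ = ρ := by
    rw [hu1, hw1, real_inner_smul_left, real_inner_smul_right, hρ]
    field_simp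
  obtain ⟨v, hv⟩ : ∃ x : EE 3, x = σ⁻¹ • (w1 - ρ • u1) := ⟨_, rfl⟩
  have nu : ‖u1‖ = 1 := by nlinarith [real_inner_self_eq_norm_sq u1, norm_nonneg u1]
  have huv : ⟪u1, v⟫ = 0 := by
    rw [hv, real_inner_smul_right, inner_sub_right, real_inner_smul_right, huw, huu]; ring
  have hvv : ⟪v, v⟫ = 1 := by
    have hwu : ⟪w1, u1⟫ = ρ := by rw [real_inner_comm]; exact huw
    rw [hv, real_inner_smul_left, real_inner_smul_right]
    simp only [inner_sub_left, inner_sub_right, real_inner_smul_left, real_inner_smul_right,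
      huw, hwu, huu, hww]
    field_simp
    rw [hσ2]; ring
  have nv : ‖v‖ = 1 := by nlinarith [real_inner_self_eq_norm_sq v, norm_nonneg v]
  have hvu : ⟪v, u1⟫ = 0 := by rw [real_inner_comm]; exact huv
  have ho : Orthonormal ℝ (({1, 2} : Set (Fin 3)).domRestrict ![(0 : EE 3), u1, v]) := by
    rw [orthonormal_iff_ite]
    rintro ⟨i, hi⟩ ⟨j, hj⟩
    simp only [mem_insert_iff, mem_singleton_iff] at hi hj
    rcases hi with rfl | rfl <;> rcases hj with rfl | rfl <;>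
      simp [Subtype.ext_iff, nu, nv, huv, hvu]
  obtain ⟨b, hb⟩ := ho.exists_orthonormalBasis_extension_of_card_eq (by simp)
  have hb1 : b 1 = u1 := by simpa using hb 1 (by simp)
  have hb2 : b 2 = v := by simpa using hb 2 (by simp)
  have hbo := orthonormal_iff_ite.1 b.orthonormal
  have hw1e : w1 = ρ • b 1 + σ • b 2 := by
    rw [hb1, hb2, hv, smul_smul, mul_inv_cancel₀ hσ0.ne', one_smul, add_sub_cancel]
  have hue : u = ‖u‖ • b 1 := by rw [hb1, hu1, smul_smul, mul_inv_cancel₀ hun.ne', one_smul]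
  have hwe : w = ‖w‖ • w1 := by rw [hw1, smul_smul, mul_inv_cancel₀ hwn.ne', one_smul]
  set A : Set (EE 3) := {x | 0 ≤ ⟪u, x⟫ ∧ 0 ≤ ⟪w, x⟫} with hA
  have hAm : MeasurableSet A :=
    ((isClosed_le continuous_const (by fun_prop : Continuous fun x : EE 3 => ⟪u, x⟫)).inter
      (isClosed_le continuous_const (by fun_prop : Continuous fun x : EE 3 => ⟪w, x⟫))).measurableSet
  have hmem : ∀ z, pt b z ∈ A ↔ z.2 ∈ wedgeSet ρ σ := by
    intro z
    have e1 : ⟪u, pt b z⟫ = ‖u‖ * z.2.1 := by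
      rw [inner_pt, hue]; simp [real_inner_smul_left, hbo, norm_smul]; ring
    have e2 : ⟪w1, pt b z⟫ = ρ * z.2.1 + σ * z.2.2 := by
      rw [inner_pt, hw1e]; simp [inner_add_left, real_inner_smul_left, hbo]; ring
    have e3 : ⟪w, pt b z⟫ = ‖w‖ * (ρ * z.2.1 + σ * z.2.2) := by
      rw [← e2, hw1, real_inner_smul_left]; field_simp
    simp only [hA, Set.mem_ofPred_eq, e1, e3, wedgeSet, mul_nonneg_iff_of_pos_left hun,
      mul_nonneg_iff_of_pos_left hwn]
  rw [pm, ← integral_indicator hAm, integral_pt b]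
  have hfn : (fun z => A.indicator dens (pt b z)) = fun z : ℝ × ℝ × ℝ =>
      (((2 * π) ^ ((3 : ℝ) / 2))⁻¹ * Real.exp (-(z.1 ^ 2) / 2))
        * (wedgeSet ρ σ).indicator gw z.2 := by
    funext z
    by_cases h : z.2 ∈ wedgeSet ρ σ
    · rw [indicator_of_mem ((hmem z).2 h), indicator_of_mem h, dens_pt]
    · rw [indicator_of_notMem (fun hh => h ((hmem z).1 hh)), indicator_of_notMem h, mul_zero]
  rw [hfn, Measure.volume_eq_prod,
    integral_prod_mul (fun t : ℝ => ((2 * π) ^ ((3 : ℝ) / 2))⁻¹ * Real.exp (-(t ^ 2) / 2))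
      ((wedgeSet ρ σ).indicator gw),
    integral_indicator (measurableSet_wedgeSet _ _), wedge_measure hsq hσ2, integral_const_mul]
  have hg : ∫ t : ℝ, Real.exp (-(t ^ 2) / 2) = √(2 * π) := by
    have := integral_gaussian (1 / 2)
    rw [show π / (1 / 2) = 2 * π by ring] at this
    rw [← this]; congr 1; funext t; ring_nf
  rw [hg, two_pi_rpow]
  have : 0 < √(2 * π) := by positivity
  field_simp
  ring

lemma smul_ne_of_linearIndependent {e : Fin 3 → EE 3} (he : LinearIndependent ℝ e) {a b c : Fin 3}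
    (hac : a ≠ c) (hbc : b ≠ c) (s t : ℝ) : e c ≠ s • e a + t • e b := by
  intro h
  have := Fintype.linearIndependent_iff.1 he
    (fun i => (Pi.single c 1 : Fin 3 → ℝ) i - s * (Pi.single a 1 : Fin 3 → ℝ) i
      - t * (Pi.single b 1 : Fin 3 → ℝ) i) (by
      simp [sub_smul, Finset.sum_sub_distrib, Pi.single_apply, ite_smul, h]) c
  simp [hac.symm, hbc.symm] at this

lemma abs_rho_lt_one {e : Fin 3 → EE 3} (he : LinearIndependent ℝ e) {i j : Fin 3} (hij : i ≠ j) :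
    |rho e i j| < 1 := by
  refine lt_of_le_of_ne (abs_real_inner_div_norm_mul_norm_le_one _ _) fun h => ?_
  obtain ⟨-, r, -, hr⟩ := (abs_real_inner_div_norm_mul_norm_eq_one_iff _ _).1 h
  exact smul_ne_of_linearIndependent he hij hij r 0 (by rw [hr, zero_smul, add_zero])

lemma volume_inner_eq_zero {u : EE 3} (hu : u ≠ 0) :
    volume {x : EE 3 | ⟪u, x⟫ = 0} = 0 := by
  have e : {x : EE 3 | ⟪u, x⟫ = 0} = (LinearMap.ker (innerₛₗ ℝ u) : Set (EE 3)) := by
    ext x; simp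
  rw [e]
  refine Measure.addHaar_submodule _ _ fun h => hu ?_
  rw [LinearMap.ker_eq_top] at h
  have := congrArg (fun f : EE 3 →ₗ[ℝ] ℝ => f u) h
  simpa using this

lemma pm_compl_symm {A : Set (EE 3)} (hA : MeasurableSet A) :
    ∫ x : EE 3, A.indicator dens (-x) = pm A := by
  rw [integral_neg_eq_self (fun x : EE 3 => A.indicator dens x) volume, integral_indicator hA]
  rfl

lemma pm_half {u : EE 3} (hu : u ≠ 0) : pm {x | 0 ≤ ⟪u, x⟫} = 1 / 2 := by
  set H := {x : EE 3 | 0 ≤ ⟪u, x⟫} with hH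
  have hHm : MeasurableSet H :=
    (isClosed_le continuous_const (by fun_prop : Continuous fun x : EE 3 => ⟪u, x⟫)).measurableSet
  have hi : Integrable (H.indicator (dens (r := 3))) := integrable_dens.indicator hHm
  have hae : ∀ᵐ x : EE 3, H.indicator dens x + H.indicator dens (-x) = dens x := by
    filter_upwards [compl_mem_ae_iff.2 (volume_inner_eq_zero hu)] with x hx
    simp only [Set.mem_compl_iff, Set.mem_ofPred_eq] at hx
    rcases lt_or_gt_of_ne hx with h | h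
    · rw [indicator_of_notMem (by simp [hH, h]), indicator_of_mem (by simp [hH, h.le]),
        dens_neg, zero_add]
    · rw [indicator_of_mem (by simp [hH, h.le]), indicator_of_notMem (by simp [hH, h]), add_zero]
  have h := integral_congr_ae hae
  rw [integral_add hi hi.comp_neg, integral_dens, integral_indicator hHm, pm_compl_symm hHm] at h
  have : pm H = ∫ x in H, dens x := rfl
  linarith

/-- Gaussian measure of a trihedral cone. -/
theorem trihedral_pm (e : Fin 3 → EE 3) (he : LinearIndependent ℝ e) :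
    pm {x | ∀ i, 0 ≤ ⟪e i, x⟫} =
      1 / 8 + (arcsin (rho e 0 1) + arcsin (rho e 0 2) + arcsin (rho e 1 2)) / (4 * π) := by
  classical
  set A : Set (EE 3) := {x | ∀ i, 0 ≤ ⟪e i, x⟫} with hA
  set P : Fin 3 → Fin 3 → Set (EE 3) := fun i j => {x | 0 ≤ ⟪e i, x⟫ ∧ 0 ≤ ⟪e j, x⟫} with hP
  set H : Fin 3 → Set (EE 3) := fun i => {x | 0 ≤ ⟪e i, x⟫} with hH
  have hc : ∀ i, Continuous fun x : EE 3 => ⟪e i, x⟫ := fun i => by fun_prop
  have hHm : ∀ i, MeasurableSet (H i) := fun i =>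
    (isClosed_le continuous_const (hc i)).measurableSet
  have hPm : ∀ i j, MeasurableSet (P i j) := fun i j => (hHm i).inter (hHm j)
  have hAm : MeasurableSet A := by
    have : A = H 0 ∩ H 1 ∩ H 2 := by ext x; simp [hA, hH, Fin.forall_fin_succ, and_assoc]
    rw [this]; exact ((hHm 0).inter (hHm 1)).inter (hHm 2)
  have hne : ∀ i, e i ≠ 0 := fun i => he.ne_zero i
  have hi : ∀ {S : Set (EE 3)}, MeasurableSet S → Integrable (S.indicator (dens (r := 3))) :=
    fun hS => integrable_dens.indicator hS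
  have hae : ∀ᵐ x : EE 3, A.indicator dens x + A.indicator dens (-x)
      = dens x - (H 0).indicator dens x - (H 1).indicator dens x - (H 2).indicator dens x
        + (P 0 1).indicator dens x + (P 0 2).indicator dens x + (P 1 2).indicator dens x := by
    filter_upwards [compl_mem_ae_iff.2 (volume_inner_eq_zero (hne 0)),
      compl_mem_ae_iff.2 (volume_inner_eq_zero (hne 1)),
      compl_mem_ae_iff.2 (volume_inner_eq_zero (hne 2))] with x h0 h1 h2
    simp only [Set.mem_compl_iff, Set.mem_ofPred_eq] at h0 h1 h2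
    simp only [hA, hP, hH, Set.indicator_apply, Set.mem_ofPred_eq, Fin.forall_fin_succ,
      IsEmpty.forall_iff, and_true, inner_neg_right, dens_neg, neg_nonneg, Fin.succ_zero_eq_one,
      Fin.succ_one_eq_two]
    rcases lt_or_gt_of_ne h0 with a0 | a0 <;> rcases lt_or_gt_of_ne h1 with a1 | a1 <;>
      rcases lt_or_gt_of_ne h2 with a2 | a2 <;>
      simp [a0.le, a0.not_ge, a1.le, a1.not_ge, a2.le, a2.not_ge]
  have h := integral_congr_ae hae
  rw [integral_add (hi hAm) (hi hAm).comp_neg, pm_compl_symm hAm] at h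
  rw [integral_add (((((integrable_dens.sub' (hi (hHm 0))).sub' (hi (hHm 1))).sub' (hi (hHm 2))).fun_add
      (hi (hPm 0 1))).fun_add (hi (hPm 0 2))) (hi (hPm 1 2)),
    integral_add ((((integrable_dens.sub' (hi (hHm 0))).sub' (hi (hHm 1))).sub' (hi (hHm 2))).fun_add
      (hi (hPm 0 1))) (hi (hPm 0 2)),
    integral_add (((integrable_dens.sub' (hi (hHm 0))).sub' (hi (hHm 1))).sub' (hi (hHm 2)))
      (hi (hPm 0 1)),
    integral_sub ((integrable_dens.sub' (hi (hHm 0))).sub' (hi (hHm 1))) (hi (hHm 2)),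
    integral_sub (integrable_dens.sub' (hi (hHm 0))) (hi (hHm 1)),
    integral_sub integrable_dens (hi (hHm 0)), integral_dens] at h
  simp only [integral_indicator hAm, integral_indicator (hHm _), integral_indicator (hPm _ _)] at h
  have eH : ∀ i, ∫ x in H i, dens x = 1 / 2 := fun i => pm_half (hne i)
  have eP : ∀ i j, i ≠ j → ∫ x in P i j, dens x = 1 / 4 + arcsin (rho e i j) / (2 * π) :=
    fun i j hij => pm_wedge _ _ (hne i) (hne j) (abs_rho_lt_one he hij)
  rw [eH, eH, eH, eP 0 1 (by decide), eP 0 2 (by decide), eP 1 2 (by decide)] at h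
  unfold pm at h ⊢
  field_simp at h ⊢
  linarith

/-- The line integral behind the face formula. -/
lemma integral_line {β γ g0 s : ℝ} (hγ : 0 < γ) (hg : 0 < g0)
    (hint : IntegrableOn (fun t => (β + γ * t / g0) *
      Real.exp (-(s + 2 * β * t / g0 + γ * (t / g0) ^ 2) / 2)) (Ioi 0)) :
    ∫ t in Ioi (0 : ℝ), (β + γ * t / g0) *
      Real.exp (-(s + 2 * β * t / g0 + γ * (t / g0) ^ 2) / 2) = g0 * Real.exp (-s / 2) := by
  have hlim : Tendsto (fun t : ℝ => -(g0 * Real.exp (-(s + 2 * β * t / g0 + γ * (t / g0) ^ 2) / 2)))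
      atTop (𝓝 0) := by
    have hu : Tendsto (fun t : ℝ => t / g0) atTop atTop := tendsto_id.atTop_div_const hg
    have hv : Tendsto (fun u : ℝ => u * (γ * u + 2 * β) + s) atTop atTop :=
      tendsto_atTop_add_const_right _ _ (tendsto_id.atTop_mul_atTop₀
        (tendsto_atTop_add_const_right _ _ (tendsto_id.const_mul_atTop hγ)))
    have h3 := (hv.comp hu).const_mul_atTop_of_neg (show (-(1 / 2) : ℝ) < 0 by norm_num)
    have h4 := ((Real.tendsto_exp_atBot.comp h3).const_mul g0).neg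
    rw [mul_zero, neg_zero] at h4
    refine h4.congr fun t => ?_
    simp only [Function.comp_apply, id_eq]
    ring_nf
  rw [integral_Ioi_of_hasDerivAt_of_tendsto' (fun t _ => ?_) hint hlim]
  · simp
  · have h1 : HasDerivAt (fun t : ℝ => -(s + 2 * β * t / g0 + γ * (t / g0) ^ 2) / 2)
        (-(2 * β / g0 + γ * (2 * (t / g0) * (1 / g0))) / 2) t := by
      have ha : HasDerivAt (fun t : ℝ => 2 * β * t / g0) (2 * β / g0) t := by
        simpa using ((hasDerivAt_id t).const_mul (2 * β)).div_const g0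
      have hb : HasDerivAt (fun t : ℝ => γ * (t / g0) ^ 2) (γ * (2 * (t / g0) * (1 / g0))) t := by
        simpa using (((hasDerivAt_id t).div_const g0).pow 2).const_mul γ
      exact (((ha.const_add s).add hb).neg).div_const 2
    have h2 := (h1.exp.const_mul g0).neg
    refine h2.congr_deriv ?_
    field_simp

/-- The integral over a planar wedge times the line integral, in sheared coordinates. -/
lemma face_calc {g0 g1 g2 p0 p1 q0 q1 q2 K : ℝ} (hg : 0 < g0) (hp : 0 < p1) (hq : q2 ≠ 0)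
    (hK : K ≠ 0) (hgb : p0 * g0 + p1 * g1 = 0) (hgc : q0 * g0 + q1 * g1 + q2 * g2 = 0)
    (S : Set (ℝ × ℝ × ℝ))
    (hS : ∀ t y1 y2, (t, y1, y2) ∈ S ↔
      0 ≤ t ∧ 0 ≤ p0 * t + p1 * y1 ∧ 0 ≤ q0 * t + q1 * y1 + q2 * y2)
    (hF : Integrable (S.indicator fun z : ℝ × ℝ × ℝ =>
      (g0 * z.1 + g1 * z.2.1 + g2 * z.2.2) * (K * Real.exp (-(z.1 ^ 2) / 2) * gw z.2))) :
    ∫ z, S.indicator (fun z : ℝ × ℝ × ℝ =>
      (g0 * z.1 + g1 * z.2.1 + g2 * z.2.2) * (K * Real.exp (-(z.1 ^ 2) / 2) * gw z.2)) z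
      = K * g0 * (π / 2 + arcsin (q1 / √(q1 ^ 2 + q2 ^ 2))) := by
  have hqp : 0 < q1 ^ 2 + q2 ^ 2 := by positivity
  obtain ⟨L, hL⟩ : ∃ L, L = √(q1 ^ 2 + q2 ^ 2) := ⟨_, rfl⟩
  rw [← hL]
  have hL0 : 0 < L := hL ▸ Real.sqrt_pos.2 hqp
  have hL2 : L ^ 2 = q1 ^ 2 + q2 ^ 2 := by rw [hL]; exact Real.sq_sqrt hqp.le
  have hσ'2 : (q2 / L) ^ 2 = 1 - (q1 / L) ^ 2 := by field_simp; linarith
  have hρ'1 : (q1 / L) ^ 2 < 1 := by
    have : q2 / L ≠ 0 := div_ne_zero hq hL0.ne'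
    have : 0 < (q2 / L) ^ 2 := by positivity
    linarith
  have hγ0 : 0 < g0 ^ 2 + g1 ^ 2 + g2 ^ 2 := by positivity
  let Φ : ℝ × ℝ × ℝ ≃ᵐ ℝ × ℝ × ℝ :=
    { toFun := fun z => (z.1, z.2.1 + z.1 / g0 * g1, z.2.2 + z.1 / g0 * g2)
      invFun := fun z => (z.1, z.2.1 - z.1 / g0 * g1, z.2.2 - z.1 / g0 * g2)
      left_inv := fun z => by simp
      right_inv := fun z => by simp
      measurable_toFun := by
        show Measurable fun z : ℝ × ℝ × ℝ => (z.1, z.2.1 + z.1 / g0 * g1, z.2.2 + z.1 / g0 * g2)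
        fun_prop
      measurable_invFun := by
        show Measurable fun z : ℝ × ℝ × ℝ => (z.1, z.2.1 - z.1 / g0 * g1, z.2.2 - z.1 / g0 * g2)
        fun_prop }
  have hΦ : MeasurePreserving Φ (volume : Measure (ℝ × ℝ × ℝ)) volume := by
    refine MeasurePreserving.skew_product (g := fun (t : ℝ) (y : ℝ × ℝ) =>
      (y.1 + t / g0 * g1, y.2 + t / g0 * g2)) (MeasurePreserving.id _) (by fun_prop) ?_
    refine ae_of_all _ fun t => ?_
    exact (map_add_right_eq_self (volume : Measure (ℝ × ℝ)) (t / g0 * g1, t / g0 * g2))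
  set F := S.indicator fun z : ℝ × ℝ × ℝ =>
    (g0 * z.1 + g1 * z.2.1 + g2 * z.2.2) * (K * Real.exp (-(z.1 ^ 2) / 2) * gw z.2) with hFdef
  have hHi : Integrable (fun z => F (Φ z)) :=
    hΦ.integrable_comp_emb Φ.measurableEmbedding |>.2 hF
  have hval : ∀ z, F (Φ z) = (Ici (0 : ℝ)).indicator (fun t => (wedgeSet (q1 / L) (q2 / L)).indicator
      (fun y => K * (((g1 * y.1 + g2 * y.2) + (g0 ^ 2 + g1 ^ 2 + g2 ^ 2) * t / g0) *
        Real.exp (-(y.1 ^ 2 + y.2 ^ 2 + 2 * (g1 * y.1 + g2 * y.2) * t / g0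
          + (g0 ^ 2 + g1 ^ 2 + g2 ^ 2) * (t / g0) ^ 2) / 2))) z.2) z.1 := by
    rintro ⟨t, y1, y2⟩
    have e1 : Φ (t, y1, y2) = (t, y1 + t / g0 * g1, y2 + t / g0 * g2) := rfl
    have ib : p0 * t + p1 * (y1 + t / g0 * g1) = p1 * y1 := by
      field_simp
      linear_combination t * hgb
    have ic : q0 * t + q1 * (y1 + t / g0 * g1) + q2 * (y2 + t / g0 * g2)
        = L * (q1 / L * y1 + q2 / L * y2) := by
      field_simp
      linear_combination t * hgc
    have hmem : Φ (t, y1, y2) ∈ S ↔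
        t ∈ Ici (0 : ℝ) ∧ (y1, y2) ∈ wedgeSet (q1 / L) (q2 / L) := by
      rw [e1, hS, ib, ic, mul_nonneg_iff_of_pos_left hp, mul_nonneg_iff_of_pos_left hL0]
      rfl
    by_cases ht : t ∈ Ici (0 : ℝ)
    · by_cases hy : (y1, y2) ∈ wedgeSet (q1 / L) (q2 / L)
      · rw [hFdef, indicator_of_mem (hmem.2 ⟨ht, hy⟩), indicator_of_mem ht, indicator_of_mem hy,
          e1, gw, mul_assoc K, ← Real.exp_add]
        field_simp
        ring_nf
      · rw [hFdef, indicator_of_notMem (fun h => hy (hmem.1 h).2), indicator_of_mem ht,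
          indicator_of_notMem hy]
    · rw [hFdef, indicator_of_notMem (fun h => ht (hmem.1 h).1), indicator_of_notMem ht]
  have hinner : ∀ᵐ y : ℝ × ℝ, ∫ t, F (Φ (t, y))
      = K * g0 * (wedgeSet (q1 / L) (q2 / L)).indicator gw y := by
    rw [Measure.volume_eq_prod] at hHi
    filter_upwards [hHi.prod_left_ae] with y hy
    simp only [hval] at hy ⊢
    by_cases hyW : y ∈ wedgeSet (q1 / L) (q2 / L)
    · simp only [indicator_of_mem hyW] at hy ⊢
      have hy' : IntegrableOn (fun t => (g1 * y.1 + g2 * y.2 + (g0 ^ 2 + g1 ^ 2 + g2 ^ 2) * t / g0) *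
          Real.exp (-(y.1 ^ 2 + y.2 ^ 2 + 2 * (g1 * y.1 + g2 * y.2) * t / g0
            + (g0 ^ 2 + g1 ^ 2 + g2 ^ 2) * (t / g0) ^ 2) / 2)) (Ioi 0) := by
        have h1 := ((integrable_indicator_iff measurableSet_Ici).1 hy).mono_set Ioi_subset_Ici_self
        have h2 := h1.const_mul K⁻¹
        refine IntegrableOn.congr_fun h2 (fun t _ => ?_) measurableSet_Ioi
        show K⁻¹ * (K * _) = _
        rw [inv_mul_cancel_left₀ hK]
      rw [integral_indicator measurableSet_Ici, integral_Ici_eq_integral_Ioi, integral_const_mul,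
        integral_line hγ0 hg hy', gw]
      ring
    · simp [indicator_of_notMem hyW]
  calc ∫ z, F z = ∫ z, F (Φ z) := (hΦ.integral_comp' F).symm
    _ = ∫ y : ℝ × ℝ, ∫ t, F (Φ (t, y)) := by
        rw [Measure.volume_eq_prod] at hHi ⊢
        exact integral_prod_symm _ hHi
    _ = _ := by
        rw [integral_congr_ae hinner, integral_const_mul,
          integral_indicator (measurableSet_wedgeSet _ _), wedge_measure hρ'1 hσ'2]

/-- Gaussian first moment of a trihedral cone along a dual vector. -/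
theorem trihedral_face (e : Fin 3 → EE 3) (he : LinearIndependent ℝ e) (G : EE 3) (a b c : Fin 3)
    (hab : a ≠ b) (hac : a ≠ c) (hbc : b ≠ c)
    (hGb : ⟪e b, G⟫ = 0) (hGc : ⟪e c, G⟫ = 0) (hGa : ⟪e a, G⟫ = 1) :
    ∫ x in {x | ∀ i, 0 ≤ ⟪e i, x⟫}, ⟪G, x⟫ * dens x =
      arccos (-(rho e b c - rho e a b * rho e a c) /
        √((1 - rho e a b ^ 2) * (1 - rho e a c ^ 2))) / (2 * π * √(2 * π) * ‖e a‖) := by
  classical
  set A : Set (EE 3) := {x | ∀ i, 0 ≤ ⟪e i, x⟫} with hA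
  set ρab := rho e a b with hρab
  set ρac := rho e a c with hρac
  set ρbc := rho e b c with hρbc
  have hna : 0 < ‖e a‖ := norm_pos_iff.2 (he.ne_zero a)
  have hnb : 0 < ‖e b‖ := norm_pos_iff.2 (he.ne_zero b)
  have hnc : 0 < ‖e c‖ := norm_pos_iff.2 (he.ne_zero c)
  have hab1 : ρab ^ 2 < 1 := (sq_lt_one_iff_abs_lt_one _).2 (abs_rho_lt_one he hab)
  have hac1 : ρac ^ 2 < 1 := (sq_lt_one_iff_abs_lt_one _).2 (abs_rho_lt_one he hac)
  have iab : ⟪e a, e b⟫ = ρab * (‖e a‖ * ‖e b‖) := by rw [hρab, rho]; field_simp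
  have iac : ⟪e a, e c⟫ = ρac * (‖e a‖ * ‖e c‖) := by rw [hρac, rho]; field_simp
  have ibc : ⟪e b, e c⟫ = ρbc * (‖e b‖ * ‖e c‖) := by rw [hρbc, rho]; field_simp
  set σ := √(1 - ρab ^ 2) with hσ
  have hσ0 : 0 < σ := Real.sqrt_pos.2 (by linarith)
  have hσ2 : σ ^ 2 = 1 - ρab ^ 2 := Real.sq_sqrt (by linarith)
  obtain ⟨n, hn⟩ : ∃ x, x = ‖e a‖⁻¹ • e a := ⟨_, rfl⟩
  obtain ⟨m, hm⟩ : ∃ x, x = σ⁻¹ • (‖e b‖⁻¹ • e b - ρab • n) := ⟨_, rfl⟩
  have hnn : ⟪n, n⟫ = 1 := by
    rw [hn, real_inner_smul_left, real_inner_smul_right, real_inner_self_eq_norm_sq]; field_simp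
  have hnb' : ⟪n, e b⟫ = ρab * ‖e b‖ := by
    rw [hn, real_inner_smul_left, iab]; field_simp
  have hbn' : ⟪e b, n⟫ = ρab * ‖e b‖ := by rw [real_inner_comm]; exact hnb'
  have hnm : ⟪n, m⟫ = 0 := by
    simp only [hm, real_inner_smul_right, inner_sub_right, hnb', hnn]
    field_simp
    ring
  have hmn : ⟪m, n⟫ = 0 := by rw [real_inner_comm]; exact hnm
  have hmm : ⟪m, m⟫ = 1 := by
    have hbb : ⟪e b, e b⟫ = ‖e b‖ ^ 2 := real_inner_self_eq_norm_sq _
    simp only [hm, real_inner_smul_left, real_inner_smul_right, inner_sub_right, inner_sub_left,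
      hnb', hbn', hnn, hbb]
    field_simp
    rw [hσ2]; ring
  have nn : ‖n‖ = 1 := by nlinarith [real_inner_self_eq_norm_sq n, norm_nonneg n]
  have nm : ‖m‖ = 1 := by nlinarith [real_inner_self_eq_norm_sq m, norm_nonneg m]
  have ho : Orthonormal ℝ (({0, 1} : Set (Fin 3)).domRestrict ![n, m, (0 : EE 3)]) := by
    rw [orthonormal_iff_ite]
    rintro ⟨i, hi⟩ ⟨j, hj⟩
    simp only [mem_insert_iff, mem_singleton_iff] at hi hj
    rcases hi with rfl | rfl <;> rcases hj with rfl | rfl <;>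
      simp [Subtype.ext_iff, nn, nm, hnm, hmn]
  obtain ⟨B, hB⟩ := ho.exists_orthonormalBasis_extension_of_card_eq (by simp)
  have hB0 : B 0 = n := by simpa using hB 0 (by simp)
  have hB1 : B 1 = m := by simpa using hB 1 (by simp)
  have hBo := orthonormal_iff_ite.1 B.orthonormal
  have eA : e a = ‖e a‖ • B 0 := by rw [hB0, hn, smul_smul, mul_inv_cancel₀ hna.ne', one_smul]
  have eB : e b = (‖e b‖ * ρab) • B 0 + (‖e b‖ * σ) • B 1 := by
    rw [hB0, hB1, hm, smul_smul, mul_assoc, mul_inv_cancel₀ hσ0.ne', mul_one, smul_sub, smul_smul,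
      mul_inv_cancel₀ hnb.ne', one_smul, smul_smul, add_sub_cancel]
  set q0 := ⟪e c, B 0⟫ with hq0
  set q1 := ⟪e c, B 1⟫ with hq1
  set q2 := ⟪e c, B 2⟫ with hq2
  set g0 := ⟪G, B 0⟫ with hg0
  set g1 := ⟪G, B 1⟫ with hg1
  set g2 := ⟪G, B 2⟫ with hg2
  have hexp : ∀ u v : EE 3, ⟪u, v⟫
      = ⟪u, B 0⟫ * ⟪v, B 0⟫ + ⟪u, B 1⟫ * ⟪v, B 1⟫ + ⟪u, B 2⟫ * ⟪v, B 2⟫ := by
    intro u v
    rw [← B.sum_inner_mul_inner u v, Fin.sum_univ_three]
    simp only [real_inner_comm v]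
  have hq0v : q0 = ρac * ‖e c‖ := by
    rw [hq0, hB0, hn, real_inner_smul_right, real_inner_comm, iac]; field_simp
  have hq1v : q1 * σ = ‖e c‖ * (ρbc - ρab * ρac) := by
    have h := hexp (e c) (e b)
    rw [real_inner_comm, ibc, ← hq0, ← hq1, ← hq2, eB] at h
    simp [inner_add_left, real_inner_smul_left, hBo, norm_smul] at h
    rw [← eB, hq0v] at h
    apply mul_left_cancel₀ hnb.ne'
    linarith
  have hqsum : q1 ^ 2 + q2 ^ 2 = ‖e c‖ ^ 2 * (1 - ρac ^ 2) := by
    have h := hexp (e c) (e c)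
    rw [real_inner_self_eq_norm_sq, ← hq0, ← hq1, ← hq2, hq0v] at h
    linarith
  have hq2ne : q2 ≠ 0 := by
    intro h0
    have hc' : e c = q0 • B 0 + q1 • B 1 := by
      apply ext_inner_right ℝ
      intro v
      rw [hexp (e c) v, ← hq0, ← hq1, ← hq2, h0, inner_add_left, real_inner_smul_left,
        real_inner_smul_left, real_inner_comm v, real_inner_comm v]
      ring
    refine smul_ne_of_linearIndependent he hac hbc
      ((q0 - q1 / σ * ρab) * ‖e a‖⁻¹) (q1 / σ * ‖e b‖⁻¹) ?_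
    rw [hc', hB0, hB1, hm, hn]
    module
  have hg0v : g0 = ‖e a‖⁻¹ := by
    rw [hg0, hB0, hn, real_inner_smul_right, real_inner_comm, hGa, mul_one]
  have hg0p : 0 < g0 := by rw [hg0v]; positivity
  have hgb : ρab * g0 + σ * g1 = 0 := by
    rw [eB, inner_add_left, real_inner_smul_left, real_inner_smul_left,
      real_inner_comm G (B 0), real_inner_comm G (B 1), ← hg0, ← hg1] at hGb
    apply mul_left_cancel₀ hnb.ne'
    linarith
  have hgc : q0 * g0 + q1 * g1 + q2 * g2 = 0 := by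
    rw [hexp (e c) G] at hGc; exact hGc
  set K := ((2 * π) ^ ((3 : ℝ) / 2))⁻¹ with hK
  have hKne : K ≠ 0 := by rw [hK]; positivity
  have hAm : MeasurableSet A := by
    have : A = ⋂ i, {x : EE 3 | 0 ≤ ⟪e i, x⟫} := by ext x; simp [hA]
    rw [this]
    exact (isClosed_iInter fun i => isClosed_le continuous_const (by fun_prop)).measurableSet
  have hfi : Integrable (A.indicator fun x => ⟪G, x⟫ * dens x) :=
    ((GB.inner G).integrable' (by fun_prop)).indicator hAm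
  have hall : ∀ i : Fin 3, i = a ∨ i = b ∨ i = c := by omega
  have ia : ∀ z, ⟪e a, pt B z⟫ = ‖e a‖ * z.1 := fun z => by
    rw [inner_pt, eA]; simp [real_inner_smul_left, hBo, norm_smul]; ring
  have ib : ∀ z, ⟪e b, pt B z⟫ = ‖e b‖ * (ρab * z.1 + σ * z.2.1) := fun z => by
    rw [inner_pt, eB]; simp [inner_add_left, real_inner_smul_left, hBo, norm_smul]
    rw [← eB]
    ring
  have ic : ∀ z, ⟪e c, pt B z⟫ = q0 * z.1 + q1 * z.2.1 + q2 * z.2.2 := fun z => by
    rw [inner_pt, ← hq0, ← hq1, ← hq2]; ring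
  have iG : ∀ z, ⟪G, pt B z⟫ = g0 * z.1 + g1 * z.2.1 + g2 * z.2.2 := fun z => by
    rw [inner_pt, ← hg0, ← hg1, ← hg2]; ring
  obtain ⟨S, hSdef⟩ : ∃ S : Set (ℝ × ℝ × ℝ), S = {z | pt B z ∈ A} := ⟨_, rfl⟩
  have hS : ∀ t y1 y2, (t, y1, y2) ∈ S ↔
      0 ≤ t ∧ 0 ≤ ρab * t + σ * y1 ∧ 0 ≤ q0 * t + q1 * y1 + q2 * y2 := by
    intro t y1 y2
    simp only [hSdef, hA, Set.mem_ofPred_eq]
    constructor
    · intro h
      have h1 := h a; have h2 := h b; have h3 := h c
      rw [ia, mul_nonneg_iff_of_pos_left hna] at h1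
      rw [ib, mul_nonneg_iff_of_pos_left hnb] at h2
      rw [ic] at h3
      exact ⟨h1, h2, h3⟩
    · rintro ⟨h1, h2, h3⟩ i
      rcases hall i with rfl | rfl | rfl
      · rw [ia]; exact mul_nonneg hna.le h1
      · rw [ib]; exact mul_nonneg hnb.le h2
      · rw [ic]; exact h3
  have hfun : (fun z => A.indicator (fun x => ⟪G, x⟫ * dens x) (pt B z))
      = S.indicator fun z : ℝ × ℝ × ℝ =>
        (g0 * z.1 + g1 * z.2.1 + g2 * z.2.2) * (K * Real.exp (-(z.1 ^ 2) / 2) * gw z.2) := by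
    funext z
    by_cases h : pt B z ∈ A
    · rw [indicator_of_mem h, indicator_of_mem (by rw [hSdef]; exact h), iG, dens_pt]
    · rw [indicator_of_notMem h, indicator_of_notMem (by rw [hSdef]; exact h)]
  have hFi := integrable_pt B hfi
  rw [hfun] at hFi
  have hpi : √(q1 ^ 2 + q2 ^ 2) = ‖e c‖ * √(1 - ρac ^ 2) := by
    rw [hqsum, Real.sqrt_mul (sq_nonneg _), Real.sqrt_sq hnc.le]
  have hρeq : q1 / √(q1 ^ 2 + q2 ^ 2)
      = (ρbc - ρab * ρac) / √((1 - ρab ^ 2) * (1 - ρac ^ 2)) := by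
    rw [Real.sqrt_mul (by linarith), ← hσ, hpi]
    have : 0 < √(1 - ρac ^ 2) := Real.sqrt_pos.2 (by linarith)
    field_simp
    linarith
  rw [← integral_indicator hAm, integral_pt B, hfun,
    face_calc hg0p hσ0 hq2ne hKne hgb hgc S hS hFi, hρeq, neg_div, arccos_neg,
    arccos_eq_pi_div_two_sub_arcsin, hK, two_pi_rpow, hg0v]
  field_simp
  ring

/-- The Gram determinant is positive. -/
lemma gram_pos {e : Fin 3 → EE 3} (he : LinearIndependent ℝ e) :
    0 < 1 - rho e 0 1 ^ 2 - rho e 0 2 ^ 2 - rho e 1 2 ^ 2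
      + 2 * rho e 0 1 * rho e 0 2 * rho e 1 2 := by
  set r01 := rho e 0 1
  set r02 := rho e 0 2
  set r12 := rho e 1 2
  have h0 : (0 : ℝ) < ‖e 0‖ := norm_pos_iff.2 (he.ne_zero 0)
  have h1 : (0 : ℝ) < ‖e 1‖ := norm_pos_iff.2 (he.ne_zero 1)
  have h2 : (0 : ℝ) < ‖e 2‖ := norm_pos_iff.2 (he.ne_zero 2)
  have hd : 0 < 1 - r01 ^ 2 :=
    sub_pos.2 ((sq_lt_one_iff_abs_lt_one _).2 (abs_rho_lt_one he (by decide)))
  obtain ⟨u, hu⟩ : ∃ x, x = ‖e 0‖⁻¹ • e 0 := ⟨_, rfl⟩
  obtain ⟨v, hv⟩ : ∃ x, x = ‖e 1‖⁻¹ • e 1 := ⟨_, rfl⟩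
  obtain ⟨w, hw⟩ : ∃ x, x = ‖e 2‖⁻¹ • e 2 := ⟨_, rfl⟩
  set s := (r12 - r01 * r02) / (1 - r01 ^ 2) with hs
  set P := (w - r02 • u) - s • (v - r01 • u) with hP
  have hP0 : P ≠ 0 := by
    intro h
    refine smul_ne_of_linearIndependent he (a := 0) (b := 1) (c := 2) (by decide) (by decide)
      ((r02 - s * r01) * ‖e 2‖ / ‖e 0‖) (s * ‖e 2‖ / ‖e 1‖) ?_
    have hw' : w = (r02 - s * r01) • u + s • v := by
      rw [← sub_eq_zero, ← h, hP]; module
    have : e 2 = ‖e 2‖ • w := by rw [hw, smul_smul, mul_inv_cancel₀ h2.ne', one_smul]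
    refine this.trans ?_
    rw [hw', hu, hv]
    module
  have iu : ⟪u, u⟫ = 1 := by
    rw [hu, real_inner_smul_left, real_inner_smul_right, real_inner_self_eq_norm_sq]; field_simp
  have iv : ⟪v, v⟫ = 1 := by
    rw [hv, real_inner_smul_left, real_inner_smul_right, real_inner_self_eq_norm_sq]; field_simp
  have iw : ⟪w, w⟫ = 1 := by
    rw [hw, real_inner_smul_left, real_inner_smul_right, real_inner_self_eq_norm_sq]; field_simp
  have iuv : ⟪u, v⟫ = r01 := by
    simp only [hu, hv, real_inner_smul_left, real_inner_smul_right, r01, rho]; field_simp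
  have iuw : ⟪u, w⟫ = r02 := by
    simp only [hu, hw, real_inner_smul_left, real_inner_smul_right, r02, rho]; field_simp
  have ivw : ⟪v, w⟫ = r12 := by
    simp only [hv, hw, real_inner_smul_left, real_inner_smul_right, r12, rho]; field_simp
  have hpos : 0 < ⟪P, P⟫ := real_inner_self_pos.2 hP0
  have hval : ⟪P, P⟫ * (1 - r01 ^ 2)
      = 1 - r01 ^ 2 - r02 ^ 2 - r12 ^ 2 + 2 * r01 * r02 * r12 := by
    simp only [hP, inner_sub_left, inner_sub_right, real_inner_smul_left, real_inner_smul_right,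
      real_inner_comm u v, real_inner_comm u w, real_inner_comm v w, iu, iv, iw, iuv, iuw, ivw,
      hs]
    field_simp
    ring
  rw [← hval]; positivity

end Vale.Agent.P226
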