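import Vale.Agent.P226.Cap

/-!
# Closed forms for one-dimensional and axial Gaussian integrals
-/

open MeasureTheory Real Set Filter
open scoped RealInnerProductSpace Topology

namespace Vale.Agent.P226

/-! ## The line -/

lemma integral_EE_one (g : ℝ → ℝ) :
    ∫ y : EE 1, g (y 0) * dens y
      = (Real.sqrt (2 * π))⁻¹ * ∫ t : ℝ, g t * Real.exp (-t ^ 2 / 2) := by
  have h1 := (PiLp.volume_preserving_toLp (Fin 1)).integral_comp
    (MeasurableEquiv.toLp 2 (Fin 1 → ℝ)).measurableEmbedding (fun y : EE 1 => g (y 0) * dens y)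
  have h2 := (MeasureTheory.volume_preserving_funUnique (Fin 1) ℝ).integral_comp
    (MeasurableEquiv.funUnique (Fin 1) ℝ).measurableEmbedding
    (fun t : ℝ => g t * ((Real.sqrt (2 * π))⁻¹ * Real.exp (-t ^ 2 / 2)))
  rw [← h1, ← integral_const_mul]
  have e : ∀ t : Fin 1 → ℝ, g ((WithLp.toLp 2 t : EE 1) 0) * dens (WithLp.toLp 2 t : EE 1)
      = g (t default) * ((Real.sqrt (2 * π))⁻¹ * Real.exp (-(t default) ^ 2 / 2)) := by
    intro t
    simp [dens, EuclideanSpace.real_norm_sq_eq, Real.sqrt_eq_rpow]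
  simp only [e]
  refine h2.trans ?_
  congr 1; funext t; ring

lemma integral_Ioi_gauss (c : ℝ) :
    ∫ t in Ioi c, Real.exp (-t ^ 2 / 2)
      = Real.sqrt (2 * π) / 2 - ∫ t in (0 : ℝ)..c, Real.exp (-t ^ 2 / 2) := by
  have hi : Integrable fun t : ℝ => Real.exp (-t ^ 2 / 2) := by
    refine (integrable_exp_neg_mul_sq (b := 1 / 2) (by norm_num)).congr (ae_of_all _ fun t => ?_)
    simp only; ring_nf
  have h := intervalIntegral.integral_interval_add_Ioi
    (a := (0 : ℝ)) (b := c) hi.integrableOn hi.integrableOn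
  have h0 : ∫ t in Ioi (0 : ℝ), Real.exp (-t ^ 2 / 2) = Real.sqrt (2 * π) / 2 := by
    have := integral_gaussian_Ioi (1 / 2)
    rw [show π / (1 / 2) = 2 * π by ring] at this
    rw [← this]
    congr 1; funext t; ring_nf
  linarith

lemma integral_pos_part_gauss (c : ℝ) :
    ∫ t : ℝ, max (t - c) 0 * Real.exp (-t ^ 2 / 2)
      = Real.exp (-c ^ 2 / 2)
        - c * (Real.sqrt (2 * π) / 2 - ∫ t in (0 : ℝ)..c, Real.exp (-t ^ 2 / 2)) := by
  have hi1 : Integrable fun t : ℝ => t * Real.exp (-t ^ 2 / 2) := by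
    refine (integrable_mul_exp_neg_mul_sq (b := 1 / 2) (by norm_num)).congr
      (ae_of_all _ fun t => ?_)
    simp only; ring_nf
  have hi0 : Integrable fun t : ℝ => Real.exp (-t ^ 2 / 2) := by
    refine (integrable_exp_neg_mul_sq (b := 1 / 2) (by norm_num)).congr (ae_of_all _ fun t => ?_)
    simp only; ring_nf
  have hset : ∫ t : ℝ, max (t - c) 0 * Real.exp (-t ^ 2 / 2)
      = ∫ t in Ioi c, (t * Real.exp (-t ^ 2 / 2) - c * Real.exp (-t ^ 2 / 2)) := by
    rw [← integral_indicator measurableSet_Ioi]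
    congr 1; funext t
    by_cases ht : c < t
    · rw [indicator_of_mem (Set.mem_Ioi.2 ht), max_eq_left (by linarith)]; ring
    · rw [indicator_of_notMem (by simpa using ht), max_eq_right (by linarith [not_lt.1 ht]),
        zero_mul]
  have hd : ∀ t : ℝ, HasDerivAt (fun t => -Real.exp (-t ^ 2 / 2)) (t * Real.exp (-t ^ 2 / 2)) t := by
    intro t
    have h1 : HasDerivAt (fun t : ℝ => -t ^ 2 / 2) (-t) t := by
      have := ((hasDerivAt_pow 2 t).fun_neg).div_const 2
      refine this.congr_deriv ?_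
      push_cast; ring
    exact h1.exp.fun_neg.congr_deriv (by ring)
  have hlim : Tendsto (fun t : ℝ => -Real.exp (-t ^ 2 / 2)) atTop (𝓝 0) := by
    rw [show (0 : ℝ) = -0 by simp]
    refine (Real.tendsto_exp_atBot.comp ?_).neg
    have : Tendsto (fun t : ℝ => t ^ 2) atTop atTop := tendsto_pow_atTop (by norm_num)
    exact (tendsto_neg_atTop_atBot.comp
      (this.atTop_div_const (by norm_num : (0:ℝ) < 2))).congr fun t => by simp [neg_div]
  have hFTC := integral_Ioi_of_hasDerivAt_of_tendsto' (a := c) (fun t _ => hd t) hi1.integrableOn hlim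
  rw [hset, integral_sub hi1.integrableOn (hi0.const_mul c).integrableOn, hFTC, integral_const_mul,
    integral_Ioi_gauss]
  ring

/-- The expected positive part of a one-dimensional marginal minus a constant. -/
theorem integral_pos_part_line {r : ℕ} [NeZero r] (u : EE r) (hu : ‖u‖ = 1) (c : ℝ) :
    ∫ x : EE r, max (⟪u, x⟫ - c) 0 * dens x
      = (Real.sqrt (2 * π))⁻¹ * Real.exp (-c ^ 2 / 2)
        - c * (1 / 2 - (Real.sqrt (2 * π))⁻¹ * ∫ t in (0 : ℝ)..c, Real.exp (-t ^ 2 / 2)) := by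
  let L : EE 1 →ₗ[ℝ] EE r :=
    { toFun := fun y => y 0 • u
      map_add' := fun y z => by simp [add_smul]
      map_smul' := fun a y => by simp [smul_smul] }
  let ι : EE 1 →ₗᵢ[ℝ] EE r := ⟨L, fun y => by
    show ‖y 0 • u‖ = ‖y‖
    rw [norm_smul, hu, mul_one, EuclideanSpace.norm_eq]
    simp [Real.sqrt_sq_eq_abs]⟩
  have hι : ι (EuclideanSpace.single (0 : Fin 1) (1 : ℝ)) = u := by
    show (EuclideanSpace.single (0 : Fin 1) (1 : ℝ)) 0 • u = u
    simp
  have hadj : ∀ x : EE r,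
      (ContinuousLinearMap.adjoint ι.toContinuousLinearMap x) 0 = ⟪u, x⟫ := by
    intro x
    have h := ContinuousLinearMap.adjoint_inner_right ι.toContinuousLinearMap
      (EuclideanSpace.single (0 : Fin 1) (1 : ℝ)) x
    rw [EuclideanSpace.inner_single_left] at h
    simpa [hι] using h
  have h := integral_comp_isometry ι (fun y : EE 1 => max (y 0 - c) 0) (by fun_prop)
  simp only [hadj] at h
  rw [h, integral_EE_one (fun t => max (t - c) 0), integral_pos_part_gauss]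
  have hs : (0 : ℝ) < Real.sqrt (2 * π) := Real.sqrt_pos.2 (by positivity)
  field_simp

lemma integral_abs_inner {d : ℕ} (w : EE d) :
    ∫ x : EE d, |⟪w, x⟫| * dens x = Real.sqrt (2 / π) * ‖w‖ := by
  rcases eq_or_ne w 0 with rfl | hw
  · simp
  have hd : NeZero d := ⟨fun h => by subst h; exact hw (Subsingleton.elim _ _)⟩
  have hn : 0 < ‖w‖ := norm_pos_iff.2 hw
  set u := ‖w‖⁻¹ • w with hudef
  have hu : ‖u‖ = 1 := norm_smul_inv_norm hw
  have e : ∀ x : EE d, |⟪w, x⟫| * dens x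
      = 2 * ‖w‖ * (max (⟪u, x⟫ - 0) 0 * dens x) - ⟪w, x⟫ * dens x := by
    intro x
    have hwu : ⟪w, x⟫ = ‖w‖ * ⟪u, x⟫ := by
      rw [hudef, real_inner_smul_left]; field_simp
    rw [hwu, abs_mul, abs_of_pos hn, sub_zero]
    rcases le_total (⟪u, x⟫) 0 with h | h
    · rw [abs_of_nonpos h, max_eq_right h]; ring
    · rw [abs_of_nonneg h, max_eq_left h]; ring
  simp only [e]
  have hI : Integrable fun x : EE d => max (⟪u, x⟫ - 0) 0 * dens x :=
    (((GB.inner u).sub (GB.const 0)).max0).integrable' (by fun_prop)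
  rw [integral_sub (hI.const_mul _) ((GB.inner w).integrable' (by fun_prop)), integral_const_mul,
    integral_pos_part_line u hu 0, integral_inner_dens]
  simp only [ne_eq, OfNat.ofNat_ne_zero, not_false_eq_true, zero_pow, neg_zero, zero_div,
    Real.exp_zero, zero_mul, sub_zero, mul_one]
  rw [Real.sqrt_div' 2 pi_pos.le, Real.sqrt_mul (by norm_num) π]
  have h2 : Real.sqrt 2 * Real.sqrt 2 = 2 := Real.mul_self_sqrt (by norm_num)
  have hp : Real.sqrt π ≠ 0 := (Real.sqrt_pos.2 pi_pos).ne'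
  field_simp
  nlinarith [h2]

/-! ## Axially symmetric integrals -/

/-- The splitting `ℝ × EE n → EE (n+1)`. -/
noncomputable def consEquiv (n : ℕ) : ℝ × EE n ≃ᵐ EE (n + 1) :=
  ((MeasurableEquiv.refl ℝ).prodCongr (MeasurableEquiv.toLp 2 (Fin n → ℝ)).symm).trans
    ((MeasurableEquiv.piFinSuccAbove (fun _ => ℝ) 0).symm.trans
      (MeasurableEquiv.toLp 2 (Fin (n + 1) → ℝ)))

lemma consEquiv_preserving (n : ℕ) :
    MeasurePreserving (consEquiv n) volume (volume : Measure (EE (n + 1))) := by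
  refine ((MeasurePreserving.id (volume : Measure ℝ)).prod
    (PiLp.volume_preserving_ofLp (Fin n))).trans ?_
  refine ((volume_preserving_piFinSuccAbove (fun _ : Fin (n + 1) => ℝ) 0).symm _).trans ?_
  exact PiLp.volume_preserving_toLp (Fin (n + 1))

lemma consEquiv_zero {n : ℕ} (p : ℝ × EE n) : consEquiv n p 0 = p.1 := by
  simp [consEquiv, MeasurableEquiv.piFinSuccAbove, MeasurableEquiv.prodCongr]

lemma consEquiv_norm {n : ℕ} (p : ℝ × EE n) :
    ‖consEquiv n p‖ = Real.sqrt (p.1 ^ 2 + ‖p.2‖ ^ 2) := by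
  rw [← Real.sqrt_sq (norm_nonneg (consEquiv n p))]
  congr 1
  rw [EuclideanSpace.real_norm_sq_eq, EuclideanSpace.real_norm_sq_eq, Fin.sum_univ_succ]
  simp [consEquiv, MeasurableEquiv.piFinSuccAbove, MeasurableEquiv.prodCongr]

lemma plane_integral {m q : ℕ} (G : ℝ → ℝ → ℝ) (hG : Continuous fun p : ℝ × ℝ => G p.1 p.2)
    (hhom : ∀ R a b : ℝ, 0 < R → G (R * a) (R * b) = R ^ q * G a b) {C : ℝ} {N : ℕ} (hC : 0 ≤ C)
    (hb : ∀ a b : ℝ, 0 ≤ b → |G a b| ≤ C * ((1 + |a|) * (1 + b)) ^ N) :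
    ∫ a : ℝ, ∫ ρ in Ioi (0 : ℝ),
        ρ ^ m * (G a (Real.sqrt (a ^ 2 + ρ ^ 2)) * Real.exp (-(a ^ 2 + ρ ^ 2) / 2))
      = Jn (m + 1 + q) * ∫ t in Ioo (0 : ℝ) π, Real.sin t ^ m * G (Real.cos t) 1 := by
  set f : ℝ × ℝ → ℝ := fun p => if 0 < p.2 then
    p.2 ^ m * (G p.1 (Real.sqrt (p.1 ^ 2 + p.2 ^ 2)) * Real.exp (-(p.1 ^ 2 + p.2 ^ 2) / 2)) else 0
    with hf
  have hfm : Measurable f := by
    refine Measurable.ite (measurableSet_lt measurable_const measurable_snd) ?_ measurable_const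
    refine (Continuous.measurable ?_)
    have : Continuous fun p : ℝ × ℝ => G p.1 (Real.sqrt (p.1 ^ 2 + p.2 ^ 2)) :=
      hG.comp (f := fun p : ℝ × ℝ => (p.1, Real.sqrt (p.1 ^ 2 + p.2 ^ 2))) (by fun_prop)
    fun_prop
  obtain ⟨K, hK, hKb⟩ := pow_le_exp_sq (m + 2 * N) (b := 1 / 4) (by norm_num)
  have hfi : Integrable f := by
    have he : Integrable fun t : ℝ => Real.exp (-(1 / 4) * t ^ 2) :=
      integrable_exp_neg_mul_sq (by norm_num)
    refine ((he.mul_prod he).const_mul (C * (K * K))).mono' hfm.aestronglyMeasurable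
      (ae_of_all _ fun p => ?_)
    obtain ⟨a, b⟩ := p
    simp only [hf, Real.norm_eq_abs]
    split_ifs with hb0
    · set R := Real.sqrt (a ^ 2 + b ^ 2)
      have hR : R ≤ |a| + b := by
        rw [← Real.sqrt_sq (by positivity : 0 ≤ |a| + b)]
        refine Real.sqrt_le_sqrt ?_
        nlinarith [abs_nonneg a, sq_abs a]
      have h1 : (1 : ℝ) ≤ 1 + |a| := by linarith [abs_nonneg a]
      have h1b : (1 : ℝ) ≤ 1 + b := by linarith
      have hP : (1 + |a|) * (1 + R) ≤ (1 + |a|) ^ 2 * (1 + b) := by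
        have : 1 + R ≤ (1 + |a|) * (1 + b) := by nlinarith [abs_nonneg a]
        calc (1 + |a|) * (1 + R) ≤ (1 + |a|) * ((1 + |a|) * (1 + b)) :=
              mul_le_mul_of_nonneg_left this (by linarith)
          _ = _ := by ring
      have hG1 : |G a R| ≤ C * ((1 + |a|) ^ (2 * N) * (1 + b) ^ N) := by
        refine (hb a R (Real.sqrt_nonneg _)).trans (mul_le_mul_of_nonneg_left ?_ hC)
        rw [pow_mul, ← mul_pow]
        exact pow_le_pow_left₀ (by positivity) hP N
      have hA : (1 + |a|) ^ (2 * N) ≤ K * Real.exp (1 / 4 * a ^ 2) := by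
        refine (pow_le_pow_right₀ h1 (by omega : 2 * N ≤ m + 2 * N)).trans ?_
        simpa [sq_abs] using hKb |a| (abs_nonneg a)
      have hB : b ^ m * (1 + b) ^ N ≤ K * Real.exp (1 / 4 * b ^ 2) := by
        refine le_trans ?_ (hKb b hb0.le)
        rw [pow_add]
        exact mul_le_mul (pow_le_pow_left₀ hb0.le (by linarith) m)
          (pow_le_pow_right₀ h1b (by omega)) (by positivity) (by positivity)
      rw [abs_mul, abs_mul, abs_of_pos (pow_pos hb0 m), abs_of_pos (Real.exp_pos _)]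
      calc b ^ m * (|G a R| * Real.exp (-(a ^ 2 + b ^ 2) / 2))
          ≤ b ^ m * ((C * ((1 + |a|) ^ (2 * N) * (1 + b) ^ N)) *
              Real.exp (-(a ^ 2 + b ^ 2) / 2)) := by gcongr
        _ = C * ((1 + |a|) ^ (2 * N) * (b ^ m * (1 + b) ^ N)) *
              Real.exp (-(a ^ 2 + b ^ 2) / 2) := by ring
        _ ≤ C * ((K * Real.exp (1 / 4 * a ^ 2)) * (K * Real.exp (1 / 4 * b ^ 2))) *
              Real.exp (-(a ^ 2 + b ^ 2) / 2) := by gcongr
        _ = C * (K * K) * (Real.exp (1 / 4 * a ^ 2) * Real.exp (1 / 4 * b ^ 2) *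
              Real.exp (-(a ^ 2 + b ^ 2) / 2)) := by ring
        _ = _ := by rw [← Real.exp_add, ← Real.exp_add, ← Real.exp_add]; ring_nf
    · rw [abs_zero]; positivity
  have hlhs : ∫ a : ℝ, ∫ ρ in Ioi (0 : ℝ),
      ρ ^ m * (G a (Real.sqrt (a ^ 2 + ρ ^ 2)) * Real.exp (-(a ^ 2 + ρ ^ 2) / 2))
      = ∫ p, f p := by
    rw [Measure.volume_eq_prod, integral_prod _ hfi]
    congr 1; funext a
    rw [← integral_indicator measurableSet_Ioi]
    congr 1
  rw [hlhs, ← integral_comp_polarCoord_symm, polarCoord_target]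
  have hkey : ∀ p ∈ Ioi (0 : ℝ) ×ˢ Ioo (-π) π, p.1 • f (polarCoord.symm p)
      = p.1 ^ (m + 1 + q) * Real.exp (-p.1 ^ 2 / 2) *
        (Ioo (0 : ℝ) π).indicator (fun t => Real.sin t ^ m * G (Real.cos t) 1) p.2 := by
    rintro ⟨R, t⟩ ⟨hR, ht⟩
    simp only [mem_Ioi] at hR
    simp only [mem_Ioo] at ht
    simp only [polarCoord_symm_apply, hf, smul_eq_mul]
    have hsq : (R * Real.cos t) ^ 2 + (R * Real.sin t) ^ 2 = R ^ 2 := by
      rw [mul_pow, mul_pow, ← mul_add, Real.cos_sq_add_sin_sq, mul_one]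
    rw [hsq, Real.sqrt_sq hR.le]
    by_cases h0 : 0 < t
    · have hs := Real.sin_pos_of_pos_of_lt_pi h0 ht.2
      rw [if_pos (mul_pos hR hs), indicator_of_mem (show t ∈ Ioo (0 : ℝ) π from ⟨h0, ht.2⟩)]
      have := hhom R (Real.cos t) 1 hR
      rw [mul_one] at this
      rw [this, pow_add, pow_succ, mul_pow]
      ring
    · have hs := Real.sin_nonpos_of_nonpos_of_neg_pi_le (not_lt.1 h0) ht.1.le
      rw [if_neg (not_lt.2 (mul_nonpos_of_nonneg_of_nonpos hR.le hs)),
        indicator_of_notMem (fun h => h0 h.1)]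
      ring
  rw [setIntegral_congr_fun (measurableSet_Ioi.prod measurableSet_Ioo) hkey,
    Measure.volume_eq_prod,
    setIntegral_prod_mul (fun R : ℝ => R ^ (m + 1 + q) * Real.exp (-R ^ 2 / 2))
      ((Ioo (0 : ℝ) π).indicator fun t => Real.sin t ^ m * G (Real.cos t) 1),
    setIntegral_indicator measurableSet_Ioo]
  congr 1
  rw [inter_eq_right.2 (Ioo_subset_Ioo (by linarith [pi_pos]) le_rfl)]

lemma axial {m q : ℕ} (G : ℝ → ℝ → ℝ) (hG : Continuous fun p : ℝ × ℝ => G p.1 p.2)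
    (hhom : ∀ R a b : ℝ, 0 < R → G (R * a) (R * b) = R ^ q * G a b) {C : ℝ} {N : ℕ} (hC : 0 ≤ C)
    (hb : ∀ a b : ℝ, 0 ≤ b → |G a b| ≤ C * ((1 + |a|) * (1 + b)) ^ N) :
    ∫ x : EE (m + 2), G (x 0) ‖x‖ * dens x
      = ((2 * π) ^ (((m + 2 : ℕ) : ℝ) / 2))⁻¹ *
        ((((m + 1 : ℕ) : ℝ) * (volume : Measure (EE (m + 1))).real (Metric.ball 0 1)) *
          (Jn (m + 1 + q) * ∫ t in Ioo (0 : ℝ) π, Real.sin t ^ m * G (Real.cos t) 1)) := by
  set c := ((2 * π) ^ (((m + 2 : ℕ) : ℝ) / 2))⁻¹ with hc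
  have hcont : Continuous fun x : EE (m + 2) => G (x 0) ‖x‖ :=
    hG.comp ((by fun_prop : Continuous fun x : EE (m + 2) => x 0).prodMk continuous_norm)
  have hgb : GB fun x : EE (m + 2) => G (x 0) ‖x‖ := by
    refine ⟨C, 2 * N, hC, fun x => (hb _ _ (norm_nonneg x)).trans
      (mul_le_mul_of_nonneg_left ?_ hC)⟩
    rw [pow_mul, pow_two]
    refine pow_le_pow_left₀ (by positivity) (mul_le_mul_of_nonneg_right ?_ (by positivity)) N
    have := PiLp.norm_apply_le x (0 : Fin (m + 2))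
    rw [Real.norm_eq_abs] at this
    linarith
  have hint := hgb.integrable hcont.aestronglyMeasurable
  have hmp := consEquiv_preserving (m + 1)
  have hint2 := (hmp.integrable_comp_emb (consEquiv (m + 1)).measurableEmbedding).2 hint
  rw [← hmp.integral_comp (consEquiv (m + 1)).measurableEmbedding]
  rw [Measure.volume_eq_prod] at hint2 ⊢
  simp only [Function.comp_def] at hint2
  rw [integral_prod _ hint2]
  have hin : ∀ a : ℝ, ∫ y : EE (m + 1),
      G (consEquiv (m + 1) (a, y) 0) ‖consEquiv (m + 1) (a, y)‖ * dens (consEquiv (m + 1) (a, y))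
      = c * ((((m + 1 : ℕ) : ℝ) * (volume : Measure (EE (m + 1))).real (Metric.ball 0 1)) *
          ∫ ρ in Ioi (0 : ℝ),
            ρ ^ m * (G a (Real.sqrt (a ^ 2 + ρ ^ 2)) * Real.exp (-(a ^ 2 + ρ ^ 2) / 2))) := by
    intro a
    simp only [consEquiv_zero, consEquiv_norm, dens, Real.sq_sqrt (add_nonneg (sq_nonneg a) (sq_nonneg _))]
    have e : ∀ y : EE (m + 1), G a (Real.sqrt (a ^ 2 + ‖y‖ ^ 2)) *
        (((2 * π) ^ (((m + 1 + 1 : ℕ) : ℝ) / 2))⁻¹ * Real.exp (-(a ^ 2 + ‖y‖ ^ 2) / 2))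
        = c * (G a (Real.sqrt (a ^ 2 + ‖y‖ ^ 2)) * Real.exp (-(a ^ 2 + ‖y‖ ^ 2) / 2)) := by
      intro y; rw [hc]; ring
    simp only [e]
    rw [integral_const_mul, integral_fun_norm_addHaar (volume : Measure (EE (m + 1)))
      (fun ρ => G a (Real.sqrt (a ^ 2 + ρ ^ 2)) * Real.exp (-(a ^ 2 + ρ ^ 2) / 2))]
    simp [mul_assoc]
  simp only [hin, integral_const_mul, plane_integral G hG hhom hC hb]

/-- The cap function in polar form. -/
theorem Hc_eq_theta (r : ℕ) [NeZero r] (hr : 2 ≤ r) (θ : ℝ) (hθ : θ ∈ Set.Icc 0 π) :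
    Hc r (Real.cos θ) = Er r *
      (∫ t in (0 : ℝ)..θ, (Real.cos t - Real.cos θ) * Real.sin t ^ (r - 2)) /
      (∫ t in (0 : ℝ)..π, Real.sin t ^ (r - 2)) := by
  obtain ⟨m, rfl⟩ : ∃ m, r = m + 2 := ⟨r - 2, by omega⟩
  simp only [Nat.add_sub_cancel]
  set c := Real.cos θ with hc
  have hc1 : |c| ≤ 1 := Real.abs_cos_le_one θ
  have h1 := axial (m := m) (q := 1) (fun a R => max (a - c * R) 0) (by fun_prop)
    (fun R a b hR => by
      show max (R * a - c * (R * b)) 0 = R ^ 1 * max (a - c * b) 0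
      rw [pow_one, mul_max_of_nonneg _ _ hR.le, mul_zero]; congr 1; ring)
    (C := 1) (N := 1) zero_le_one
    (fun a b hb => by
      rw [abs_of_nonneg (le_max_right _ _), one_mul, pow_one]
      have h2 : |c * b| ≤ b := by
        rw [abs_mul, abs_of_nonneg hb]; exact mul_le_of_le_one_left hb hc1
      refine max_le ?_ (by positivity)
      nlinarith [abs_le.1 h2, le_abs_self a, mul_nonneg (abs_nonneg a) hb])
  have h0 := axial (m := m) (q := 0) (fun _ _ => (1 : ℝ)) continuous_const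
    (fun R a b _ => by simp) (C := 1) (N := 0) zero_le_one (fun a b _ => by simp)
  beta_reduce at h0 h1
  simp only [one_mul, mul_one, integral_dens] at h0
  set k := ((2 * π) ^ (((m + 2 : ℕ) : ℝ) / 2))⁻¹
  set V := ((m + 1 : ℕ) : ℝ) * (volume : Measure (EE (m + 1))).real (Metric.ball 0 1)
  have eI : ∀ f : ℝ → ℝ, ∫ t in Ioo (0 : ℝ) π, f t = ∫ t in (0 : ℝ)..π, f t := fun f => by
    rw [intervalIntegral.integral_of_le pi_pos.le, integral_Ioc_eq_integral_Ioo]
  have eH : ∫ t in (0 : ℝ)..π, Real.sin t ^ m * max (Real.cos t - c * 1) 0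
      = ∫ t in (0 : ℝ)..θ, (Real.cos t - c) * Real.sin t ^ m := by
    have hcont : Continuous fun t : ℝ => Real.sin t ^ m * max (Real.cos t - c * 1) 0 := by fun_prop
    rw [← intervalIntegral.integral_add_adjacent_intervals (b := θ) (hcont.intervalIntegrable _ _)
      (hcont.intervalIntegrable _ _)]
    have z : ∫ t in θ..π, Real.sin t ^ m * max (Real.cos t - c * 1) 0 = 0 := by
      rw [intervalIntegral.integral_congr (g := fun _ => (0 : ℝ))]
      · simp
      intro t ht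
      rw [Set.uIcc_of_le hθ.2] at ht
      have := Real.cos_le_cos_of_nonneg_of_le_pi hθ.1 ht.2 ht.1
      show Real.sin t ^ m * max (Real.cos t - c * 1) 0 = 0
      rw [max_eq_right (by linarith), mul_zero]
    rw [z, add_zero]
    refine intervalIntegral.integral_congr fun t ht => ?_
    rw [Set.uIcc_of_le hθ.1] at ht
    have := Real.cos_le_cos_of_nonneg_of_le_pi ht.1 hθ.2 ht.2
    show Real.sin t ^ m * max (Real.cos t - c * 1) 0 = (Real.cos t - c) * Real.sin t ^ m
    rw [max_eq_left (by linarith), mul_one, mul_comm]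
  rw [eI, eH] at h1
  rw [eI, add_zero] at h0
  unfold Hc
  rw [h1]
  set I0 := ∫ t in (0 : ℝ)..π, Real.sin t ^ m
  set I1 := ∫ t in (0 : ℝ)..θ, (Real.cos t - c) * Real.sin t ^ m
  have hJ := (Jn_pos (m + 1)).ne'
  have hI0 : I0 ≠ 0 := fun h => by rw [h] at h0; simp at h0
  rw [Er, show m + 2 - 1 = m + 1 from rfl]
  field_simp
  linear_combination (-Jn (m + 1 + 1) * I1) * h0

end Vale.Agent.P226
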