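import Vale.Agent.P226.Quad
import Vale.Agent.P226.Lines
import Vale.Agent.P226.K4geo

/-!
# The data of a maximiser with four cells in space
-/

open MeasureTheory Real Set
open scoped RealInnerProductSpace

namespace Vale.Agent.P226

lemma er_three : Er 3 = Real.sqrt (8 / π) := by
  rw [Er, show Jn 3 = (1 + 1) * Jn 1 by rw [Jn_succ_succ 1]; norm_num,
    show Jn (3 - 1) = (0 + 1) * Jn 0 by rw [show (3 : ℕ) - 1 = 0 + 2 by rfl, Jn_succ_succ 0]; norm_num,
    Jn_one, Jn_zero, show (8 : ℝ) / π = (2 / Real.sqrt (π / 2)) ^ 2 by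
      rw [div_pow, Real.sq_sqrt (by positivity)]; field_simp; norm_num,
    Real.sqrt_sq (by positivity)]
  norm_num

lemma hc_three {c : ℝ} (h1 : -1 ≤ c) (h2 : c ≤ 1) : Hc 3 c = Er 3 * (1 - c) ^ 2 / 4 := by
  set θ := Real.arccos c with hθdef
  have hθ : Real.cos θ = c := Real.cos_arccos h1 h2
  have key := Hc_eq_theta 3 (by norm_num) θ ⟨Real.arccos_nonneg c, Real.arccos_le_pi c⟩
  simp only [Nat.reduceSub, pow_one, hθ] at key
  have hd : ∀ t ∈ Set.uIcc (0 : ℝ) θ,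
      HasDerivAt (fun t => Real.sin t ^ 2 / 2 + c * Real.cos t)
        ((Real.cos t - c) * Real.sin t) t := fun t _ => by
    refine ((((Real.hasDerivAt_sin t).fun_pow 2).div_const 2).fun_add
      ((Real.hasDerivAt_cos t).const_mul c)).congr_deriv ?_
    push_cast; ring
  have e1 : ∫ t in (0 : ℝ)..θ, (Real.cos t - c) * Real.sin t = (1 - c) ^ 2 / 2 := by
    rw [intervalIntegral.integral_eq_sub_of_hasDerivAt hd
      (Continuous.intervalIntegrable (by fun_prop) _ _), hθ, Real.sin_zero, Real.cos_zero,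
      Real.sin_sq, hθ]
    ring
  have e2 : ∫ t in (0 : ℝ)..π, Real.sin t = 2 := by rw [integral_sin]; simp; norm_num
  rw [key, e1, e2]; ring

lemma rho_comm (e : Fin 3 → EE 3) (i j : Fin 3) : rho e i j = rho e j i := by
  simp only [rho, real_inner_comm (e j) (e i), mul_comm ‖e i‖]

namespace Simp

lemma cap_four (P : Simp 4 3) (m : Fin 4) :
    ‖P.v m‖ ≤ Real.sqrt (8 / π) * pm (P.cell m) * (1 - pm (P.cell m)) := by
  set p := pm (P.cell m) with hp
  have h0 : 0 ≤ p := pm_nonneg _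
  have h1 : p ≤ 1 := by
    have := P.sum_pm
    rw [← this]
    exact Finset.single_le_sum (f := fun i => pm (P.cell i)) (fun i _ => pm_nonneg _)
      (Finset.mem_univ m)
  have h := cap_bound (P.measurableSet_cell m) (P.isCone_cell m) (P.v m) (1 - 2 * p)
  rw [P.nsq_eq_moment, hc_three (by linarith) (by linarith), ← hp, er_three] at h
  refine le_of_mul_le_mul_left ?_ (P.norm_pos m)
  linarith

/-- The face identity and the measure identity for one cell. -/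
lemma four_cell (P : Simp 4 3) (m : Fin 4) (f : Fin 3 → Fin 4) (e : Fin 3 → EE 3)
    (he : ∀ i, e i = P.e m (f i)) (hf : Function.Injective f) (hne : ∀ i, f i ≠ m)
    (hall : ∀ l, l ≠ m → ∃ i, f i = l) :
    LinearIndependent ℝ e ∧
    pm (P.cell m) = 1 / 8 + (Real.arcsin (rho e 0 1) + Real.arcsin (rho e 0 2)
      + Real.arcsin (rho e 1 2)) / (4 * π) ∧
    ∀ i j l : Fin 3, i ≠ j → i ≠ l → j ≠ l →
      π * Real.sqrt (2 * π) / 2 * ‖e i‖ = Real.arccos (-(rho e j l - rho e i j * rho e i l) /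
        Real.sqrt ((1 - (rho e i j) ^ 2) * (1 - (rho e i l) ^ 2))) := by
  have hinj : Function.Injective fun i : Fin 3 => (⟨f i, hne i⟩ : {l : Fin 4 // l ≠ m}) :=
    fun i i' h => hf (congrArg Subtype.val h)
  have hli : LinearIndependent ℝ e := by
    have h := (P.linearIndependent_sub m).comp _ hinj
    have e1 : e = fun i => P.v m - P.v (f i) := funext fun i => he i
    rw [e1]
    exact h
  have hcell : P.cell m = {x : EE 3 | ∀ i, 0 ≤ ⟪e i, x⟫} := by
    ext x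
    rw [P.mem_cell, Set.mem_ofPred_eq]
    refine ⟨fun h i => ?_, fun h l => ?_⟩
    · rw [he]; exact h _
    · rcases eq_or_ne l m with hl | hl
      · rw [hl, P.e_self, inner_zero_left]
      · obtain ⟨i, hi⟩ := hall l hl
        rw [← hi, ← he]; exact h i
  refine ⟨hli, by rw [hcell]; exact trihedral_pm e hli, fun i j l hij hil hjl => ?_⟩
  have hpair : ∀ t : Fin 3, ⟪e t, P.G m (f i)⟫ = if i = t then 1 else 0 := by
    intro t
    rw [he, P.inner_e_G]
    by_cases h : i = t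
    · subst h; rw [if_pos ⟨rfl, hne i⟩, if_pos rfl]
    · rw [if_neg (fun hh => h (hf hh.1)), if_neg h]
  have h := trihedral_face e hli (P.G m (f i)) i j l hij hil hjl
    (by rw [hpair, if_neg hij]) (by rw [hpair, if_neg hil]) (by rw [hpair, if_pos rfl])
  rw [← hcell, P.moment, P.inner_G_vm (hne i)] at h
  have hn : 0 < ‖e i‖ := norm_pos_iff.2 (hli.ne_zero i)
  rw [eq_div_iff (by positivity)] at h
  rw [← h]; push_cast; ring

/-- Everything used about a tetrahedral maximiser. -/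
lemma four_data (P : Simp 4 3) :
    ∃ (n p : Fin 4 → ℝ) (D : Fin 3 → ℝ) (a b c : ℝ),
      (∀ i, 0 ≤ n i) ∧ (∀ i, 0 ≤ p i) ∧ ∑ i, p i = 1 ∧
      (∀ i, n i ≤ Real.sqrt (8 / π) * p i * (1 - p i)) ∧
      9 / (8 * π) < ∑ i, (n i) ^ 2 ∧ (∀ i, p 0 ≤ p i) ∧
      (∀ j : Fin 3, (n 0) ^ 2 + (n j.succ) ^ 2 < D j) ∧
      ∑ j, D j = 4 * (n 0) ^ 2 + ∑ i, (n i) ^ 2 ∧
      |a| < 1 ∧ |b| < 1 ∧ |c| < 1 ∧
      0 < 1 - a ^ 2 - b ^ 2 - c ^ 2 + 2 * a * b * c ∧
      π * Real.sqrt (2 * π) / 2 * Real.sqrt (D 0)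
        = Real.arccos (-(c - a * b) / Real.sqrt ((1 - a ^ 2) * (1 - b ^ 2))) ∧
      π * Real.sqrt (2 * π) / 2 * Real.sqrt (D 1)
        = Real.arccos (-(b - a * c) / Real.sqrt ((1 - a ^ 2) * (1 - c ^ 2))) ∧
      π * Real.sqrt (2 * π) / 2 * Real.sqrt (D 2)
        = Real.arccos (-(a - b * c) / Real.sqrt ((1 - b ^ 2) * (1 - c ^ 2))) ∧
      p 0 = 1 / 8 + (Real.arcsin a + Real.arcsin b + Real.arcsin c) / (4 * π) := by
  obtain ⟨m, -, hm⟩ := Finset.exists_min_image Finset.univ (fun i => pm (P.cell i))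
    Finset.univ_nonempty
  obtain ⟨σ, hσ0⟩ : ∃ σ : Equiv.Perm (Fin 4), σ 0 = m :=
    ⟨Equiv.swap 0 m, Equiv.swap_apply_left 0 m⟩
  have hne : ∀ j : Fin 3, σ j.succ ≠ m := fun j h => by
    rw [← hσ0] at h; exact Fin.succ_ne_zero j (σ.injective h)
  have hall : ∀ l, l ≠ m → ∃ j : Fin 3, σ j.succ = l := by
    intro l hl
    obtain ⟨l', rfl⟩ := σ.surjective l
    rcases Fin.eq_zero_or_eq_succ l' with h | ⟨j, h⟩
    · exact absurd (by rw [h, hσ0]) hl
    · exact ⟨j, by rw [h]⟩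
  obtain ⟨e, he⟩ : ∃ e : Fin 3 → EE 3, ∀ j, e j = P.e m (σ j.succ) := ⟨_, fun _ => rfl⟩
  obtain ⟨hli, hpm, hface⟩ := P.four_cell m (fun j => σ j.succ) e he
    (fun i j h => Fin.succ_injective _ (σ.injective h)) hne hall
  have hD : ∀ j : Fin 3, ‖e j‖ ^ 2 = ‖P.v m‖ ^ 2 - 2 * ⟪P.v m, P.v (σ j.succ)⟫
      + ‖P.v (σ j.succ)‖ ^ 2 := fun j => by rw [he]; exact norm_sub_sq_real _ _
  have hsq : ∀ i, Real.sqrt (‖e i‖ ^ 2) = ‖e i‖ := fun i => Real.sqrt_sq (norm_nonneg _)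
  have hsum : ∑ j, ‖e j‖ ^ 2 = 4 * ‖P.v m‖ ^ 2 + ∑ i, ‖P.v (σ i)‖ ^ 2 := by
    have h1 : ∑ i : Fin 4, ⟪P.v m, P.v (σ i)⟫ = 0 := by
      rw [← inner_sum, Equiv.sum_comp σ P.v, P.sum_v, inner_zero_right]
    rw [Fin.sum_univ_succ, hσ0, real_inner_self_eq_norm_sq] at h1
    rw [Fin.sum_univ_succ (fun i : Fin 4 => ‖P.v (σ i)‖ ^ 2), hσ0]
    simp only [hD, Finset.sum_add_distrib, Finset.sum_sub_distrib, ← Finset.mul_sum,
      Finset.sum_const, Finset.card_univ, Fintype.card_fin, nsmul_eq_mul]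
    push_cast
    linarith
  refine ⟨fun i => ‖P.v (σ i)‖, fun i => pm (P.cell (σ i)), fun j => ‖e j‖ ^ 2,
    rho e 0 1, rho e 0 2, rho e 1 2, fun i => norm_nonneg _, fun i => pm_nonneg _, ?_,
    fun i => P.cap_four _, ?_, ?_, ?_, ?_, abs_rho_lt_one hli (by decide),
    abs_rho_lt_one hli (by decide), abs_rho_lt_one hli (by decide), gram_pos hli, ?_, ?_, ?_, ?_⟩
  all_goals try beta_reduce
  · rw [Equiv.sum_comp σ (fun i => pm (P.cell i))]
    exact P.sum_pm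
  · rw [Equiv.sum_comp σ (fun i => ‖P.v i‖ ^ 2)]
    exact P.big
  · intro i
    rw [hσ0]
    exact hm _ (Finset.mem_univ _)
  · intro j
    rw [hσ0, hD]
    linarith [P.obtuse m (σ j.succ) (hne j).symm]
  · rw [hσ0]
    exact hsum
  · rw [hsq]
    exact hface 0 1 2 (by decide) (by decide) (by decide)
  · rw [hsq, hface 1 0 2 (by decide) (by decide) (by decide), rho_comm e 1 0]
  · rw [hsq, hface 2 0 1 (by decide) (by decide) (by decide), rho_comm e 2 0, rho_comm e 2 1]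
  · rw [hσ0]
    exact hpm

end Simp
end Vale.Agent.P226
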