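import Vale.Agent.P226.Lines

/-!
# At most three vectors
-/

open MeasureTheory Real Set
open scoped RealInnerProductSpace

namespace Vale.Agent.P226

variable {d : ℕ}

lemma fmax_one (v : Fin 1 → EE d) : fmax v = 0 := by
  have e : ∀ x, maxv v x = ⟪v 0, x⟫ := fun x => by
    refine le_antisymm (maxv_le _ _ fun i => ?_) (le_maxv v 0 x)
    rw [Subsingleton.elim i 0]
  simp only [fmax, e, integral_inner_dens]

lemma integral_maxv_neg {k : ℕ} [NeZero k] (v : Fin k → EE d) :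
    ∫ x, maxv v (-x) * dens x = fmax v := by
  have h := integral_neg_eq_self (fun x => maxv v x * dens x) (volume : Measure (EE d))
  simp only [dens_neg] at h
  exact h

lemma maxv_two (v : Fin 2 → EE d) (x : EE d) :
    maxv v x + maxv v (-x) = |⟪v 0 - v 1, x⟫| := by
  have key : ∀ y : EE d, maxv v y = max ⟪v 0, y⟫ ⟪v 1, y⟫ := fun y => by
    refine le_antisymm (maxv_le _ _ fun i => ?_) (max_le (le_maxv v 0 y) (le_maxv v 1 y))
    fin_cases i <;> simp
  rw [key, key, inner_neg_right, inner_neg_right, inner_sub_left]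
  rcases le_total ⟪v 0, x⟫ ⟪v 1, x⟫ with h | h
  · rw [max_eq_right h, max_eq_left (neg_le_neg h), abs_of_nonpos (by linarith)]; ring
  · rw [max_eq_left h, max_eq_right (neg_le_neg h), abs_of_nonneg (by linarith)]; ring

lemma maxv_three (v : Fin 3 → EE d) (x : EE d) :
    maxv v x + maxv v (-x)
      = (|⟪v 0 - v 1, x⟫| + |⟪v 0 - v 2, x⟫| + |⟪v 1 - v 2, x⟫|) / 2 := by
  have key : ∀ y : EE d, maxv v y = max (max ⟪v 0, y⟫ ⟪v 1, y⟫) ⟪v 2, y⟫ := fun y => by
    refine le_antisymm (maxv_le _ _ fun i => ?_)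
      (max_le (max_le (le_maxv v 0 y) (le_maxv v 1 y)) (le_maxv v 2 y))
    fin_cases i <;> simp
  rw [key, key, inner_neg_right, inner_neg_right, inner_neg_right, inner_sub_left, inner_sub_left,
    inner_sub_left]
  generalize ⟪v 0, x⟫ = a
  generalize ⟪v 1, x⟫ = b
  generalize ⟪v 2, x⟫ = c
  simp only [abs_eq_max_neg, max_def]
  split_ifs <;> linarith

/-- The bound for at most three vectors. -/
theorem boundAt_small (d : ℕ) : BoundAt 1 d ∧ BoundAt 2 d ∧ BoundAt 3 d := by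
  have hπ := pi_pos
  have habs : ∀ w : EE d, Integrable fun x : EE d => |⟪w, x⟫| * dens x := fun w =>
    ((GB.inner w).mono fun x => by simp).integrable' (by fun_prop)
  have hneg : ∀ {k : ℕ} [NeZero k] (v : Fin k → EE d),
      Integrable fun x : EE d => maxv v (-x) * dens x := fun v => by
    have := (integrable_maxv v).comp_neg
    simpa [dens_neg] using this
  have hsq : Real.sqrt (2 / π) ^ 2 = 2 / π := Real.sq_sqrt (by positivity)
  refine ⟨fun v => ?_, fun v => ?_, fun v => ?_⟩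
  · rw [fmax_one]
    have : 0 ≤ ssq v := Finset.sum_nonneg fun i _ => sq_nonneg _
    have := mul_nonneg Tc_pos.le this
    simpa using this
  · have h : 2 * fmax v = Real.sqrt (2 / π) * ‖v 0 - v 1‖ := by
      rw [← integral_abs_inner, two_mul]
      conv_lhs => arg 2; rw [← integral_maxv_neg v]
      rw [fmax, ← integral_add (integrable_maxv v) (hneg v)]
      congr 1; funext x
      rw [← maxv_two]; ring
    have hs : ssq v = ‖v 0‖ ^ 2 + ‖v 1‖ ^ 2 := by simp [ssq, Fin.sum_univ_two]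
    have hL : ‖v 0 - v 1‖ ^ 2 ≤ 2 * (‖v 0‖ ^ 2 + ‖v 1‖ ^ 2) := by
      have := parallelogram_law_with_norm ℝ (v 0) (v 1)
      nlinarith [sq_nonneg ‖v 0 + v 1‖]
    have h2 : 4 * fmax v ^ 2 = 2 / π * ‖v 0 - v 1‖ ^ 2 := by
      rw [show 4 * fmax v ^ 2 = (2 * fmax v) ^ 2 by ring, h, mul_pow, hsq]
    have h3 : fmax v ^ 2 ≤ 1 / π * ssq v := by
      rw [hs]
      have := mul_le_mul_of_nonneg_left hL (by positivity : (0 : ℝ) ≤ 2 / π)
      linarith [mul_comm (1 / π) (‖v 0‖ ^ 2 + ‖v 1‖ ^ 2),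
        show 2 / π * (2 * (‖v 0‖ ^ 2 + ‖v 1‖ ^ 2)) = 4 * (1 / π * (‖v 0‖ ^ 2 + ‖v 1‖ ^ 2)) by ring]
    refine h3.trans (mul_le_mul_of_nonneg_right ?_ (Finset.sum_nonneg fun i _ => sq_nonneg _))
    rw [Tc, div_le_div_iff₀ hπ (by positivity)]
    linarith
  · have h : 4 * fmax v
        = Real.sqrt (2 / π) * (‖v 0 - v 1‖ + ‖v 0 - v 2‖ + ‖v 1 - v 2‖) := by
      rw [mul_add, mul_add, ← integral_abs_inner, ← integral_abs_inner, ← integral_abs_inner,
        show 4 * fmax v = 2 * (fmax v + fmax v) by ring]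
      conv_lhs => arg 2; arg 2; rw [← integral_maxv_neg v]
      rw [fmax, ← integral_add (integrable_maxv v) (hneg v), ← integral_const_mul,
        ← integral_add (habs _) (habs _),
        ← integral_add ((habs _).fun_add (habs _)) (habs _)]
      congr 1; funext x
      rw [← add_mul, maxv_three]; ring
    have hs : ssq v = ‖v 0‖ ^ 2 + ‖v 1‖ ^ 2 + ‖v 2‖ ^ 2 := by simp [ssq, Fin.sum_univ_three]
    have hid : ‖v 0 - v 1‖ ^ 2 + ‖v 0 - v 2‖ ^ 2 + ‖v 1 - v 2‖ ^ 2 + ‖v 0 + v 1 + v 2‖ ^ 2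
        = 3 * ssq v := by
      rw [hs, norm_sub_sq_real, norm_sub_sq_real, norm_sub_sq_real, norm_add_sq_real,
        norm_add_sq_real, inner_add_left]
      ring
    set a := ‖v 0 - v 1‖
    set b := ‖v 0 - v 2‖
    set c := ‖v 1 - v 2‖
    have h2 : 16 * fmax v ^ 2 = 2 / π * (a + b + c) ^ 2 := by
      rw [show 16 * fmax v ^ 2 = (4 * fmax v) ^ 2 by ring, h, mul_pow, hsq]
    have hCS : (a + b + c) ^ 2 ≤ 9 * ssq v := by
      nlinarith [sq_nonneg (a - b), sq_nonneg (a - c), sq_nonneg (b - c),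
        sq_nonneg ‖v 0 + v 1 + v 2‖]
    have h3 := mul_le_mul_of_nonneg_left hCS (by positivity : (0 : ℝ) ≤ 2 / π)
    have e : 2 / π * (9 * ssq v) = 16 * (Tc * ssq v) := by rw [Tc]; field_simp; ring
    linarith

end Vale.Agent.P226
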