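import Mathlib

/-!
# P226: the numerical lemma that excludes a small cell for four partition sets

Scaled variables: `u i = π/8 * n i ^ 2 ≤ p i ^ 2 (1 - p i) ^ 2`, `e j = π/8 * D j`, so the
three angles are `2 π √(e j)` and everything else is rational.
-/

open Real

namespace Vale.Agent.P226

namespace K4

/-- the capacity `x^2 (1-x)^2` -/
def capF (x : ℝ) : ℝ := x ^ 2 * (1 - x) ^ 2

/-- slope of `capF` at `q` -/
def lineA (q : ℝ) : ℝ := 2 * q * (1 - q) * (1 - 2 * q)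

/-- intercept of the tangent of `capF` at `q` -/
def lineB (q : ℝ) : ℝ := capF q - q * lineA q

/-- Taylor polynomial above `cos √z` -/
noncomputable def cosUp (z : ℝ) : ℝ :=
  1 - z / 2 + z ^ 2 / 24 - z ^ 3 / 720 + z ^ 4 / 40320

/-- Taylor polynomial below `cos √z` -/
noncomputable def cosDn (z : ℝ) : ℝ := 1 - z / 2 + z ^ 2 / 24 - z ^ 3 / 720

lemma nonneg_of_deriv {g g' : ℝ → ℝ} (h : ∀ x, HasDerivAt g (g' x) x) (h' : ∀ x, 0 ≤ x → 0 ≤ g' x)
    (h0 : g 0 = 0) {x : ℝ} (hx : 0 ≤ x) : 0 ≤ g x := by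
  have hm : MonotoneOn g (Set.Ici (0 : ℝ)) :=
    monotoneOn_of_hasDerivWithinAt_nonneg (convex_Ici 0)
      (fun y _ => (h y).continuousAt.continuousWithinAt)
      (fun y _ => (h y).hasDerivWithinAt)
      fun y hy => h' y (by rw [interior_Ici] at hy; exact le_of_lt hy)
  have := hm Set.self_mem_Ici hx hx
  rwa [h0] at this

lemma cos_taylor {x : ℝ} (hx : 0 ≤ x) : cosDn (x ^ 2) ≤ cos x ∧ cos x ≤ cosUp (x ^ 2) := by
  have s3 : ∀ y, 0 ≤ y → 0 ≤ sin y - y + y ^ 3 / 6 := fun y hy => by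
    refine nonneg_of_deriv (g := fun t => sin t - t + t ^ 3 / 6)
      (g' := fun t => cos t - 1 + t ^ 2 / 2)
      (fun t => (((hasDerivAt_sin t).sub (hasDerivAt_id t)).add
        ((hasDerivAt_pow 3 t).div_const 6)).congr_deriv (by push_cast; ring))
      (fun t _ => ?_) (by simp) hy
    linarith [one_sub_sq_div_two_le_cos (x := t)]
  have c4 : ∀ y, 0 ≤ y → 0 ≤ 1 - y ^ 2 / 2 + y ^ 4 / 24 - cos y := fun y hy => by
    refine nonneg_of_deriv (g := fun t => 1 - t ^ 2 / 2 + t ^ 4 / 24 - cos t)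
      (g' := fun t => sin t - t + t ^ 3 / 6)
      (fun t => (((hasDerivAt_const t (1 : ℝ)).sub ((hasDerivAt_pow 2 t).div_const 2)).add
        ((hasDerivAt_pow 4 t).div_const 24)).sub (hasDerivAt_cos t) |>.congr_deriv (by push_cast; ring))
      s3 (by simp) hy
  have s5 : ∀ y, 0 ≤ y → 0 ≤ y - y ^ 3 / 6 + y ^ 5 / 120 - sin y := fun y hy => by
    refine nonneg_of_deriv (g := fun t => t - t ^ 3 / 6 + t ^ 5 / 120 - sin t)
      (g' := fun t => 1 - t ^ 2 / 2 + t ^ 4 / 24 - cos t)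
      (fun t => (((hasDerivAt_id t).sub ((hasDerivAt_pow 3 t).div_const 6)).add
        ((hasDerivAt_pow 5 t).div_const 120)).sub (hasDerivAt_sin t) |>.congr_deriv (by push_cast; ring))
      c4 (by simp) hy
  have c6 : ∀ y, 0 ≤ y → 0 ≤ cos y - (1 - y ^ 2 / 2 + y ^ 4 / 24 - y ^ 6 / 720) := fun y hy => by
    refine nonneg_of_deriv (g := fun t => cos t - (1 - t ^ 2 / 2 + t ^ 4 / 24 - t ^ 6 / 720))
      (g' := fun t => t - t ^ 3 / 6 + t ^ 5 / 120 - sin t)
      (fun t => (hasDerivAt_cos t).sub ((((hasDerivAt_const t (1 : ℝ)).sub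
        ((hasDerivAt_pow 2 t).div_const 2)).add ((hasDerivAt_pow 4 t).div_const 24)).sub
          ((hasDerivAt_pow 6 t).div_const 720)) |>.congr_deriv (by push_cast; ring))
      s5 (by simp) hy
  have s7 : ∀ y, 0 ≤ y → 0 ≤ sin y - (y - y ^ 3 / 6 + y ^ 5 / 120 - y ^ 7 / 5040) := fun y hy => by
    refine nonneg_of_deriv (g := fun t => sin t - (t - t ^ 3 / 6 + t ^ 5 / 120 - t ^ 7 / 5040))
      (g' := fun t => cos t - (1 - t ^ 2 / 2 + t ^ 4 / 24 - t ^ 6 / 720))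
      (fun t => (hasDerivAt_sin t).sub ((((hasDerivAt_id t).sub
        ((hasDerivAt_pow 3 t).div_const 6)).add ((hasDerivAt_pow 5 t).div_const 120)).sub
          ((hasDerivAt_pow 7 t).div_const 5040)) |>.congr_deriv (by push_cast; ring))
      c6 (by simp) hy
  have c8 : ∀ y, 0 ≤ y →
      0 ≤ 1 - y ^ 2 / 2 + y ^ 4 / 24 - y ^ 6 / 720 + y ^ 8 / 40320 - cos y := fun y hy => by
    refine nonneg_of_deriv
      (g := fun t => 1 - t ^ 2 / 2 + t ^ 4 / 24 - t ^ 6 / 720 + t ^ 8 / 40320 - cos t)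
      (g' := fun t => sin t - (t - t ^ 3 / 6 + t ^ 5 / 120 - t ^ 7 / 5040))
      (fun t => ((((((hasDerivAt_const t (1 : ℝ)).sub ((hasDerivAt_pow 2 t).div_const 2)).add
        ((hasDerivAt_pow 4 t).div_const 24)).sub ((hasDerivAt_pow 6 t).div_const 720)).add
          ((hasDerivAt_pow 8 t).div_const 40320)).sub (hasDerivAt_cos t)).congr_deriv
            (by push_cast; ring))
      s7 (by simp) hy
  constructor
  · have := c6 x hx
    simp only [cosDn]; ring_nf at this ⊢; linarith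
  · have := c8 x hx
    simp only [cosUp]; ring_nf at this ⊢; linarith

lemma cosDn_anti {y z : ℝ} (h : y ≤ z) : cosDn z ≤ cosDn y := by
  have e : cosDn y - cosDn z = (z - y) * (1 / 2 - (z + y) / 24 + (z ^ 2 + z * y + y ^ 2) / 720) := by
    simp only [cosDn]; ring
  have h2 : 0 ≤ 1 / 2 - (z + y) / 24 + (z ^ 2 + z * y + y ^ 2) / 720 := by
    nlinarith [sq_nonneg (z + y - 20), sq_nonneg (z - y)]
  nlinarith [mul_nonneg (sub_nonneg.2 h) h2]

/-- convexity of `cosUp` between two points -/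
lemma cosUp_chord {z1 z2 z a b : ℝ} (h1 : z1 ≤ z) (h2 : z ≤ z2)
    (e1 : cosUp z1 ≤ a - b * z1) (e2 : cosUp z2 ≤ a - b * z2) : cosUp z ≤ a - b * z := by
  rcases eq_or_lt_of_le (h1.trans h2) with h | h
  · rw [show z = z1 by linarith]; exact e1
  set H := 1 / 24 - (z + z1 + z2) / 720
      + (z ^ 2 + z1 ^ 2 + z2 ^ 2 + z * z1 + z * z2 + z1 * z2) / 40320 with hH
  have hH0 : 0 ≤ H := by
    rw [hH]
    nlinarith [sq_nonneg (z + z1 + z2 - 42), sq_nonneg (z - z1), sq_nonneg (z - z2),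
      sq_nonneg (z1 - z2)]
  have e : (z2 - z1) * cosUp z = (z2 - z) * cosUp z1 + (z - z1) * cosUp z2
      - (z - z1) * (z2 - z) * (z2 - z1) * H := by
    simp only [cosUp, hH]; ring
  have h3 := mul_nonneg (mul_nonneg (mul_nonneg (sub_nonneg.2 h1) (sub_nonneg.2 h2))
    (sub_nonneg.2 h.le)) hH0
  nlinarith [mul_le_mul_of_nonneg_left e1 (sub_nonneg.2 h2),
    mul_le_mul_of_nonneg_left e2 (sub_nonneg.2 h1)]

lemma capF_line {q r x : ℝ} (hq0 : 0 ≤ q) (hq : q ≤ 2 / 3) (hrx : r ≤ x) (hx : x ≤ 1)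
    (hr : r ^ 2 - (2 - 2 * q) * r + (1 - q) * (1 - 3 * q) ≤ 0) :
    capF x ≤ lineA q * x + lineB q := by
  have hquad : x ^ 2 - (2 - 2 * q) * x + (1 - q) * (1 - 3 * q) ≤ 0 := by
    rcases eq_or_lt_of_le (hrx.trans hx) with h | h
    · rw [show x = r by linarith]; exact hr
    · have e : (1 - r) * (x ^ 2 - (2 - 2 * q) * x + (1 - q) * (1 - 3 * q))
          = (1 - x) * (r ^ 2 - (2 - 2 * q) * r + (1 - q) * (1 - 3 * q))
            + (x - r) * (q * (3 * q - 2)) - (x - r) * (1 - x) * (1 - r) := by ring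
      nlinarith [mul_nonneg (mul_nonneg (sub_nonneg.2 hrx) (sub_nonneg.2 hx)) (sub_nonneg.2 h.le),
        mul_nonpos_iff.2 (Or.inl ⟨sub_nonneg.2 hx, hr⟩),
        mul_nonneg (sub_nonneg.2 hrx) (mul_nonneg hq0 (by linarith : (0 : ℝ) ≤ 2 - 3 * q))]
  have e : capF x - (lineA q * x + lineB q)
      = (x - q) ^ 2 * (x ^ 2 - (2 - 2 * q) * x + (1 - q) * (1 - 3 * q)) := by
    simp only [capF, lineA, lineB]; ring
  nlinarith [mul_nonneg (sq_nonneg (x - q)) (neg_nonneg.2 hquad)]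

lemma capF_nonneg (x : ℝ) : 0 ≤ capF x := by unfold capF; positivity

lemma capF_le_sixteenth {x : ℝ} (h0 : 0 ≤ x) (h1 : x ≤ 1) : capF x ≤ 1 / 16 := by
  have h : x * (1 - x) ≤ 1 / 4 := by nlinarith [sq_nonneg (x - 1 / 2)]
  have h' : 0 ≤ x * (1 - x) := mul_nonneg h0 (by linarith)
  calc capF x = (x * (1 - x)) ^ 2 := by simp only [capF]; ring
    _ ≤ (1 / 4) ^ 2 := pow_le_pow_left₀ h' h 2
    _ = 1 / 16 := by norm_num

lemma capF_mono {x y : ℝ} (h0 : 0 ≤ x) (hxy : x ≤ y) (hy : y ≤ 1 / 2) : capF x ≤ capF y := by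
  have h : x * (1 - x) ≤ y * (1 - y) := by
    nlinarith [mul_nonneg (sub_nonneg.2 hxy) (by linarith : (0 : ℝ) ≤ 1 - x - y)]
  calc capF x = (x * (1 - x)) ^ 2 := by simp only [capF]; ring
    _ ≤ (y * (1 - y)) ^ 2 := pow_le_pow_left₀ (mul_nonneg h0 (by linarith)) h 2
    _ = capF y := by simp only [capF]; ring

lemma capF_lt {x y : ℝ} (h0 : 0 ≤ x) (hxy : x < y) (hy : y ≤ 1 / 2) : capF x < capF y := by
  have h : x * (1 - x) < y * (1 - y) := by
    nlinarith [mul_pos (sub_pos.2 hxy) (by linarith : (0 : ℝ) < 1 - x - y)]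
  calc capF x = (x * (1 - x)) ^ 2 := by simp only [capF]; ring
    _ < (y * (1 - y)) ^ 2 := pow_lt_pow_left₀ h (mul_nonneg h0 (by linarith)) two_ne_zero
    _ = capF y := by simp only [capF]; ring

/-- convexity of `capF` on `[0, 1/10]` -/
lemma capF_chord {x1 x2 x α G : ℝ} (h0 : 0 ≤ x1) (h1 : x1 ≤ x) (h2 : x ≤ x2) (h3 : x2 ≤ 1 / 10)
    (e1 : capF x1 - α * x1 ≤ G) (e2 : capF x2 - α * x2 ≤ G) : capF x - α * x ≤ G := by
  rcases eq_or_lt_of_le (h1.trans h2) with h | h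
  · rw [show x = x1 by linarith]; exact e1
  set H := 1 - 2 * (x + x1 + x2) + (x ^ 2 + x1 ^ 2 + x2 ^ 2 + x * x1 + x * x2 + x1 * x2) with hH
  have hH0 : 0 ≤ H := by
    rw [hH]
    nlinarith [sq_nonneg x, sq_nonneg x1, sq_nonneg x2, mul_nonneg h0 (h0.trans h1),
      mul_nonneg h0 (h0.trans (h1.trans h2)), mul_nonneg (h0.trans h1) (h0.trans (h1.trans h2))]
  have e : (x2 - x1) * capF x = (x2 - x) * capF x1 + (x - x1) * capF x2
      - (x - x1) * (x2 - x) * (x2 - x1) * H := by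
    simp only [capF, hH]; ring
  have h4 := mul_nonneg (mul_nonneg (mul_nonneg (sub_nonneg.2 h1) (sub_nonneg.2 h2))
    (sub_nonneg.2 h.le)) hH0
  nlinarith [mul_le_mul_of_nonneg_left e1 (sub_nonneg.2 h2),
    mul_le_mul_of_nonneg_left e2 (sub_nonneg.2 h1)]

/-- `capF x / x` increases up to `1/3` -/
lemma capF_ray {x y : ℝ} (h0 : 0 ≤ x) (hxy : x ≤ y) (hy : y ≤ 1 / 3) :
    y * capF x ≤ x * capF y := by
  have e : x * capF y - y * capF x = x * y * ((y - x) * (1 - 2 * (x + y) + (x ^ 2 + x * y + y ^ 2))) := by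
    simp only [capF]; ring
  have h : 0 ≤ 1 - 2 * (x + y) + (x ^ 2 + x * y + y ^ 2) := by
    nlinarith [mul_nonneg (by linarith : (0 : ℝ) ≤ 1 / 3 - x) (by linarith : (0 : ℝ) ≤ 1 / 3 - y),
      mul_nonneg (by linarith : (0 : ℝ) ≤ 1 / 3 - x) (by linarith : (0 : ℝ) ≤ 1 / 3 - x),
      mul_nonneg (by linarith : (0 : ℝ) ≤ 1 / 3 - y) (by linarith : (0 : ℝ) ≤ 1 / 3 - y)]
  nlinarith [mul_nonneg (mul_nonneg h0 (h0.trans hxy)) (mul_nonneg (sub_nonneg.2 hxy) h)]

lemma trig_identity {a b c A B C : ℝ} (hA : A ^ 2 = 1 - a ^ 2) (hB : B ^ 2 = 1 - b ^ 2)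
    (hC : C ^ 2 = 1 - c ^ 2) (hA0 : A ≠ 0) (hB0 : B ≠ 0) (hC0 : C ≠ 0) :
    (1 + (b * c - a) / (B * C) + (a * c - b) / (A * C) + (a * b - c) / (A * B)) ^ 2
      = (1 - (a * B * C + b * A * C + c * A * B - a * b * c)) *
        ((1 + (b * c - a) / (B * C)) * (1 + (a * c - b) / (A * C)) * (1 + (a * b - c) / (A * B))) := by
  field_simp
  grobner

lemma cos_le_chord {e L U a b : ℝ} (hL0 : 0 ≤ L) (hLe : L ≤ e) (heU : e ≤ U)
    (hθ : 2 * π * sqrt e ≤ π) (h1 : cosUp (39478 / 1000 * L) ≤ a - b * L)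
    (h2 : cosUp (39478 / 1000 * U) ≤ a - b * U) : cos (2 * π * sqrt e) ≤ a - b * e := by
  have he : 0 ≤ e := hL0.trans hLe
  have hpi : 3.141592 < π := Real.pi_gt_d6
  have hsq : (2 * π * sqrt e) ^ 2 = 4 * π ^ 2 * e := by rw [mul_pow, mul_pow, sq_sqrt he]; ring
  have k1 : sqrt (39478 / 1000 * e) ≤ 2 * π * sqrt e := by
    rw [← sqrt_sq (show 0 ≤ 2 * π * sqrt e by positivity), hsq]
    refine sqrt_le_sqrt (mul_le_mul_of_nonneg_right ?_ he)
    nlinarith
  have k2 := cos_le_cos_of_nonneg_of_le_pi (sqrt_nonneg _) hθ k1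
  have k3 := (cos_taylor (sqrt_nonneg (39478 / 1000 * e))).2
  rw [sq_sqrt (by positivity)] at k3
  have k4 := cosUp_chord (a := a) (b := b * 1000 / 39478) (z1 := 39478 / 1000 * L)
    (z2 := 39478 / 1000 * U) (z := 39478 / 1000 * e) (by linarith) (by linarith)
    (by linarith) (by linarith)
  linarith

lemma le_cos_cut {e U : ℝ} (he : 0 ≤ e) (heU : e ≤ U) :
    cosDn (394785 / 10000 * U) ≤ cos (2 * π * sqrt e) := by
  have hpi : π < 3.141593 := Real.pi_lt_d6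
  have hsq : (2 * π * sqrt e) ^ 2 = 4 * π ^ 2 * e := by rw [mul_pow, mul_pow, sq_sqrt he]; ring
  have k3 := (cos_taylor (show 0 ≤ 2 * π * sqrt e by positivity)).1
  rw [hsq] at k3
  refine le_trans (cosDn_anti ?_) k3
  calc 4 * π ^ 2 * e ≤ 394785 / 10000 * e :=
        mul_le_mul_of_nonneg_right (by nlinarith [Real.pi_pos]) he
    _ ≤ _ := by linarith

lemma le_cos_E {pp pb : ℝ} (h0 : 0 ≤ pp) (hp : pp ≤ pb) :
    cosDn ((125664 / 10000 * pb) ^ 2) ≤ cos (4 * π * pp) := by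
  have h1 : 0 ≤ 4 * π * pp := mul_nonneg (by positivity) h0
  have h2 : 4 * π * pp ≤ 125664 / 10000 * pb :=
    mul_le_mul (by linarith [Real.pi_lt_d6]) hp h0 (by norm_num)
  exact (cosDn_anti (pow_le_pow_left₀ h1 h2 2)).trans (cos_taylor h1).1

/-- the quadratic endgame -/
lemma endgame {y0 y1 y2 c R m M S : ℝ} (hR : 0 ≤ R) (hRm : R * m ≤ 2) (hm : 0 < m) (hc : R ≤ c)
    (l0 : m ≤ y0) (l1 : m ≤ y1) (l2 : m ≤ y2) (u0 : y0 ≤ M) (u1 : y1 ≤ M) (u2 : y2 ≤ M)
    (hS : y0 + y1 + y2 ≤ S) (hid : (y0 + y1 + y2 - 2) ^ 2 = c * (y0 * y1 * y2))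
    (hQ1 : (3 * m - 2) ^ 2
      - R * (m * ((3 * m) ^ 2 - ((m + M) * (3 * m) - 3 * m * M)) / 2 - m ^ 2 * (3 * m) + m ^ 3) < 0)
    (hQ2 : (S - 2) ^ 2 - R * (m * (S ^ 2 - ((m + M) * S - 3 * m * M)) / 2 - m ^ 2 * S + m ^ 3) < 0) :
    False := by
  set s := y0 + y1 + y2 with hs
  have hprod : m * (s ^ 2 - ((m + M) * s - 3 * m * M)) / 2 - m ^ 2 * s + m ^ 3 ≤ y0 * y1 * y2 := by
    have e : y0 * y1 * y2 - (m * (s ^ 2 - ((m + M) * s - 3 * m * M)) / 2 - m ^ 2 * s + m ^ 3)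
        = (y0 - m) * (y1 - m) * (y2 - m)
          + m / 2 * ((y0 - m) * (M - y0) + (y1 - m) * (M - y1) + (y2 - m) * (M - y2)) := by
      rw [hs]; ring
    have h1 := mul_nonneg (mul_nonneg (sub_nonneg.2 l0) (sub_nonneg.2 l1)) (sub_nonneg.2 l2)
    have h2 := mul_nonneg (half_pos hm).le (add_nonneg (add_nonneg
      (mul_nonneg (sub_nonneg.2 l0) (sub_nonneg.2 u0)) (mul_nonneg (sub_nonneg.2 l1) (sub_nonneg.2 u1)))
      (mul_nonneg (sub_nonneg.2 l2) (sub_nonneg.2 u2)))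
    linarith
  have hy0 : 0 ≤ y0 * y1 * y2 :=
    mul_nonneg (mul_nonneg (by linarith) (by linarith)) (by linarith)
  have hmain : R * (m * (s ^ 2 - ((m + M) * s - 3 * m * M)) / 2 - m ^ 2 * s + m ^ 3)
      ≤ (s - 2) ^ 2 :=
    (mul_le_mul_of_nonneg_left hprod hR).trans ((mul_le_mul_of_nonneg_right hc hy0).trans hid.ge)
  have hs1 : 3 * m ≤ s := by rw [hs]; linarith
  rcases eq_or_lt_of_le (hs1.trans hS) with h | h
  · rw [show s = 3 * m by linarith] at hmain; linarith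
  rcases eq_or_lt_of_le hS with h5 | h5
  · rw [h5] at hmain; linarith
  have hc2 : 0 ≤ (1 - R * m / 2) * ((s - 3 * m) * (S - s) * (S - 3 * m)) :=
    mul_nonneg (by linarith) (mul_nonneg (mul_nonneg (by linarith) (by linarith)) (by linarith))
  have hcomb : (S - 3 * m) * ((s - 2) ^ 2
        - R * (m * (s ^ 2 - ((m + M) * s - 3 * m * M)) / 2 - m ^ 2 * s + m ^ 3))
      = (S - s) * ((3 * m - 2) ^ 2
          - R * (m * ((3 * m) ^ 2 - ((m + M) * (3 * m) - 3 * m * M)) / 2 - m ^ 2 * (3 * m) + m ^ 3))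
        + (s - 3 * m) * ((S - 2) ^ 2
          - R * (m * (S ^ 2 - ((m + M) * S - 3 * m * M)) / 2 - m ^ 2 * S + m ^ 3))
        - (1 - R * m / 2) * ((s - 3 * m) * (S - s) * (S - 3 * m)) := by ring
  have h6 := mul_pos (sub_pos.2 h5) (neg_pos.2 hQ1)
  have h7 := mul_nonneg (sub_nonneg.2 hs1) (neg_pos.2 hQ2).le
  have h8 := mul_nonneg (sub_nonneg.2 h.le) (sub_nonneg.2 hmain)
  linarith

/-- lower bound for the other cells -/
lemma other_low {α β G Lo uj pj : ℝ} (hα : 0 ≤ α) (hLo : 0 < Lo) (hLo3 : Lo ≤ 1 / 3)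
    (hpj : 0 ≤ pj) (hu : uj ≤ capF pj) (hK : G + α + 2 * β ≤ 9 / 64)
    (hK2 : capF Lo - α * Lo + G + α + 2 * β ≤ 9 / 64) (h : uj ≤ capF Lo) :
    uj - α * pj + (G + α + 2 * β) ≤ 9 / 64 := by
  rcases le_total Lo pj with hl | hl
  · nlinarith [mul_le_mul_of_nonneg_left hl hα]
  · have hray := capF_ray hpj hl hLo3
    refine le_of_mul_le_mul_left ?_ hLo
    nlinarith [mul_le_mul_of_nonneg_left hu hLo.le, mul_le_mul_of_nonneg_left hK2 hpj,
      mul_le_mul_of_nonneg_left hK (sub_nonneg.2 hl)]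

/-- one range `[Xa, Xb]` for the scaled value of the small cell -/
lemma interval_false {u p : Fin 4 → ℝ} {e x : Fin 3 → ℝ} {cE : ℝ}
    (hcap : ∀ i, u i ≤ capF (p i)) (hp : ∀ i, 0 ≤ p i) (hsum : ∑ i, p i = 1)
    (hF : 9 / 64 < ∑ i, u i) (hsmall : ∀ j : Fin 3, 1 / 20 ≤ p j.succ)
    (he : ∀ j, u 0 + u j.succ < e j) (hesum : ∑ j, e j = 4 * u 0 + ∑ i, u i)
    (hx : ∀ j, x j = cos (2 * π * sqrt (e j))) (hθ : ∀ j, 2 * π * sqrt (e j) ≤ π)
    (hcE : cE = cos (4 * π * p 0))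
    (hid : (1 + x 0 + x 1 + x 2) ^ 2 = (1 + cE) * ((1 + x 0) * (1 + x 1) * (1 + x 2)))
    {Xa Xb : ℝ} (hXa : Xa ≤ u 0) (hXb : u 0 ≤ Xb)
    {pa pb qP qL G Lo L U a b m R : ℝ}
    (hqP : 0 ≤ qP ∧ qP ≤ 1 / 2 ∧
      (1 / 20) ^ 2 - (2 - 2 * qP) * (1 / 20) + (1 - qP) * (1 - 3 * qP) ≤ 0)
    (hqL : 1 / 3 ≤ qL ∧ qL ≤ 1 / 2)
    (hpab : 0 ≤ pa ∧ pb ≤ 1 / 10 ∧ capF pa ≤ Xa ∧ pa ≤ 1 / 2)
    (hpb : Xb + lineA qP + 3 * lineB qP - 9 / 64 ≤ lineA qP * pb ∧ 0 < lineA qP)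
    (hG : capF pa - lineA qL * pa ≤ G ∧ capF pb - lineA qL * pb ≤ G)
    (hLo : 0 < Lo ∧ Lo ≤ 1 / 3 ∧ G + lineA qL + 2 * lineB qL ≤ 9 / 64 ∧
      capF Lo - lineA qL * Lo + G + lineA qL + 2 * lineB qL ≤ 9 / 64)
    (hLU : 0 ≤ L ∧ L ≤ Xa + capF Lo ∧ 3 * Xb + 1 / 16 ≤ U)
    (hchord : cosUp (39478 / 1000 * L) ≤ a - b * L ∧ cosUp (39478 / 1000 * U) ≤ a - b * U ∧ 0 ≤ b)
    (hm : 0 < m ∧ m ≤ 1 + cosDn (394785 / 10000 * U))
    (hR : 0 ≤ R ∧ R ≤ 1 + cosDn ((125664 / 10000 * pb) ^ 2) ∧ R * m ≤ 2)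
    (hQ : (fun s M : ℝ => (s - 2) ^ 2 - R * (m * (s ^ 2 - ((m + M) * s - 3 * m * M)) / 2
        - m ^ 2 * s + m ^ 3)) (3 * m) (1 + (a - b * L)) < 0 ∧
      (fun s M : ℝ => (s - 2) ^ 2 - R * (m * (s ^ 2 - ((m + M) * s - 3 * m * M)) / 2
        - m ^ 2 * s + m ^ 3)) (3 + 3 * a - b * (4 * Xa + 9 / 64)) (1 + (a - b * L)) < 0) :
    False := by
  have p1 : ∀ i, p i ≤ 1 := fun i =>
    (Finset.single_le_sum (fun i _ => hp i) (Finset.mem_univ i)).trans_eq hsum
  simp only [Fin.sum_univ_four, Fin.sum_univ_three] at hsum hF hesum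
  have lineP : ∀ j : Fin 3, u j.succ ≤ lineA qP * p j.succ + lineB qP := fun j =>
    (hcap _).trans (capF_line hqP.1 (by linarith only [hqP.2.1]) (hsmall j) (p1 _) hqP.2.2)
  have lineL : ∀ i, u i ≤ lineA qL * p i + lineB qL := fun i =>
    (hcap _).trans (capF_line (r := 0) (by linarith only [hqL.1]) (by linarith only [hqL.2]) (hp i) (p1 i)
      (by nlinarith only [hqL.1, hqL.2]))
  have hP1 := lineP 0
  have hP2 := lineP 1
  have hP3 := lineP 2
  simp only [show (0 : Fin 3).succ = (1 : Fin 4) from rfl, show (1 : Fin 3).succ = (2 : Fin 4) from rfl,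
    show (2 : Fin 3).succ = (3 : Fin 4) from rfl] at hP1 hP2 hP3
  have hp0b : p 0 ≤ pb := by
    refine le_of_mul_le_mul_left ?_ hpb.2
    have e : lineA qP * p 0 + lineA qP * p 1 + lineA qP * p 2 + lineA qP * p 3 = lineA qP := by
      rw [← mul_add, ← mul_add, ← mul_add, hsum, mul_one]
    linarith only [hpb.1, hP1, hP2, hP3, hXb, hF, e]
  have hp0a : pa ≤ p 0 := by
    by_contra h
    push Not at h
    linarith only [capF_lt (y := pa) (hp 0) h hpab.2.2.2, hcap 0, hpab.2.2.1, hXa]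
  have hg : u 0 - lineA qL * p 0 ≤ G := by
    linarith only [capF_chord hpab.1 hp0a hp0b hpab.2.1 hG.1 hG.2, hcap 0]
  have hαL : 0 ≤ lineA qL := by
    unfold lineA
    exact mul_nonneg (mul_nonneg (by linarith only [hqL.1]) (by linarith only [hqL.2]))
      (by linarith only [hqL.2])
  have hlow : ∀ j : Fin 3, capF Lo < u j.succ := by
    intro j
    by_contra h
    push Not at h
    have hcase := other_low hαL hLo.1 hLo.2.1 (hp j.succ) (hcap j.succ) hLo.2.2.1 hLo.2.2.2 h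
    have l1 := lineL 1
    have l2 := lineL 2
    have l3 := lineL 3
    have e : lineA qL * p 0 + lineA qL * p 1 + lineA qL * p 2 + lineA qL * p 3 = lineA qL := by
      rw [← mul_add, ← mul_add, ← mul_add, hsum, mul_one]
    rcases (show j = 0 ∨ j = 1 ∨ j = 2 by omega) with rfl | rfl | rfl
    all_goals simp only [show (0 : Fin 3).succ = (1 : Fin 4) from rfl,
      show (1 : Fin 3).succ = (2 : Fin 4) from rfl, show (2 : Fin 3).succ = (3 : Fin 4) from rfl] at hcase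
    all_goals linarith only [hcase, l1, l2, l3, e, hg, hF]
  have hu16 : ∀ i, u i ≤ 1 / 16 := fun i => (hcap i).trans (capF_le_sixteenth (hp i) (p1 i))
  have he1 := he 0
  have he2 := he 1
  have he3 := he 2
  simp only [show (0 : Fin 3).succ = (1 : Fin 4) from rfl, show (1 : Fin 3).succ = (2 : Fin 4) from rfl,
    show (2 : Fin 3).succ = (3 : Fin 4) from rfl] at he1 he2 he3
  have heU : ∀ j, e j ≤ U := by
    intro j
    rcases (show j = 0 ∨ j = 1 ∨ j = 2 by omega) with rfl | rfl | rfl <;>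
      linarith only [hu16 1, hu16 2, hu16 3, hLU.2.2, he1, he2, he3, hesum, hXb]
  have heL : ∀ j, L ≤ e j := fun j => by linarith only [hlow j, he j, hLU.2.1, hXa]
  have hxup : ∀ j, x j ≤ a - b * e j := fun j => by
    rw [hx]; exact cos_le_chord hLU.1 (heL j) (heU j) (hθ j) hchord.1 hchord.2.1
  have hxlo : ∀ j, m ≤ 1 + x j := fun j => by
    rw [hx]; linarith only [le_cos_cut (hLU.1.trans (heL j)) (heU j), hm.2]
  have hcEb : R ≤ 1 + cE := by
    rw [hcE]; linarith only [le_cos_E (hp 0) hp0b, hR.2.1]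
  have hyM : ∀ j, 1 + x j ≤ 1 + (a - b * L) := fun j => by
    linarith only [hxup j, mul_le_mul_of_nonneg_left (heL j) hchord.2.2]
  have hb2 : b * (4 * Xa + 9 / 64) ≤ b * (e 0 + e 1 + e 2) :=
    mul_le_mul_of_nonneg_left (by linarith only [hesum, hXa, hF]) hchord.2.2
  exact endgame hR.1 hR.2.2 hm.1 hcEb (hxlo 0) (hxlo 1) (hxlo 2) (hyM 0) (hyM 1) (hyM 2)
    (S := 3 + 3 * a - b * (4 * Xa + 9 / 64)) (by linarith only [hxup 0, hxup 1, hxup 2, hb2])
    (by linear_combination hid) hQ.1 hQ.2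

/-- the scaled statement -/
theorem scaled_false {u p : Fin 4 → ℝ} {e x : Fin 3 → ℝ} {cE : ℝ}
    (hu : ∀ i, 0 ≤ u i) (hcap : ∀ i, u i ≤ capF (p i)) (hp : ∀ i, 0 ≤ p i) (hsum : ∑ i, p i = 1)
    (hF : 9 / 64 < ∑ i, u i) (hmin : ∀ i, p 0 ≤ p i)
    (he : ∀ j, u 0 + u j.succ < e j) (hesum : ∑ j, e j = 4 * u 0 + ∑ i, u i)
    (hx : ∀ j, x j = cos (2 * π * sqrt (e j))) (hθ : ∀ j, 2 * π * sqrt (e j) ≤ π)
    (hcE : cE = cos (4 * π * p 0))
    (hid : (1 + x 0 + x 1 + x 2) ^ 2 = (1 + cE) * ((1 + x 0) * (1 + x 1) * (1 + x 2))) :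
    False := by
  have hs := hsum
  simp only [Fin.sum_univ_four] at hs
  have hF4 := hF
  simp only [Fin.sum_univ_four] at hF4
  have p1 : ∀ i, p i ≤ 1 := fun i =>
    (Finset.single_le_sum (fun i _ => hp i) (Finset.mem_univ i)).trans_eq hsum
  rcases le_or_gt (14 / 100) (p 0) with hbig | hbig
  · have hl : ∀ i, u i ≤ lineA (1 / 4) * p i + lineB (1 / 4) := fun i =>
      (hcap i).trans (capF_line (r := 14 / 100) (by norm_num) (by norm_num) (hbig.trans (hmin i))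
        (p1 i) (by norm_num))
    have := hl 0; have := hl 1; have := hl 2; have := hl 3
    norm_num [lineA, lineB, capF] at *
    linarith
  rcases le_or_gt (1 / 10) (p 0) with hmid | hmid
  · have hl : ∀ i, u i ≤ lineA (3 / 10) * p i + lineB (3 / 10) := fun i =>
      (hcap i).trans (capF_line (r := 1 / 10) (by norm_num) (by norm_num) (hmid.trans (hmin i))
        (p1 i) (by norm_num))
    have h1 := hl 1; have h2 := hl 2; have h3 := hl 3
    have h0 := hcap 0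
    norm_num [lineA, lineB, capF] at h0 h1 h2 h3
    nlinarith [mul_nonneg (sub_nonneg.2 hmid) (sub_nonneg.2 hbig.le),
      mul_nonneg (mul_nonneg (sub_nonneg.2 hmid) (sub_nonneg.2 hbig.le))
        (by linarith : (0 : ℝ) ≤ 14 / 100 - p 0)]
  have hu16 : ∀ i, u i ≤ 1 / 16 := fun i => (hcap i).trans (capF_le_sixteenth (hp i) (p1 i))
  have h10 : u 0 ≤ capF (1 / 10) := (hcap 0).trans (capF_mono (hp 0) hmid.le (by norm_num))
  have hsmall : ∀ j : Fin 3, 1 / 20 ≤ p j.succ := by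
    intro j
    by_contra h
    push Not at h
    have h' := (hcap j.succ).trans (capF_mono (hp _) h.le (by norm_num))
    have := hu16 1; have := hu16 2; have := hu16 3
    rcases (show j = 0 ∨ j = 1 ∨ j = 2 by omega) with rfl | rfl | rfl
    all_goals simp only [show (0 : Fin 3).succ = (1 : Fin 4) from rfl,
      show (1 : Fin 3).succ = (2 : Fin 4) from rfl, show (2 : Fin 3).succ = (3 : Fin 4) from rfl] at h'
    all_goals norm_num [capF] at h' h10
    all_goals linarith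
  have hp93 : p 0 < 93 / 1000 := by
    by_contra h
    push Not at h
    have hl : ∀ j : Fin 3, u j.succ ≤ lineA (302 / 1000) * p j.succ + lineB (302 / 1000) := fun j =>
      (hcap _).trans (capF_line (by norm_num) (by norm_num) (hsmall j) (p1 _) (by norm_num))
    have h1 := hl 0; have h2 := hl 1; have h3 := hl 2
    have h0 := capF_chord (α := lineA (302 / 1000))
      (G := 9 / 64 - lineA (302 / 1000) - 3 * lineB (302 / 1000)) (by norm_num) h hmid.le le_rfl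
      (by norm_num [lineA, lineB, capF]) (by norm_num [lineA, lineB, capF])
    have e : lineA (302 / 1000) * p 0 + lineA (302 / 1000) * p 1 + lineA (302 / 1000) * p 2
        + lineA (302 / 1000) * p 3 = lineA (302 / 1000) := by
      rw [← mul_add, ← mul_add, ← mul_add, hs, mul_one]
    simp only [show (0 : Fin 3).succ = (1 : Fin 4) from rfl, show (1 : Fin 3).succ = (2 : Fin 4) from rfl,
      show (2 : Fin 3).succ = (3 : Fin 4) from rfl] at h1 h2 h3
    linarith [hcap 0]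
  have hX : u 0 ≤ 71152 / 10000000 :=
    ((hcap 0).trans (capF_mono (hp 0) hp93.le (by norm_num))).trans (by norm_num [capF])
  rcases le_total (u 0) (21 / 10000) with c | c
  · exact interval_false hcap hp hsum hF hsmall he hesum hx hθ hcE hid (hu 0) c
      (pa := 0) (pb := 311 / 5000) (qP := 157 / 500) (qL := 199 / 500) (G := 0) (Lo := 99 / 500)
      (L := 63 / 2500) (U := 43 / 625) (a := 4503 / 5000) (b := 14211 / 1000) (m := 4607 / 5000)
      (R := 17097 / 10000)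
      (by norm_num) (by norm_num) (by norm_num [capF]) (by norm_num [lineA, lineB, capF])
      (by norm_num [lineA, capF]) (by norm_num [lineA, lineB, capF]) (by norm_num [capF])
      (by norm_num [cosUp]) (by norm_num [cosDn]) (by norm_num [cosDn]) (by norm_num)
  rcases le_total (u 0) (39 / 10000) with c' | c'
  · exact interval_false hcap hp hsum hF hsmall he hesum hx hθ hcE hid c c'
      (pa := 481 / 10000) (pb := 733 / 10000) (qP := 31 / 100) (qL := 7 / 20)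
      (G := max (capF (481 / 10000) - lineA (7 / 20) * (481 / 10000))
        (capF (733 / 10000) - lineA (7 / 20) * (733 / 10000))) (Lo := 121 / 500)
      (L := 357 / 10000) (U := 371 / 5000) (a := 4257 / 5000) (b := 13363 / 1000) (m := 8579 / 10000)
      (R := 16049 / 10000)
      (by norm_num) (by norm_num) (by norm_num [capF]) (by norm_num [lineA, lineB, capF])
      ⟨le_max_left _ _, le_max_right _ _⟩ (by norm_num [lineA, lineB, capF]) (by norm_num [capF])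
      (by norm_num [cosUp]) (by norm_num [cosDn]) (by norm_num [cosDn]) (by norm_num)
  rcases le_total (u 0) (53 / 10000) with d | d
  · exact interval_false hcap hp hsum hF hsmall he hesum hx hθ hcE hid c' d
      (pa := 669 / 10000) (pb := 819 / 10000) (qP := 307 / 1000) (qL := 171 / 500)
      (G := max (capF (669 / 10000) - lineA (171 / 500) * (669 / 10000))
        (capF (819 / 10000) - lineA (171 / 500) * (819 / 10000))) (Lo := 259 / 1000)
      (L := 407 / 10000) (U := 49 / 625) (a := 1029 / 1250) (b := 1611 / 125) (m := 1013 / 1250)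
      (R := 7577 / 5000)
      (by norm_num) (by norm_num) (by norm_num [capF]) (by norm_num [lineA, lineB, capF])
      ⟨le_max_left _ _, le_max_right _ _⟩ (by norm_num [lineA, lineB, capF]) (by norm_num [capF])
      (by norm_num [cosUp]) (by norm_num [cosDn]) (by norm_num [cosDn]) (by norm_num)
  rcases le_total (u 0) (63 / 10000) with d' | d'
  · exact interval_false hcap hp hsum hF hsmall he hesum hx hθ hcE hid d d'
      (pa := 79 / 1000) (pb := 879 / 10000) (qP := 38 / 125) (qL := 17 / 50)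
      (G := max (capF (79 / 1000) - lineA (17 / 50) * (79 / 1000))
        (capF (879 / 10000) - lineA (17 / 50) * (879 / 10000))) (Lo := 67 / 250)
      (L := 437 / 10000) (U := 407 / 5000) (a := 4023 / 5000) (b := 6293 / 500) (m := 3887 / 5000)
      (R := 7247 / 5000)
      (by norm_num) (by norm_num) (by norm_num [capF]) (by norm_num [lineA, lineB, capF])
      ⟨le_max_left _ _, le_max_right _ _⟩ (by norm_num [lineA, lineB, capF]) (by norm_num [capF])
      (by norm_num [cosUp]) (by norm_num [cosDn]) (by norm_num [cosDn]) (by norm_num)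
  exact interval_false hcap hp hsum hF hsmall he hesum hx hθ hcE hid d' hX
      (pa := 869 / 10000) (pb := 58 / 625) (qP := 151 / 500) (qL := 17 / 50)
      (G := max (capF (869 / 10000) - lineA (17 / 50) * (869 / 10000))
        (capF (58 / 625) - lineA (17 / 50) * (58 / 625))) (Lo := 271 / 1000)
      (L := 453 / 10000) (U := 839 / 10000) (a := 7923 / 10000) (b := 619 / 50) (m := 1501 / 2000)
      (R := 2787 / 2000)
      (by norm_num) (by norm_num) (by norm_num [capF]) (by norm_num [lineA, lineB, capF])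
      ⟨le_max_left _ _, le_max_right _ _⟩ (by norm_num [lineA, lineB, capF]) (by norm_num [capF])
      (by norm_num [cosUp]) (by norm_num [cosDn]) (by norm_num [cosDn]) (by norm_num)

end K4

/-- the numerical lemma for four cells -/
theorem k4_numeric (n p : Fin 4 → ℝ) (hn : ∀ i, 0 ≤ n i) (hp : ∀ i, 0 ≤ p i)
    (hsum : ∑ i, p i = 1) (hcap : ∀ i, n i ≤ sqrt (8 / π) * p i * (1 - p i))
    (hF : 9 / (8 * π) < ∑ i, n i ^ 2) (hmin : ∀ i, p 0 ≤ p i)
    (D : Fin 3 → ℝ) (hD : ∀ j, n 0 ^ 2 + n j.succ ^ 2 < D j)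
    (hDsum : ∑ j, D j = 4 * n 0 ^ 2 + ∑ i, n i ^ 2)
    (r01 r02 r12 : ℝ) (h01 : |r01| < 1) (h02 : |r02| < 1) (h12 : |r12| < 1)
    (hgram : 0 < 1 - r01 ^ 2 - r02 ^ 2 - r12 ^ 2 + 2 * r01 * r02 * r12)
    (hθ0 : π * sqrt (2 * π) / 2 * sqrt (D 0)
      = arccos (-(r12 - r01 * r02) / sqrt ((1 - r01 ^ 2) * (1 - r02 ^ 2))))
    (hθ1 : π * sqrt (2 * π) / 2 * sqrt (D 1)
      = arccos (-(r02 - r01 * r12) / sqrt ((1 - r01 ^ 2) * (1 - r12 ^ 2))))
    (hθ2 : π * sqrt (2 * π) / 2 * sqrt (D 2)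
      = arccos (-(r01 - r02 * r12) / sqrt ((1 - r02 ^ 2) * (1 - r12 ^ 2))))
    (hp0 : p 0 = 1 / 8 + (arcsin r01 + arcsin r02 + arcsin r12) / (4 * π)) : False := by
  have hπ := Real.pi_pos
  have ha : 0 < 1 - r12 ^ 2 := by nlinarith [abs_lt.1 h12]
  have hb : 0 < 1 - r02 ^ 2 := by nlinarith [abs_lt.1 h02]
  have hc : 0 < 1 - r01 ^ 2 := by nlinarith [abs_lt.1 h01]
  set A := sqrt (1 - r12 ^ 2) with hA
  set B := sqrt (1 - r02 ^ 2) with hB
  set C := sqrt (1 - r01 ^ 2) with hC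
  have hA0 : 0 < A := sqrt_pos.2 ha
  have hB0 : 0 < B := sqrt_pos.2 hb
  have hC0 : 0 < C := sqrt_pos.2 hc
  have hscale : ∀ j, π * sqrt (2 * π) / 2 * sqrt (D j) = 2 * π * sqrt (π / 8 * D j) := fun j => by
    have h4 : sqrt (2 * π) = 4 * sqrt (π / 8) := by
      rw [show 2 * π = 4 ^ 2 * (π / 8) by ring, sqrt_mul (by norm_num), sqrt_sq (by norm_num)]
    rw [h4, sqrt_mul (by positivity : 0 ≤ π / 8)]; ring
  have cosof : ∀ v P Q : ℝ, 0 < P → 0 < Q → v ^ 2 ≤ (P * Q) ^ 2 →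
      cos (arccos (v / (P * Q))) = v / (P * Q) := by
    intro v P Q hP hQ h
    have h' := abs_le_of_sq_le_sq' h (by positivity)
    exact cos_arccos (by rw [le_div_iff₀ (by positivity)]; linarith [h'.1])
      (by rw [div_le_iff₀ (by positivity)]; linarith [h'.2])
  rw [hscale] at hθ0 hθ1 hθ2
  rw [sqrt_mul hc.le] at hθ0 hθ1
  rw [sqrt_mul hb.le] at hθ2
  rw [← hC, ← hB] at hθ0
  rw [← hC, ← hA] at hθ1
  rw [← hB, ← hA] at hθ2
  have hA2 : A ^ 2 = 1 - r12 ^ 2 := sq_sqrt ha.le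
  have hB2 : B ^ 2 = 1 - r02 ^ 2 := sq_sqrt hb.le
  have hC2 : C ^ 2 = 1 - r01 ^ 2 := sq_sqrt hc.le
  have x0 : cos (2 * π * sqrt (π / 8 * D 0)) = (r02 * r01 - r12) / (B * C) := by
    rw [hθ0, cosof _ _ _ hC0 hB0 (by rw [mul_pow, hB2, hC2]; nlinarith)]; ring
  have x1 : cos (2 * π * sqrt (π / 8 * D 1)) = (r12 * r01 - r02) / (A * C) := by
    rw [hθ1, cosof _ _ _ hC0 hA0 (by rw [mul_pow, hA2, hC2]; nlinarith)]; ring
  have x2 : cos (2 * π * sqrt (π / 8 * D 2)) = (r12 * r02 - r01) / (A * B) := by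
    rw [hθ2, cosof _ _ _ hB0 hA0 (by rw [mul_pow, hA2, hB2]; nlinarith)]; ring
  have hE : cos (4 * π * p 0)
      = -(r12 * B * C + r02 * A * C + r01 * A * B - r12 * r02 * r01) := by
    have e : 4 * π * p 0 = (arcsin r01 + arcsin r02 + arcsin r12) + π / 2 := by
      rw [hp0]; field_simp; ring
    rw [e, cos_add_pi_div_two, sin_add, sin_add, cos_add, cos_arcsin, cos_arcsin, cos_arcsin,
      sin_arcsin (abs_le.1 h01.le).1 (abs_le.1 h01.le).2,
      sin_arcsin (abs_le.1 h02.le).1 (abs_le.1 h02.le).2,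
      sin_arcsin (abs_le.1 h12.le).1 (abs_le.1 h12.le).2, ← hA, ← hB, ← hC]
    ring
  have hid := K4.trig_identity (a := r12) (b := r02) (c := r01) hA2 hB2 hC2 hA0.ne' hB0.ne' hC0.ne'
  refine K4.scaled_false (u := fun i => π / 8 * n i ^ 2) (e := fun j => π / 8 * D j)
    (x := fun j => cos (2 * π * sqrt (π / 8 * D j))) (cE := cos (4 * π * p 0))
    (fun i => by positivity) (fun i => ?_) hp hsum ?_ hmin (fun j => ?_) ?_ (fun _ => rfl)
    (fun j => ?_) rfl ?_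
  · have h1 := pow_le_pow_left₀ (hn i) (hcap i) 2
    rw [mul_pow, mul_pow, sq_sqrt (by positivity)] at h1
    have e : π / 8 * (8 / π * p i ^ 2 * (1 - p i) ^ 2) = K4.capF (p i) := by
      simp only [K4.capF]; field_simp
    rw [← e]; exact mul_le_mul_of_nonneg_left h1 (by positivity)
  · rw [← Finset.mul_sum]
    have e : (9 : ℝ) / 64 = π / 8 * (9 / (8 * π)) := by field_simp; ring
    rw [e]; exact mul_lt_mul_of_pos_left hF (by positivity)
  · rw [← mul_add]; exact mul_lt_mul_of_pos_left (hD j) (by positivity)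
  · rw [← Finset.mul_sum, ← Finset.mul_sum, hDsum]; ring
  · fin_cases j
    · exact hθ0 ▸ arccos_le_pi _
    · exact hθ1 ▸ arccos_le_pi _
    · exact hθ2 ▸ arccos_le_pi _
  · simp only [x0, x1, x2, hE]
    linear_combination hid

end Vale.Agent.P226
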