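import Vale.Agent.P226.Lines

/-!
# Numerical upper bounds for the one-dimensional data
-/

open MeasureTheory Real Set
open scoped RealInnerProductSpace

namespace Vale.Agent.P226

lemma sqrt_half_pi_bounds :
    (12533141373 / 10000000000 : ℝ) ≤ Real.sqrt (π / 2) ∧
      Real.sqrt (π / 2) ≤ 12533141374 / 10000000000 := by
  have h1 := Real.pi_gt_d20
  have h2 := Real.pi_lt_d20
  constructor
  · apply Real.le_sqrt_of_sq_le; linarith
  · rw [Real.sqrt_le_left (by norm_num)]; linarith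

lemma inv_sqrt_two_pi_le : (Real.sqrt (2 * π))⁻¹ ≤ 3989422805 / 10000000000 := by
  have h1 := Real.pi_gt_d20
  have : (10000000000 / 3989422805 : ℝ) ≤ Real.sqrt (2 * π) := by
    apply Real.le_sqrt_of_sq_le; linarith
  calc (Real.sqrt (2 * π))⁻¹ ≤ (10000000000 / 3989422805 : ℝ)⁻¹ := inv_anti₀ (by norm_num) this
    _ = _ := by norm_num

lemma Jn_vals : Jn 3 = 2 ∧ Jn 4 = 3 * Real.sqrt (π / 2) ∧ Jn 5 = 8 ∧
    Jn 6 = 15 * Real.sqrt (π / 2) ∧ Jn 7 = 48 := by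
  have e2 : Jn 2 = Real.sqrt (π / 2) := by rw [Jn_succ_succ, Jn_zero]; push_cast; ring
  have e3 : Jn 3 = 2 := by rw [Jn_succ_succ, Jn_one]; norm_num
  have e4 : Jn 4 = 3 * Real.sqrt (π / 2) := by rw [Jn_succ_succ, e2]; norm_num
  have e5 : Jn 5 = 8 := by rw [Jn_succ_succ, e3]; norm_num
  have e6 : Jn 6 = 15 * Real.sqrt (π / 2) := by rw [Jn_succ_succ, e4]; push_cast; ring
  have e7 : Jn 7 = 48 := by rw [Jn_succ_succ, e5]; norm_num
  exact ⟨e3, e4, e5, e6, e7⟩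

lemma Er_four_le : Er 4 ≤ 3 / 2 * (12533141374 / 10000000000) := by
  obtain ⟨e3, e4, -, -, -⟩ := Jn_vals
  rw [Er, e4, e3]
  linarith [sqrt_half_pi_bounds.2]

lemma Er_five_le : Er 5 ≤ 8 / (3 * (12533141373 / 10000000000)) := by
  obtain ⟨-, e4, e5, -, -⟩ := Jn_vals
  rw [Er, e5, e4]
  have := sqrt_half_pi_bounds.1
  gcongr

lemma Er_seven_le : Er 7 ≤ 48 / (15 * (12533141373 / 10000000000)) := by
  obtain ⟨-, -, -, e6, e7⟩ := Jn_vals
  rw [Er, e7, e6]
  have := sqrt_half_pi_bounds.1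
  gcongr

lemma Hc_nonneg {r : ℕ} [NeZero r] (c : ℝ) : 0 ≤ Hc r c :=
  integral_nonneg fun x => mul_nonneg (le_max_right _ _) (dens_nonneg x)

/-! ## `r = 5` and `r = 7` -/

lemma Hc_five (c : ℝ) (h0 : -1 ≤ c) (h1 : c ≤ 1) :
    Hc 5 c = Er 5 * (((1 - c ^ 2) ^ 2 / 4 - c * (2 / 3 - c + c ^ 3 / 3)) / (4 / 3)) := by
  have h := Hc_eq_theta 5 (by norm_num) (Real.arccos c) ⟨Real.arccos_nonneg c, Real.arccos_le_pi c⟩
  rw [Real.cos_arccos h0 h1] at h
  set F : ℝ → ℝ → ℝ := fun k t =>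
    Real.sin t ^ 4 / 4 + k * (Real.cos t - Real.cos t ^ 3 / 3) with hF
  have hd : ∀ k t : ℝ, HasDerivAt (F k) ((Real.cos t - k) * Real.sin t ^ (5 - 2)) t := by
    intro k t
    have := (((Real.hasDerivAt_sin t).fun_pow 4).div_const 4).fun_add
      (((Real.hasDerivAt_cos t).fun_sub (((Real.hasDerivAt_cos t).fun_pow 3).div_const 3)).const_mul k)
    refine this.congr_deriv ?_
    norm_num
    linear_combination (k * Real.sin t) * Real.sin_sq_add_cos_sq t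
  have hd0 : ∀ t : ℝ, HasDerivAt (fun t => -(Real.cos t - Real.cos t ^ 3 / 3))
      (Real.sin t ^ (5 - 2)) t := by
    intro t
    have := ((Real.hasDerivAt_cos t).fun_sub
      (((Real.hasDerivAt_cos t).fun_pow 3).div_const 3)).fun_neg
    refine this.congr_deriv ?_
    norm_num
    linear_combination (-Real.sin t) * Real.sin_sq_add_cos_sq t
  rw [h, intervalIntegral.integral_eq_sub_of_hasDerivAt (fun t _ => hd c t)
      ((by fun_prop : Continuous fun t => (Real.cos t - c) * Real.sin t ^ (5 - 2)).intervalIntegrable _ _),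
    intervalIntegral.integral_eq_sub_of_hasDerivAt (fun t _ => hd0 t)
      ((by fun_prop : Continuous fun t => Real.sin t ^ (5 - 2)).intervalIntegrable _ _)]
  simp only [hF, Real.cos_arccos h0 h1, Real.sin_arccos, Real.cos_zero, Real.sin_zero, Real.cos_pi]
  rw [show Real.sqrt (1 - c ^ 2) ^ 4 = (Real.sqrt (1 - c ^ 2) ^ 2) ^ 2 by ring,
    Real.sq_sqrt (by nlinarith : (0 : ℝ) ≤ 1 - c ^ 2)]
  ring

lemma Hc_seven (c : ℝ) (h0 : -1 ≤ c) (h1 : c ≤ 1) :
    Hc 7 c = Er 7 * (((1 - c ^ 2) ^ 3 / 6 - c * (8 / 15 - c + 2 * c ^ 3 / 3 - c ^ 5 / 5))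
      / (16 / 15)) := by
  have h := Hc_eq_theta 7 (by norm_num) (Real.arccos c) ⟨Real.arccos_nonneg c, Real.arccos_le_pi c⟩
  rw [Real.cos_arccos h0 h1] at h
  set F : ℝ → ℝ → ℝ := fun k t => Real.sin t ^ 6 / 6
    + k * (Real.cos t - 2 / 3 * Real.cos t ^ 3 + Real.cos t ^ 5 / 5) with hF
  have hd : ∀ k t : ℝ, HasDerivAt (F k) ((Real.cos t - k) * Real.sin t ^ (7 - 2)) t := by
    intro k t
    have := (((Real.hasDerivAt_sin t).fun_pow 6).div_const 6).fun_add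
      ((((Real.hasDerivAt_cos t).fun_sub (((Real.hasDerivAt_cos t).fun_pow 3).const_mul (2 / 3))).fun_add
        (((Real.hasDerivAt_cos t).fun_pow 5).div_const 5)).const_mul k)
    refine this.congr_deriv ?_
    norm_num
    linear_combination (k * Real.sin t * (Real.sin t ^ 2 + 1 - Real.cos t ^ 2))
      * Real.sin_sq_add_cos_sq t
  have hd0 : ∀ t : ℝ, HasDerivAt
      (fun t => -(Real.cos t - 2 / 3 * Real.cos t ^ 3 + Real.cos t ^ 5 / 5))
      (Real.sin t ^ (7 - 2)) t := by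
    intro t
    have := (((Real.hasDerivAt_cos t).fun_sub
        (((Real.hasDerivAt_cos t).fun_pow 3).const_mul (2 / 3))).fun_add
        (((Real.hasDerivAt_cos t).fun_pow 5).div_const 5)).fun_neg
    refine this.congr_deriv ?_
    norm_num
    linear_combination (-Real.sin t * (Real.sin t ^ 2 + 1 - Real.cos t ^ 2))
      * Real.sin_sq_add_cos_sq t
  rw [h, intervalIntegral.integral_eq_sub_of_hasDerivAt (fun t _ => hd c t)
      ((by fun_prop : Continuous fun t => (Real.cos t - c) * Real.sin t ^ (7 - 2)).intervalIntegrable _ _),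
    intervalIntegral.integral_eq_sub_of_hasDerivAt (fun t _ => hd0 t)
      ((by fun_prop : Continuous fun t => Real.sin t ^ (7 - 2)).intervalIntegrable _ _)]
  simp only [hF, Real.cos_arccos h0 h1, Real.sin_arccos, Real.cos_zero, Real.sin_zero, Real.cos_pi]
  rw [show Real.sqrt (1 - c ^ 2) ^ 6 = (Real.sqrt (1 - c ^ 2) ^ 2) ^ 3 by ring,
    Real.sq_sqrt (by nlinarith : (0 : ℝ) ≤ 1 - c ^ 2)]
  ring

lemma line_five (c a b : ℝ) (h0 : 0 ≤ c) (h1 : c ≤ 1)
    (ha : c * (8 / (3 * (12533141373 / 10000000000))) ≤ a)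
    (hb : 8 / (3 * (12533141373 / 10000000000)) *
      (((1 - c ^ 2) ^ 2 / 4 - c * (2 / 3 - c + c ^ 3 / 3)) / (4 / 3)) ≤ b) :
    ∃ k : ℝ, k * Er 5 ≤ a ∧ Hc 5 k ≤ b := by
  refine ⟨c, (mul_le_mul_of_nonneg_left Er_five_le h0).trans ha, ?_⟩
  have he := Hc_five c (by linarith) h1
  have hp : 0 ≤ ((1 - c ^ 2) ^ 2 / 4 - c * (2 / 3 - c + c ^ 3 / 3)) / (4 / 3) :=
    (mul_nonneg_iff_of_pos_left (Er_pos 5)).1 (he ▸ Hc_nonneg c)
  rw [he]
  exact (mul_le_mul_of_nonneg_right Er_five_le hp).trans hb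

lemma line_seven (c a b : ℝ) (h0 : 0 ≤ c) (h1 : c ≤ 1)
    (ha : c * (48 / (15 * (12533141373 / 10000000000))) ≤ a)
    (hb : 48 / (15 * (12533141373 / 10000000000)) *
      (((1 - c ^ 2) ^ 3 / 6 - c * (8 / 15 - c + 2 * c ^ 3 / 3 - c ^ 5 / 5)) / (16 / 15)) ≤ b) :
    ∃ k : ℝ, k * Er 7 ≤ a ∧ Hc 7 k ≤ b := by
  refine ⟨c, (mul_le_mul_of_nonneg_left Er_seven_le h0).trans ha, ?_⟩
  have he := Hc_seven c (by linarith) h1
  have hp : 0 ≤ ((1 - c ^ 2) ^ 3 / 6 - c * (8 / 15 - c + 2 * c ^ 3 / 3 - c ^ 5 / 5)) / (16 / 15) :=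
    (mul_nonneg_iff_of_pos_left (Er_pos 7)).1 (he ▸ Hc_nonneg c)
  rw [he]
  exact (mul_le_mul_of_nonneg_right Er_seven_le hp).trans hb

/-! ## `r = 4` -/

lemma Hc_four (θ : ℝ) (hθ : θ ∈ Set.Icc 0 π) :
    Hc 4 (Real.cos θ) = 3 * (Real.sqrt (2 * π))⁻¹ *
      (Real.sin θ / 2 - Real.sin θ ^ 3 / 6 - θ * Real.cos θ / 2) := by
  have h := Hc_eq_theta 4 (by norm_num) θ hθ
  set k := Real.cos θ with hk
  set F : ℝ → ℝ := fun t =>
    Real.sin t ^ 3 / 3 - k * ((t - Real.sin t * Real.cos t) / 2) with hF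
  have hd : ∀ t : ℝ, HasDerivAt F ((Real.cos t - k) * Real.sin t ^ (4 - 2)) t := by
    intro t
    have := (((Real.hasDerivAt_sin t).fun_pow 3).div_const 3).fun_sub
      ((((hasDerivAt_id t).fun_sub ((Real.hasDerivAt_sin t).fun_mul (Real.hasDerivAt_cos t))).div_const 2).const_mul k)
    refine this.congr_deriv ?_
    norm_num
    linear_combination (k / 2) * Real.sin_sq_add_cos_sq t
  have hd0 : ∀ t : ℝ, HasDerivAt (fun t => (t - Real.sin t * Real.cos t) / 2)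
      (Real.sin t ^ (4 - 2)) t := by
    intro t
    have := ((hasDerivAt_id t).fun_sub
      ((Real.hasDerivAt_sin t).fun_mul (Real.hasDerivAt_cos t))).div_const 2
    refine this.congr_deriv ?_
    norm_num
    linear_combination (-(1 : ℝ) / 2) * Real.sin_sq_add_cos_sq t
  rw [intervalIntegral.integral_eq_sub_of_hasDerivAt (fun t _ => hd t)
      ((by fun_prop : Continuous fun t => (Real.cos t - k) * Real.sin t ^ (4 - 2)).intervalIntegrable _ _),
    intervalIntegral.integral_eq_sub_of_hasDerivAt (fun t _ => hd0 t)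
      ((by fun_prop : Continuous fun t => Real.sin t ^ (4 - 2)).intervalIntegrable _ _)] at h
  obtain ⟨e3, e4, -, -, -⟩ := Jn_vals
  rw [h, Er, e4, e3]
  simp only [hF, Real.cos_zero, Real.sin_zero, Real.cos_pi, Real.sin_pi]
  rw [← hk]
  have hsq : Real.sqrt (π / 2) * Real.sqrt (2 * π) = π := by
    rw [← Real.sqrt_mul (by positivity), show π / 2 * (2 * π) = π ^ 2 by ring,
      Real.sqrt_sq pi_pos.le]
  have hs2 : Real.sqrt (2 * π) ≠ 0 := (Real.sqrt_pos.2 (by positivity)).ne'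
  have hbr : Real.sin θ ^ 3 / 3 - k * ((θ - Real.sin θ * k) / 2)
      = Real.sin θ / 2 - Real.sin θ ^ 3 / 6 - θ * k / 2 := by
    linear_combination (Real.sin θ / 2) * Real.sin_sq_add_cos_sq θ
  simp only [ne_eq, OfNat.ofNat_ne_zero, not_false_eq_true, zero_pow, zero_mul, sub_zero,
    zero_div, mul_zero]
  rw [hbr]
  field_simp
  simp only [mul_comm π 2] at hsq ⊢
  linear_combination (6 * Real.sin θ - 2 * Real.sin θ ^ 3 - 6 * θ * k) * hsq

/-- Twelve terms of the Taylor series of `exp (i x)`. -/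
lemma trig_bound (x : ℝ) (hx : |x| ≤ 1) :
    |Real.cos x - (1 - x ^ 2 / 2 + x ^ 4 / 24 - x ^ 6 / 720 + x ^ 8 / 40320 - x ^ 10 / 3628800)|
        ≤ |x| ^ 12 * (13 / (479001600 * 12)) ∧
      |Real.sin x - (x - x ^ 3 / 6 + x ^ 5 / 120 - x ^ 7 / 5040 + x ^ 9 / 362880
          - x ^ 11 / 39916800)| ≤ |x| ^ 12 * (13 / (479001600 * 12)) := by
  have hn : ‖(x : ℂ) * Complex.I‖ = |x| := by simp
  have h := Complex.exp_bound (x := (x : ℂ) * Complex.I) (by rw [hn]; exact hx) (n := 12) (by norm_num)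
  rw [hn] at h
  have e : ∑ m ∈ Finset.range 12, ((x : ℂ) * Complex.I) ^ m / (m.factorial : ℂ)
      = ((1 - x ^ 2 / 2 + x ^ 4 / 24 - x ^ 6 / 720 + x ^ 8 / 40320 - x ^ 10 / 3628800 : ℝ) : ℂ)
        + ((x - x ^ 3 / 6 + x ^ 5 / 120 - x ^ 7 / 5040 + x ^ 9 / 362880
          - x ^ 11 / 39916800 : ℝ) : ℂ) * Complex.I := by
    have i3 : Complex.I ^ 3 = -Complex.I := Complex.I_pow_three
    have i4 : Complex.I ^ 4 = 1 := Complex.I_pow_four
    have i5 : Complex.I ^ 5 = Complex.I := by rw [pow_succ, i4, one_mul]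
    have i6 : Complex.I ^ 6 = -1 := by rw [pow_succ, i5, Complex.I_mul_I]
    have i7 : Complex.I ^ 7 = -Complex.I := by rw [pow_succ, i6]; ring
    have i8 : Complex.I ^ 8 = 1 := by rw [pow_succ, i7, neg_mul, Complex.I_mul_I, neg_neg]
    have i9 : Complex.I ^ 9 = Complex.I := by rw [pow_succ, i8, one_mul]
    have i10 : Complex.I ^ 10 = -1 := by rw [pow_succ, i9, Complex.I_mul_I]
    have i11 : Complex.I ^ 11 = -Complex.I := by rw [pow_succ, i10]; ring
    simp only [Finset.sum_range_succ, Finset.sum_range_zero, mul_pow, Complex.I_sq, i3, i4, i5, i6,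
      i7, i8, i9, i10, i11]
    norm_num [Nat.factorial]
    ring
  rw [e] at h
  generalize 1 - x ^ 2 / 2 + x ^ 4 / 24 - x ^ 6 / 720 + x ^ 8 / 40320 - x ^ 10 / 3628800 = P at h ⊢
  generalize x - x ^ 3 / 6 + x ^ 5 / 120 - x ^ 7 / 5040 + x ^ 9 / 362880 - x ^ 11 / 39916800 = Q
    at h ⊢
  constructor
  · refine le_trans (le_trans (le_of_eq ?_) (Complex.abs_re_le_norm _)) (le_trans h (le_of_eq ?_))
    · simp [Complex.exp_ofReal_mul_I_re]
    · norm_num [Nat.factorial]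
  · refine le_trans (le_trans (le_of_eq ?_) (Complex.abs_im_le_norm _)) (le_trans h (le_of_eq ?_))
    · simp [Complex.exp_ofReal_mul_I_im]
    · norm_num [Nat.factorial]

lemma line_four (θ a b P Q e : ℝ) (h0 : 0 ≤ θ) (h1 : θ ≤ 3 / 2)
    (hP : P = 1 - (θ / 2) ^ 2 / 2 + (θ / 2) ^ 4 / 24 - (θ / 2) ^ 6 / 720 + (θ / 2) ^ 8 / 40320
      - (θ / 2) ^ 10 / 3628800)
    (hQ : Q = θ / 2 - (θ / 2) ^ 3 / 6 + (θ / 2) ^ 5 / 120 - (θ / 2) ^ 7 / 5040
      + (θ / 2) ^ 9 / 362880 - (θ / 2) ^ 11 / 39916800)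
    (he : e = (θ / 2) ^ 12 * (13 / (479001600 * 12)))
    (hQ0 : 0 ≤ Q - e) (hP0 : 0 ≤ P - e) (hc0 : 0 ≤ 1 - 2 * (Q + e) ^ 2)
    (ha : (1 - 2 * (Q - e) ^ 2) * (3 / 2 * (12533141374 / 10000000000)) ≤ a)
    (hb : 3 * (3989422805 / 10000000000) * (2 * (Q + e) * (P + e) / 2
      - (2 * (Q - e) * (P - e)) ^ 3 / 6 - θ * (1 - 2 * (Q + e) ^ 2) / 2) ≤ b) :
    ∃ k : ℝ, k * Er 4 ≤ a ∧ Hc 4 k ≤ b := by
  have habs : |θ / 2| = θ / 2 := abs_of_nonneg (by linarith)
  obtain ⟨hc, hs⟩ := trig_bound (θ / 2) (by rw [habs]; linarith)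
  rw [habs, ← hP, ← he, abs_le] at hc
  rw [habs, ← hQ, ← he, abs_le] at hs
  have hcos : Real.cos θ = 1 - 2 * Real.sin (θ / 2) ^ 2 := by
    conv_lhs => rw [show θ = 2 * (θ / 2) by ring, Real.cos_two_mul]
    linear_combination 2 * Real.sin_sq_add_cos_sq (θ / 2)
  have hsin : Real.sin θ = 2 * Real.sin (θ / 2) * Real.cos (θ / 2) := by
    conv_lhs => rw [show θ = 2 * (θ / 2) by ring, Real.sin_two_mul]
  have hS1 : (Q - e) ^ 2 ≤ Real.sin (θ / 2) ^ 2 := pow_le_pow_left₀ hQ0 (by linarith) 2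
  have hS2 : Real.sin (θ / 2) ^ 2 ≤ (Q + e) ^ 2 := pow_le_pow_left₀ (by linarith) (by linarith) 2
  have hk0 : 0 ≤ Real.cos θ := by rw [hcos]; linarith
  have hsu : Real.sin θ ≤ 2 * (Q + e) * (P + e) := by
    rw [hsin]
    exact mul_le_mul (by linarith) (by linarith) (by linarith) (by linarith)
  have hsl : 2 * (Q - e) * (P - e) ≤ Real.sin θ := by
    rw [hsin]
    exact mul_le_mul (by linarith) (by linarith) hP0 (by linarith)
  have hsl0 : 0 ≤ 2 * (Q - e) * (P - e) := by positivity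
  refine ⟨Real.cos θ, ?_, ?_⟩
  · refine le_trans ?_ ha
    refine mul_le_mul (by rw [hcos]; linarith) Er_four_le (Er_pos 4).le ?_
    rw [hcos] at hk0; linarith
  · have hH := Hc_four θ ⟨h0, by linarith [Real.pi_gt_d20]⟩
    have hI : 0 < (Real.sqrt (2 * π))⁻¹ := inv_pos.2 (Real.sqrt_pos.2 (by positivity))
    have hbr0 : 0 ≤ Real.sin θ / 2 - Real.sin θ ^ 3 / 6 - θ * Real.cos θ / 2 :=
      (mul_nonneg_iff_of_pos_left (by positivity)).1 (hH ▸ Hc_nonneg (r := 4) _)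
    rw [hH]
    refine le_trans ?_ hb
    refine mul_le_mul (mul_le_mul_of_nonneg_left inv_sqrt_two_pi_le (by norm_num)) ?_ hbr0
      (by norm_num)
    have := pow_le_pow_left₀ hsl0 hsl 3
    have hθc := mul_le_mul_of_nonneg_left
      (show 1 - 2 * (Q + e) ^ 2 ≤ Real.cos θ by rw [hcos]; linarith) h0
    linarith

lemma line_four_zero : ∃ k : ℝ, k * Er 4 ≤ 0 ∧ Hc 4 k ≤ 1994713 / 5000000 := by
  refine ⟨0, by simp, ?_⟩
  have h := Hc_four (π / 2) ⟨by positivity, by linarith [pi_pos]⟩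
  rw [Real.cos_pi_div_two, Real.sin_pi_div_two] at h
  rw [h]
  have := inv_sqrt_two_pi_le
  linarith

/-! ## The half-space -/

lemma exp_neg_bound (x : ℝ) (h0 : 0 ≤ x) (h1 : x ≤ 1) :
    Real.exp (-x) ≤ 1 - x + x ^ 2 / 2 - x ^ 3 / 6 + x ^ 4 / 24 - x ^ 5 / 120 + x ^ 6 / 720
      - x ^ 7 / 5040 + x ^ 8 / 40320 + x ^ 9 * (10 / (362880 * 9)) := by
  have h := Real.exp_bound (x := -x) (by rw [abs_neg, abs_of_nonneg h0]; exact h1) (n := 9)
    (by norm_num)
  rw [abs_neg, abs_of_nonneg h0, abs_le] at h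
  norm_num [Finset.sum_range_succ, Nat.factorial] at h
  linarith [h.2]

lemma integral_gauss_le (c : ℝ) (h0 : 0 ≤ c) (h1 : c ≤ 7 / 5) :
    ∫ t in (0 : ℝ)..c, Real.exp (-t ^ 2 / 2)
      ≤ c - c ^ 3 / 6 + c ^ 5 / 40 - c ^ 7 / 336 + c ^ 9 / 3456 - c ^ 11 / 42240
        + c ^ 13 / 599040 - c ^ 15 / 9676800 + c ^ 17 / 175472640
        + c ^ 19 * (10 / (362880 * 9 * 512 * 19)) := by
  set P : ℝ → ℝ := fun t => t - t ^ 3 / 6 + t ^ 5 / 40 - t ^ 7 / 336 + t ^ 9 / 3456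
    - t ^ 11 / 42240 + t ^ 13 / 599040 - t ^ 15 / 9676800 + t ^ 17 / 175472640
    + t ^ 19 * (10 / (362880 * 9 * 512 * 19)) with hP
  set p : ℝ → ℝ := fun t => 1 - t ^ 2 / 2 + (t ^ 2 / 2) ^ 2 / 2 - (t ^ 2 / 2) ^ 3 / 6
    + (t ^ 2 / 2) ^ 4 / 24 - (t ^ 2 / 2) ^ 5 / 120 + (t ^ 2 / 2) ^ 6 / 720
    - (t ^ 2 / 2) ^ 7 / 5040 + (t ^ 2 / 2) ^ 8 / 40320
    + (t ^ 2 / 2) ^ 9 * (10 / (362880 * 9)) with hp
  have hd : ∀ t : ℝ, HasDerivAt P (p t) t := by
    intro t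
    have := (((((((((hasDerivAt_id t).fun_sub ((hasDerivAt_pow 3 t).div_const 6)).fun_add
      ((hasDerivAt_pow 5 t).div_const 40)).fun_sub ((hasDerivAt_pow 7 t).div_const 336)).fun_add
      ((hasDerivAt_pow 9 t).div_const 3456)).fun_sub ((hasDerivAt_pow 11 t).div_const 42240)).fun_add
      ((hasDerivAt_pow 13 t).div_const 599040)).fun_sub
      ((hasDerivAt_pow 15 t).div_const 9676800)).fun_add
      ((hasDerivAt_pow 17 t).div_const 175472640)).fun_add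
      ((hasDerivAt_pow 19 t).mul_const (10 / (362880 * 9 * 512 * 19) : ℝ))
    refine this.congr_deriv ?_
    simp only [hp]
    push_cast
    ring
  have hc : Continuous p := by simp only [hp]; fun_prop
  calc ∫ t in (0 : ℝ)..c, Real.exp (-t ^ 2 / 2) ≤ ∫ t in (0 : ℝ)..c, p t := by
        refine intervalIntegral.integral_mono_on h0
          ((by fun_prop : Continuous fun t : ℝ => Real.exp (-t ^ 2 / 2)).intervalIntegrable _ _)
          (hc.intervalIntegrable _ _) fun t ht => ?_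
        rw [neg_div]
        exact exp_neg_bound _ (by positivity) (by nlinarith [ht.1, ht.2])
    _ = P c - P 0 :=
        intervalIntegral.integral_eq_sub_of_hasDerivAt (fun t _ => hd t) (hc.intervalIntegrable _ _)
    _ = _ := by simp [hP]

lemma line_half {r : ℕ} [NeZero r] (u : EE r) (hu : ‖u‖ = 1) (c b : ℝ) (h0 : 0 ≤ c)
    (h1 : c ≤ 7 / 5)
    (hb : 3989422805 / 10000000000 * (1 - c ^ 2 / 2 + (c ^ 2 / 2) ^ 2 / 2 - (c ^ 2 / 2) ^ 3 / 6
      + (c ^ 2 / 2) ^ 4 / 24 - (c ^ 2 / 2) ^ 5 / 120 + (c ^ 2 / 2) ^ 6 / 720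
      - (c ^ 2 / 2) ^ 7 / 5040 + (c ^ 2 / 2) ^ 8 / 40320 + (c ^ 2 / 2) ^ 9 * (10 / (362880 * 9)))
      + c * (3989422805 / 10000000000 * (c - c ^ 3 / 6 + c ^ 5 / 40 - c ^ 7 / 336 + c ^ 9 / 3456
        - c ^ 11 / 42240 + c ^ 13 / 599040 - c ^ 15 / 9676800 + c ^ 17 / 175472640
        + c ^ 19 * (10 / (362880 * 9 * 512 * 19))) - 1 / 2) ≤ b) :
    ∫ x, max (⟪u, x⟫ - c) 0 * dens x ≤ b := by
  rw [integral_pos_part_line u hu c]
  have e1 := exp_neg_bound (c ^ 2 / 2) (by positivity) (by nlinarith)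
  rw [← neg_div] at e1
  have e2 := integral_gauss_le c h0 h1
  have hI0 : 0 ≤ ∫ t in (0 : ℝ)..c, Real.exp (-t ^ 2 / 2) :=
    intervalIntegral.integral_nonneg h0 fun t _ => (Real.exp_pos _).le
  have h2 := mul_le_mul inv_sqrt_two_pi_le e1 (Real.exp_pos _).le (by norm_num)
  have h3 := mul_le_mul_of_nonneg_left (mul_le_mul inv_sqrt_two_pi_le e2 hI0 (by norm_num)) h0
  linarith

/-! ## The data -/

theorem lines_four : ∀ l ∈ ([((0 : ℚ), (1994713 / 5000000 : ℚ)),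
    ((2003929 / 10000000 : ℚ), (95481 / 312500 : ℚ)),
    ((1745667 / 5000000 : ℚ), (153097 / 625000 : ℚ)),
    ((998533 / 2000000 : ℚ), (956323 / 5000000 : ℚ)),
    ((749911 / 1250000 : ℚ), (49811 / 312500 : ℚ)),
    ((875569 / 1250000 : ℚ), (327033 / 2500000 : ℚ)),
    ((4246977 / 5000000 : ℚ), (942791 / 10000000 : ℚ)),
    ((328221 / 312500 : ℚ), (138863 / 2500000 : ℚ)),
    ((12506059 / 10000000 : ℚ), (35241 / 1250000 : ℚ))] : List (ℚ × ℚ)),
    ∃ c : ℝ, c * Er 4 ≤ (l.1 : ℝ) ∧ Hc 4 c ≤ (l.2 : ℝ) := by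
  simp only [List.forall_mem_cons, List.not_mem_nil, false_imp_iff, imp_true_iff, and_true]
  push_cast
  refine ⟨line_four_zero, ?_, ?_, ?_, ?_, ?_, ?_, ?_, ?_⟩
  · exact line_four (183 / 125) _ _ _ _ _ (by norm_num) (by norm_num) rfl rfl rfl (by norm_num)
      (by norm_num) (by norm_num) (by norm_num) (by norm_num)
  · exact line_four (173 / 125) _ _ _ _ _ (by norm_num) (by norm_num) rfl rfl rfl (by norm_num)
      (by norm_num) (by norm_num) (by norm_num) (by norm_num)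
  · exact line_four (651 / 500) _ _ _ _ _ (by norm_num) (by norm_num) rfl rfl rfl (by norm_num)
      (by norm_num) (by norm_num) (by norm_num) (by norm_num)
  · exact line_four (623 / 500) _ _ _ _ _ (by norm_num) (by norm_num) rfl rfl rfl (by norm_num)
      (by norm_num) (by norm_num) (by norm_num) (by norm_num)
  · exact line_four (1189 / 1000) _ _ _ _ _ (by norm_num) (by norm_num) rfl rfl rfl (by norm_num)
      (by norm_num) (by norm_num) (by norm_num) (by norm_num)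
  · exact line_four (551 / 500) _ _ _ _ _ (by norm_num) (by norm_num) rfl rfl rfl (by norm_num)
      (by norm_num) (by norm_num) (by norm_num) (by norm_num)
  · exact line_four (489 / 500) _ _ _ _ _ (by norm_num) (by norm_num) rfl rfl rfl (by norm_num)
      (by norm_num) (by norm_num) (by norm_num) (by norm_num)
  · exact line_four (843 / 1000) _ _ _ _ _ (by norm_num) (by norm_num) rfl rfl rfl (by norm_num)
      (by norm_num) (by norm_num) (by norm_num) (by norm_num)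

theorem lines_five : ∀ l ∈ ([((0 : ℚ), (1994713 / 5000000 : ℚ)),
    ((3000049 / 10000000 : ℚ), (529501 / 2000000 : ℚ)),
    ((62501 / 125000 : ℚ), (481491 / 2500000 : ℚ)),
    ((7000111 / 10000000 : ℚ), (1337431 / 10000000 : ℚ)),
    ((9000141 / 10000000 : ℚ), (87443 / 1000000 : ℚ)),
    ((11489541 / 10000000 : ℚ), (91643 / 2000000 : ℚ))] : List (ℚ × ℚ)),
    ∃ c : ℝ, c * Er 5 ≤ (l.1 : ℝ) ∧ Hc 5 c ≤ (l.2 : ℝ) := by
  simp only [List.forall_mem_cons, List.not_mem_nil, false_imp_iff, imp_true_iff, and_true]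
  push_cast
  refine ⟨?_, ?_, ?_, ?_, ?_, ?_⟩
  · exact line_five 0 _ _ le_rfl zero_le_one (by norm_num) (by norm_num)
  · exact line_five (141 / 1000) _ _ (by norm_num) (by norm_num) (by norm_num) (by norm_num)
  · exact line_five (47 / 200) _ _ (by norm_num) (by norm_num) (by norm_num) (by norm_num)
  · exact line_five (329 / 1000) _ _ (by norm_num) (by norm_num) (by norm_num) (by norm_num)
  · exact line_five (423 / 1000) _ _ (by norm_num) (by norm_num) (by norm_num) (by norm_num)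
  · exact line_five (27 / 50) _ _ (by norm_num) (by norm_num) (by norm_num) (by norm_num)

theorem lines_seven_a : ∀ l ∈ ([((0 : ℚ), (1994713 / 5000000 : ℚ)),
    ((2987283 / 10000000 : ℚ), (21271 / 80000 : ℚ)),
    ((4493689 / 10000000 : ℚ), (527377 / 2500000 : ℚ)),
    ((1200019 / 2000000 : ℚ), (327659 / 2000000 : ℚ)),
    ((1598323 / 2000000 : ℚ), (5643 / 50000 : ℚ)),
    ((10008667 / 10000000 : ℚ), (732881 / 10000000 : ℚ))] : List (ℚ × ℚ)),
    ∃ c : ℝ, c * Er 7 ≤ (l.1 : ℝ) ∧ Hc 7 c ≤ (l.2 : ℝ) := by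
  simp only [List.forall_mem_cons, List.not_mem_nil, false_imp_iff, imp_true_iff, and_true]
  push_cast
  refine ⟨?_, ?_, ?_, ?_, ?_, ?_⟩
  · exact line_seven 0 _ _ le_rfl zero_le_one (by norm_num) (by norm_num)
  · exact line_seven (117 / 1000) _ _ (by norm_num) (by norm_num) (by norm_num) (by norm_num)
  · exact line_seven (22 / 125) _ _ (by norm_num) (by norm_num) (by norm_num) (by norm_num)
  · exact line_seven (47 / 200) _ _ (by norm_num) (by norm_num) (by norm_num) (by norm_num)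
  · exact line_seven (313 / 1000) _ _ (by norm_num) (by norm_num) (by norm_num) (by norm_num)
  · exact line_seven (49 / 125) _ _ (by norm_num) (by norm_num) (by norm_num) (by norm_num)

theorem lines_seven_b : ∀ l ∈ ([((0 : ℚ), (1994713 / 5000000 : ℚ)),
    ((31317 / 78125 : ℚ), (1138867 / 5000000 : ℚ)),
    ((1200019 / 2000000 : ℚ), (327659 / 2000000 : ℚ)),
    ((1598323 / 2000000 : ℚ), (5643 / 50000 : ℚ))] : List (ℚ × ℚ)),
    ∃ c : ℝ, c * Er 7 ≤ (l.1 : ℝ) ∧ Hc 7 c ≤ (l.2 : ℝ) := by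
  simp only [List.forall_mem_cons, List.not_mem_nil, false_imp_iff, imp_true_iff, and_true]
  push_cast
  refine ⟨?_, ?_, ?_, ?_⟩
  · exact line_seven 0 _ _ le_rfl zero_le_one (by norm_num) (by norm_num)
  · exact line_seven (157 / 1000) _ _ (by norm_num) (by norm_num) (by norm_num) (by norm_num)
  · exact line_seven (47 / 200) _ _ (by norm_num) (by norm_num) (by norm_num) (by norm_num)
  · exact line_seven (313 / 1000) _ _ (by norm_num) (by norm_num) (by norm_num) (by norm_num)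

theorem lines_half {r : ℕ} [NeZero r] (u : EE r) (hu : ‖u‖ = 1) :
    ∀ l ∈ ([((0 : ℚ), (997357 / 2500000 : ℚ)),
    ((1 / 5 : ℚ), (383619 / 1250000 : ℚ)),
    ((7 / 20 : ℚ), (620329 / 2500000 : ℚ)),
    ((9 / 20 : ℚ), (2136677 / 10000000 : ℚ)),
    ((11 / 20 : ℚ), (914033 / 5000000 : ℚ)),
    ((13 / 20 : ℚ), (1553729 / 10000000 : ℚ)),
    ((39 / 50 : ℚ), (1245031 / 10000000 : ℚ)),
    ((9 / 10 : ℚ), (1004317 / 10000000 : ℚ)),
    ((21 / 20 : ℚ), (756807 / 10000000 : ℚ))] : List (ℚ × ℚ)),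
    ∫ x, max (⟪u, x⟫ - (l.1 : ℝ)) 0 * dens x ≤ (l.2 : ℝ) := by
  simp only [List.forall_mem_cons, List.not_mem_nil, false_imp_iff, imp_true_iff, and_true]
  push_cast
  refine ⟨?_, ?_, ?_, ?_, ?_, ?_, ?_, ?_, ?_⟩ <;>
    exact line_half u hu _ _ (by norm_num) (by norm_num) (by norm_num)

end Vale.Agent.P226
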