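import Vale.Agent.P226.Fmax

/-!
# From the bound on expected maxima to partitions
-/

open MeasureTheory Real ProbabilityTheory Set
open scoped RealInnerProductSpace

namespace Vale.Agent.P226

lemma integrable_id_stdGaussian (d : ℕ) :
    Integrable (fun x : EE d => x) (stdGaussian (EE d)) :=
  (IsGaussian.memLp_two_id).integrable (by norm_num)

theorem partition_bound_of (H : ∀ k d [NeZero k], BoundAt k d) :
    ∀ d k, ∀ A : Fin k → Set (EE d), (∀ i, MeasurableSet (A i)) →
      (∀ i j, i ≠ j → stdGaussian (EE d) (A i ∩ A j) = 0) →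
      ∑ i, ‖∫ x in A i, x ∂stdGaussian (EE d)‖ ^ 2 ≤ 9 / (8 * π) := by
  intro d k A hA hdisj
  set γ := stdGaussian (EE d) with hγ
  set z : Fin k → EE d := fun i => ∫ x in A i, x ∂γ with hz
  set F := ∑ i, ‖z i‖ ^ 2 with hF
  set w : Fin (k + 1) → EE d := Fin.cons 0 z with hw
  have hssq : ssq w = F := by simp [ssq, hw, hF, Fin.sum_univ_succ]
  have hid : Integrable (fun x : EE d => x) γ := integrable_id_stdGaussian d
  have hi : ∀ i, Integrable ((A i).indicator fun x => ⟪z i, x⟫) γ := fun i =>
    ((hid.const_inner (z i))).indicator (hA i)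
  have hterm : ∀ i, ‖z i‖ ^ 2 = ∫ x, (A i).indicator (fun x => ⟪z i, x⟫) x ∂γ := by
    intro i
    rw [integral_indicator (hA i), integral_inner hid.integrableOn, ← real_inner_self_eq_norm_sq]
  have hsum : F = ∫ x, ∑ i, (A i).indicator (fun x => ⟪z i, x⟫) x ∂γ := by
    rw [integral_finsetSum _ fun i _ => hi i]
    exact Finset.sum_congr rfl fun i _ => hterm i
  have hmax : Integrable (maxv w) γ := by
    rw [hγ, stdGaussian_eq_withDensity,
      integrable_withDensity_iff continuous_dens.measurable.ennreal_ofReal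
        (ae_of_all _ fun x => ENNReal.ofReal_lt_top)]
    refine (integrable_maxv w).congr (ae_of_all _ fun x => ?_)
    simp [ENNReal.toReal_ofReal (dens_nonneg x)]
  have hae : ∀ᵐ x ∂γ, ∀ i j, i ≠ j → ¬ (x ∈ A i ∧ x ∈ A j) := by
    simp only [ae_all_iff]
    intro i j hij
    exact measure_eq_zero_iff_ae_notMem.1 (hdisj i j hij)
  have hle : F ≤ fmax w := by
    have e : fmax w = ∫ x, maxv w x ∂γ := (integral_stdGaussian _).symm
    rw [e, hsum]
    refine integral_mono_ae (integrable_finsetSum _ fun i _ => hi i) hmax ?_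
    filter_upwards [hae] with x hx
    by_cases h : ∃ i, x ∈ A i
    · obtain ⟨i, hxi⟩ := h
      rw [Finset.sum_eq_single i (fun j _ hj => indicator_of_notMem
        (fun hxj => hx j i hj ⟨hxj, hxi⟩) _) (by simp), indicator_of_mem hxi]
      have := le_maxv w i.succ x
      simpa [hw] using this
    · simp only [not_exists] at h
      rw [Finset.sum_eq_zero fun i _ => indicator_of_notMem (h i) _]
      have := le_maxv w 0 x
      simpa [hw] using this
  have hB := H (k + 1) d w
  rw [hssq] at hB
  have hF0 : 0 ≤ F := Finset.sum_nonneg fun i _ => sq_nonneg _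
  have h2 : F ^ 2 ≤ Tc * F := (pow_le_pow_left₀ hF0 hle 2).trans hB
  have hT := Tc_pos
  show F ≤ Tc
  by_contra hc
  rw [not_le] at hc
  nlinarith

end Vale.Agent.P226
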