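import Vale.Agent.P226.Many
import Vale.Agent.P226.Four
import Vale.Agent.P226.K4num
import Vale.Agent.P226.LineData
import Vale.Agent.P226.K3
import Vale.Agent.P226.Reduction

/-!
# The bound for every number of vectors
-/

open MeasureTheory Real Set ProbabilityTheory
open scoped RealInnerProductSpace

namespace Vale.Agent.P226
namespace Simp

lemma false_four (P : Simp 4 3) : False := by
  obtain ⟨n, p, D, a, b, c, hn, hp, hsum, hcap, hF, hmin, hD, hDsum, ha, hb, hc, hg, h0, h1, h2,
    hp0⟩ := P.four_data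
  exact k4_numeric n p hn hp hsum hcap hF hmin D hD hDsum a b c ha hb hc hg h0 h1 h2 hp0

lemma false_five (P : Simp 5 4) : False := by
  refine P.false_of_fin (607 / 400 : ℚ) (by norm_num) segs_five rows_five check_five (fun m => ?_)
    fun m t ht => ?_
  · refine P.slope_cone m (ρ := 1.13176) (c := 1.0583006) (by norm_num) ?_ (by norm_num) ?_ (by norm_num)
      (by norm_num)
    · rw [erSq_four]
      have := Real.pi_lt_d6
      have := Real.pi_gt_d6
      have := Real.pi_pos
      push_cast
      field_simp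
      linarith
    · simp only [kap]; norm_num
  · have hd : ∀ t ∈ segs_five, t.1 = (((607 / 400 : ℚ)), (0 : ℚ)) ∨ t.1 ∈ ([((0 : ℚ), (1994713 / 5000000 : ℚ)),
      ((2003929 / 10000000 : ℚ), (95481 / 312500 : ℚ)),
      ((1745667 / 5000000 : ℚ), (153097 / 625000 : ℚ)),
      ((998533 / 2000000 : ℚ), (956323 / 5000000 : ℚ)),
      ((749911 / 1250000 : ℚ), (49811 / 312500 : ℚ)),
      ((875569 / 1250000 : ℚ), (327033 / 2500000 : ℚ)),
      ((4246977 / 5000000 : ℚ), (942791 / 10000000 : ℚ)),
      ((328221 / 312500 : ℚ), (138863 / 2500000 : ℚ)),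
      ((12506059 / 10000000 : ℚ), (35241 / 1250000 : ℚ))] : List (ℚ × ℚ)) := by
      decide +kernel
    rcases hd t ht with h | h
    · rw [h]
      push_cast
      rw [add_zero]
      refine P.slope_cone m (ρ := 1.13176) (c := 1.0583006) (by norm_num) ?_ (by norm_num) ?_ (by norm_num)
        (by norm_num)
      · rw [erSq_four]
        have := Real.pi_lt_d6
        have := Real.pi_gt_d6
        have := Real.pi_pos
        push_cast
        field_simp
        linarith
      · simp only [kap]; norm_num
    · obtain ⟨c, h1, h2⟩ := lines_four t.1 h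
      exact P.line_cone m c h1 h2

lemma false_six (P : Simp 6 5) : False := by
  refine P.false_of_fin (1543 / 1000 : ℚ) (by norm_num) segs_six rows_six check_six (fun m => ?_)
    fun m t ht => ?_
  · refine P.slope_cone m (ρ := 1.10446) (c := 1.0540926) (by norm_num) ?_ (by norm_num) ?_ (by norm_num)
      (by norm_num)
    · rw [erSq_five]
      have := Real.pi_lt_d6
      have := Real.pi_gt_d6
      have := Real.pi_pos
      push_cast
      field_simp
      linarith
    · simp only [kap]; norm_num
  · have hd : ∀ t ∈ segs_six, t.1 = (((1543 / 1000 : ℚ)), (0 : ℚ)) ∨ t.1 ∈ ([((0 : ℚ), (1994713 / 5000000 : ℚ)),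
      ((3000049 / 10000000 : ℚ), (529501 / 2000000 : ℚ)),
      ((62501 / 125000 : ℚ), (481491 / 2500000 : ℚ)),
      ((7000111 / 10000000 : ℚ), (1337431 / 10000000 : ℚ)),
      ((9000141 / 10000000 : ℚ), (87443 / 1000000 : ℚ)),
      ((11489541 / 10000000 : ℚ), (91643 / 2000000 : ℚ))] : List (ℚ × ℚ)) := by
      decide +kernel
    rcases hd t ht with h | h
    · rw [h]
      push_cast
      rw [add_zero]
      refine P.slope_cone m (ρ := 1.10446) (c := 1.0540926) (by norm_num) ?_ (by norm_num) ?_ (by norm_num)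
        (by norm_num)
      · rw [erSq_five]
        have := Real.pi_lt_d6
        have := Real.pi_gt_d6
        have := Real.pi_pos
        push_cast
        field_simp
        linarith
      · simp only [kap]; norm_num
    · obtain ⟨c, h1, h2⟩ := lines_five t.1 h
      exact P.line_cone m c h1 h2

lemma false_seven (P : Simp 7 7) : False := by
  refine P.false_of_fin (1571 / 1000 : ℚ) (by norm_num) segs_seven rows_seven check_seven (fun m => ?_)
    fun m t ht => ?_
  · refine P.slope_cone m (ρ := 1.07378) (c := 1.0497814) (by norm_num) ?_ (by norm_num) ?_ (by norm_num)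
      (by norm_num)
    · rw [erSq_seven]
      have := Real.pi_lt_d6
      have := Real.pi_gt_d6
      have := Real.pi_pos
      push_cast
      field_simp
      linarith
    · simp only [kap]; norm_num
  · have hd : ∀ t ∈ segs_seven, t.1 = (((1571 / 1000 : ℚ)), (0 : ℚ)) ∨ t.1 ∈ ([((0 : ℚ), (1994713 / 5000000 : ℚ)),
      ((2987283 / 10000000 : ℚ), (21271 / 80000 : ℚ)),
      ((4493689 / 10000000 : ℚ), (527377 / 2500000 : ℚ)),
      ((1200019 / 2000000 : ℚ), (327659 / 2000000 : ℚ)),
      ((1598323 / 2000000 : ℚ), (5643 / 50000 : ℚ)),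
      ((10008667 / 10000000 : ℚ), (732881 / 10000000 : ℚ))] : List (ℚ × ℚ)) := by
      decide +kernel
    rcases hd t ht with h | h
    · rw [h]
      push_cast
      rw [add_zero]
      refine P.slope_cone m (ρ := 1.07378) (c := 1.0497814) (by norm_num) ?_ (by norm_num) ?_ (by norm_num)
        (by norm_num)
      · rw [erSq_seven]
        have := Real.pi_lt_d6
        have := Real.pi_gt_d6
        have := Real.pi_pos
        push_cast
        field_simp
        linarith
      · simp only [kap]; norm_num
    · obtain ⟨c, h1, h2⟩ := lines_seven_a t.1 h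
      exact P.line_cone m c h1 h2

lemma false_eight (P : Simp 8 7) : False := by
  refine P.false_of_fin (1569 / 1000 : ℚ) (by norm_num) segs_eight rows_eight check_eight (fun m => ?_)
    fun m t ht => ?_
  · refine P.slope_cone m (ρ := 1.07378) (c := 1.0458251) (by norm_num) ?_ (by norm_num) ?_ (by norm_num)
      (by norm_num)
    · rw [erSq_seven]
      have := Real.pi_lt_d6
      have := Real.pi_gt_d6
      have := Real.pi_pos
      push_cast
      field_simp
      linarith
    · simp only [kap]; norm_num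
  · have hd : ∀ t ∈ segs_eight, t.1 = (((1569 / 1000 : ℚ)), (0 : ℚ)) ∨ t.1 ∈ ([((0 : ℚ), (1994713 / 5000000 : ℚ)),
      ((31317 / 78125 : ℚ), (1138867 / 5000000 : ℚ)),
      ((1200019 / 2000000 : ℚ), (327659 / 2000000 : ℚ)),
      ((1598323 / 2000000 : ℚ), (5643 / 50000 : ℚ))] : List (ℚ × ℚ)) := by
      decide +kernel
    rcases hd t ht with h | h
    · rw [h]
      push_cast
      rw [add_zero]
      refine P.slope_cone m (ρ := 1.07378) (c := 1.0458251) (by norm_num) ?_ (by norm_num) ?_ (by norm_num)
        (by norm_num)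
      · rw [erSq_seven]
        have := Real.pi_lt_d6
        have := Real.pi_gt_d6
        have := Real.pi_pos
        push_cast
        field_simp
        linarith
      · simp only [kap]; norm_num
    · obtain ⟨c, h1, h2⟩ := lines_seven_b t.1 h
      exact P.line_cone m c h1 h2

lemma half_line {k r : ℕ} [NeZero k] [NeZero r] (P : Simp k r) (m : Fin k) {l : ℚ × ℚ}
    (h : l ∈ ([((0 : ℚ), (997357 / 2500000 : ℚ)),
      ((1 / 5 : ℚ), (383619 / 1250000 : ℚ)),
      ((7 / 20 : ℚ), (620329 / 2500000 : ℚ)),
      ((9 / 20 : ℚ), (2136677 / 10000000 : ℚ)),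
      ((11 / 20 : ℚ), (914033 / 5000000 : ℚ)),
      ((13 / 20 : ℚ), (1553729 / 10000000 : ℚ)),
      ((39 / 50 : ℚ), (1245031 / 10000000 : ℚ)),
      ((9 / 10 : ℚ), (1004317 / 10000000 : ℚ)),
      ((21 / 20 : ℚ), (756807 / 10000000 : ℚ))] : List (ℚ × ℚ))) :
    ‖P.v m‖ ≤ (l.1 : ℝ) * pm (P.cell m) + (l.2 : ℝ) :=
  P.line_half m fun u hu => lines_half u hu l h

lemma false_nine (P : Simp 9 8) : False := by
  have hs : ∀ m, ‖P.v m‖ ≤ (((1649 / 1000 : ℚ) : ℚ) : ℝ) * pm (P.cell m) := fun m =>
    P.slope_plain m (c := 1.0423147) (by norm_num) (by simp only [kap]; norm_num) (by norm_num)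
      (by norm_num)
  refine P.false_of_fin (1649 / 1000 : ℚ) (by norm_num) segs_nine rows_nine check_nine hs fun m t ht => ?_
  have hd : ∀ t ∈ segs_nine, t.1 = (((1649 / 1000 : ℚ)), (0 : ℚ)) ∨ t.1 ∈ ([((0 : ℚ), (997357 / 2500000 : ℚ)),
      ((1 / 5 : ℚ), (383619 / 1250000 : ℚ)),
      ((7 / 20 : ℚ), (620329 / 2500000 : ℚ)),
      ((9 / 20 : ℚ), (2136677 / 10000000 : ℚ)),
      ((11 / 20 : ℚ), (914033 / 5000000 : ℚ)),
      ((13 / 20 : ℚ), (1553729 / 10000000 : ℚ)),
      ((39 / 50 : ℚ), (1245031 / 10000000 : ℚ)),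
      ((9 / 10 : ℚ), (1004317 / 10000000 : ℚ)),
      ((21 / 20 : ℚ), (756807 / 10000000 : ℚ))] : List (ℚ × ℚ)) := by
    decide +kernel
  rcases hd t ht with h | h
  · rw [h]; simpa using hs m
  · exact P.half_line m h

lemma false_large {k r : ℕ} [NeZero k] [NeZero r] (P : Simp k r) (hk : 10 ≤ k) : False := by
  have hkR : (10 : ℝ) ≤ k := by exact_mod_cast hk
  have hck : P.kap * (((k : ℝ) + 2) / k) ≤ (1.0392305 : ℝ) ^ 2 := by
    simp only [kap]
    rw [div_mul_div_comm, div_le_iff₀ (by positivity)]
    nlinarith [mul_nonneg (sub_nonneg.2 hkR) (sub_nonneg.2 hkR)]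
  have hs : ∀ m, ‖P.v m‖ ≤ (((8233 / 5000 : ℚ) : ℚ) : ℝ) * pm (P.cell m) := fun m =>
    P.slope_plain m (c := 1.0392305) (by norm_num) hck (by norm_num) (by norm_num)
  refine P.false_of_unif hk (8233 / 5000 : ℚ) (by norm_num) segs_many rows_many check_many hs
    fun m t ht => ?_
  have hd : ∀ t ∈ segs_many, t.1 = (((8233 / 5000 : ℚ)), (0 : ℚ)) ∨ t.1 ∈ ([((0 : ℚ), (997357 / 2500000 : ℚ)),
      ((1 / 5 : ℚ), (383619 / 1250000 : ℚ)),
      ((7 / 20 : ℚ), (620329 / 2500000 : ℚ)),
      ((9 / 20 : ℚ), (2136677 / 10000000 : ℚ)),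
      ((11 / 20 : ℚ), (914033 / 5000000 : ℚ)),
      ((13 / 20 : ℚ), (1553729 / 10000000 : ℚ)),
      ((39 / 50 : ℚ), (1245031 / 10000000 : ℚ)),
      ((9 / 10 : ℚ), (1004317 / 10000000 : ℚ)),
      ((21 / 20 : ℚ), (756807 / 10000000 : ℚ))] : List (ℚ × ℚ)) := by
    decide +kernel
  rcases hd t ht with h | h
  · rw [h]; simpa using hs m
  · exact P.half_line m h

end Simp

lemma boundAt_step {n r : ℕ} [NeZero n] (hn : 3 ≤ n) (H : BoundAt n r)
    (hF : ∀ P : Simp (n + 1) r, False) : BoundAt (n + 1) r := by
  by_contra h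
  obtain ⟨P⟩ := exists_maxi h
  exact hF ⟨P, fun a b hab => P.obtuse_of_bound H hab, by omega⟩

/-- The bound for any number of vectors in any dimension. -/
theorem boundAt_every : ∀ (k : ℕ) [NeZero k] (d : ℕ), BoundAt k d := by
  intro k
  induction k using Nat.strong_induction_on with
  | _ k ih =>
    intro hk d
    rcases Nat.lt_or_ge k 4 with h | h
    · obtain ⟨h1, h2, h3⟩ := boundAt_small d
      interval_cases k
      · exact absurd rfl (NeZero.ne 0)
      · exact h1
      · exact h2
      · exact h3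
    · obtain ⟨n, rfl⟩ : ∃ n, k = n + 1 := ⟨k - 1, by omega⟩
      have hn : NeZero n := ⟨by omega⟩
      have H : ∀ r, BoundAt n r := fun r => ih n (by omega) r
      by_cases h4 : n = 3
      · subst h4
        exact boundAt_all (r := 3) (by omega)
          (boundAt_step (by omega) (H 3) Simp.false_four) d
      by_cases h5 : n = 4
      · subst h5
        exact boundAt_all (r := 4) (by omega)
          (boundAt_step (by omega) (H 4) Simp.false_five) d
      by_cases h6 : n = 5
      · subst h6
        exact boundAt_all (r := 5) (by omega)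
          (boundAt_step (by omega) (H 5) Simp.false_six) d
      by_cases h7 : n = 6
      · subst h7
        exact boundAt_all (r := 7) (by omega)
          (boundAt_step (by omega) (H 7) Simp.false_seven) d
      by_cases h8 : n = 7
      · subst h8
        exact boundAt_all (r := 7) (by omega)
          (boundAt_step (by omega) (H 7) Simp.false_eight) d
      by_cases h9 : n = 8
      · subst h9
        exact boundAt_all (r := 8) (by omega)
          (boundAt_step (by omega) (H 8) Simp.false_nine) d
      exact boundAt_all (r := n) (by omega)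
        (boundAt_step (by omega) (H n) fun P => P.false_large (by omega)) d

end Vale.Agent.P226
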