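import Vale.Agent.P226.Quad
import Vale.Agent.P226.Cap
import Vale.Agent.P226.CertData

/-!
# Consequences for a maximiser with at least five cells
-/

open MeasureTheory Real Set
open scoped RealInnerProductSpace

namespace Vale.Agent.P226

lemma T0q_le : (T0q : ℝ) ≤ Tc := by
  unfold T0q Tc
  push_cast
  rw [le_div_iff₀ (by positivity)]
  nlinarith [Real.pi_lt_d20]

lemma erSq_four : Er 4 ^ 2 = 9 * π / 8 := by
  rw [Er, show Jn 4 = (2 + 1) * ((0 + 1) * Jn 0) by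
      rw [Jn_succ_succ 2, Jn_succ_succ 0]; norm_num,
    show Jn (4 - 1) = (1 + 1) * Jn 1 by rw [show (4 : ℕ) - 1 = 1 + 2 by rfl, Jn_succ_succ 1]; norm_num,
    Jn_one, Jn_zero, div_pow, mul_pow, mul_pow, Real.sq_sqrt (by positivity)]
  ring

lemma erSq_five : Er 5 ^ 2 = 128 / (9 * π) := by
  rw [Er, show Jn 5 = (3 + 1) * ((1 + 1) * Jn 1) by
      rw [Jn_succ_succ 3, Jn_succ_succ 1]; norm_num,
    show Jn (5 - 1) = (2 + 1) * ((0 + 1) * Jn 0) by
      rw [show (5 : ℕ) - 1 = 2 + 2 by rfl, Jn_succ_succ 2, Jn_succ_succ 0]; norm_num,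
    Jn_one, Jn_zero, div_pow, mul_pow, mul_pow, mul_pow, mul_pow,
    Real.sq_sqrt (by positivity)]
  field_simp; norm_num

lemma erSq_seven : Er 7 ^ 2 = 4608 / (225 * π) := by
  rw [Er, show Jn 7 = (5 + 1) * ((3 + 1) * ((1 + 1) * Jn 1)) by
      rw [Jn_succ_succ 5, Jn_succ_succ 3, Jn_succ_succ 1]; norm_num,
    show Jn (7 - 1) = (4 + 1) * ((2 + 1) * ((0 + 1) * Jn 0)) by
      rw [show (7 : ℕ) - 1 = 4 + 2 by rfl, Jn_succ_succ 4, Jn_succ_succ 2, Jn_succ_succ 0]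
      norm_num,
    Jn_one, Jn_zero, div_pow, mul_pow, mul_pow, mul_pow, mul_pow, mul_pow, mul_pow,
    Real.sq_sqrt (by positivity)]
  field_simp; norm_num

lemma slope_le {n p ρ c s : ℝ} (hn : 0 ≤ n) (hp : 0 < p) (hs : 0 < s) (hρ : 0 < ρ)
    (hs2 : 1 ≤ ρ * s ^ 2 - c * s) (h : ρ * n ^ 2 ≤ c * n * p + p ^ 2) : n ≤ s * p := by
  by_contra hlt
  rw [not_le] at hlt
  have h1 : 0 < ρ * s - c := by
    by_contra hh
    rw [not_lt] at hh
    nlinarith [mul_nonpos_of_nonneg_of_nonpos hs.le hh]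
  have h2 : (ρ * s - c) * p < ρ * n - c * p := by nlinarith [mul_lt_mul_of_pos_left hlt hρ]
  have h3 : (ρ * s - c) * p * (s * p) < (ρ * n - c * p) * n :=
    mul_lt_mul h2 hlt.le (by positivity) (le_trans (mul_pos h1 hp).le h2.le)
  have h4 : p ^ 2 ≤ (ρ * s - c) * p * (s * p) := by
    have := mul_le_mul_of_nonneg_right hs2 (sq_nonneg p)
    linarith
  linarith

namespace Simp

variable {k r : ℕ} [NeZero k] (P : Simp k r)

lemma slope_plain (m : Fin k) {c s : ℝ} (hc : 0 ≤ c) (hck : P.kap * (((k : ℝ) + 2) / k) ≤ c ^ 2)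
    (hs : 0 < s) (hs2 : 1 ≤ s ^ 2 - c * s) : ‖P.v m‖ ≤ s * pm (P.cell m) := by
  refine slope_le (ρ := 1) (norm_nonneg _) (P.pm_pos m) hs one_pos (by rwa [one_mul]) ?_
  exact P.slope_quadratic m (by rw [one_mul]; exact P.sq_moment_ge m) hc hck

lemma slope_cone [NeZero r] (m : Fin k) {ρ c s : ℝ} (hρ : 0 < ρ) (hρr : ρ * Er r ^ 2 ≤ r)
    (hc : 0 ≤ c) (hck : P.kap * (((k : ℝ) + 2) / k) ≤ c ^ 2) (hs : 0 < s)
    (hs2 : 1 ≤ ρ * s ^ 2 - c * s) : ‖P.v m‖ ≤ s * pm (P.cell m) := by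
  refine slope_le (norm_nonneg _) (P.pm_pos m) hs hρ hs2 (P.slope_quadratic m ?_ hc hck)
  have h := P.sq_moment_ge_cone m
  refine le_of_mul_le_mul_left ?_ (pow_pos (Er_pos r) 2)
  linarith [mul_le_mul_of_nonneg_right hρr (sq_nonneg (‖P.v m‖ ^ 2))]

lemma line_cone [NeZero r] (m : Fin k) {a b : ℝ} (c : ℝ) (ha : c * Er r ≤ a) (hb : Hc r c ≤ b) :
    ‖P.v m‖ ≤ a * pm (P.cell m) + b := by
  have h := cap_bound (P.measurableSet_cell m) (P.isCone_cell m) (P.v m) c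
  rw [P.nsq_eq_moment] at h
  refine le_of_mul_le_mul_left ?_ (P.norm_pos m)
  have h2 : c * Er r * pm (P.cell m) + Hc r c ≤ a * pm (P.cell m) + b := by
    linarith [mul_le_mul_of_nonneg_right ha (pm_nonneg (P.cell m))]
  linarith [mul_le_mul_of_nonneg_left h2 (norm_nonneg (P.v m))]

lemma line_half (m : Fin k) {a b : ℝ}
    (h : ∀ u : EE r, ‖u‖ = 1 → ∫ x, max (⟪u, x⟫ - a) 0 * dens x ≤ b) :
    ‖P.v m‖ ≤ a * pm (P.cell m) + b := by
  have hn := P.norm_pos m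
  set n := ‖P.v m‖ with hndef
  set w := n⁻¹ • P.v m with hw
  have hw1 : ‖w‖ = 1 := norm_smul_inv_norm (norm_pos_iff.1 hn)
  have h1 : ∫ x in P.cell m, ⟪w, x⟫ * dens x = n := by
    rw [P.moment, hw, real_inner_smul_left, real_inner_self_eq_norm_sq, ← hndef]
    field_simp
  have i1 : Integrable (fun x : EE r => max (⟪w, x⟫ - a) 0 * dens x) :=
    (((GB.inner w).sub (GB.const a)).max0).integrable' (by fun_prop)
  have i2 : Integrable (fun x : EE r => a * dens x) := integrable_dens.const_mul a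
  have h2 : ∫ x in P.cell m, ⟪w, x⟫ * dens x ≤
      ∫ x in P.cell m, (a * dens x + max (⟪w, x⟫ - a) 0 * dens x) := by
    refine setIntegral_mono ((GB.inner w).integrable' (by fun_prop)).integrableOn
      (i2.add i1).integrableOn fun x => ?_
    rw [← add_mul]
    exact mul_le_mul_of_nonneg_right (by linarith [le_max_left (⟪w, x⟫ - a) 0]) (dens_nonneg x)
  rw [integral_add i2.integrableOn i1.integrableOn, integral_const_mul, h1] at h2
  have h3 := setIntegral_le_integral (s := P.cell m) i1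
    (ae_of_all _ fun x => mul_nonneg (le_max_right _ _) (dens_nonneg x))
  change n ≤ a * pm (P.cell m) + _ at h2
  linarith [h w hw1]

lemma exists_pair [NeZero r] :
    ∀ m, ∃ a b, a ≠ b ∧ ∑ i, ‖P.v i‖ ^ 2 ≤
      (k : ℝ) * ((k : ℝ) - 1) * ‖P.v m‖ ^ 2 + (‖P.v a‖ ^ 2 + ‖P.v b‖ ^ 2) := by
  classical
  intro m
  obtain ⟨a, -, ha⟩ := Finset.exists_max_image Finset.univ (fun i => ‖P.v i‖ ^ 2)
    Finset.univ_nonempty
  obtain ⟨b, hb, hb'⟩ := Finset.exists_max_image (Finset.univ.erase a) (fun i => ‖P.v i‖ ^ 2)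
    (P.erase_nonempty a)
  refine ⟨a, b, (Finset.ne_of_mem_erase hb).symm, P.total_le m fun c d hcd => ?_⟩
  by_cases hc : c = a
  · have hd : d ≠ a := fun h => hcd (hc.trans h.symm)
    linarith [ha c (Finset.mem_univ c), hb' d (by simp [hd])]
  · linarith [ha d (Finset.mem_univ d), hb' c (by simp [hc])]

lemma false_of_fin [NeZero r] (s : ℚ) (hs : 0 < s) (segs : List ((ℚ × ℚ) × ℚ))
    (rows : List CertRow) (hcheck : chainOK (rowOKFin k s T0q segs) (s / k) 0 rows = true)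
    (hns : ∀ m, ‖P.v m‖ ≤ (s : ℝ) * pm (P.cell m))
    (hline : ∀ m, ∀ t ∈ segs, ‖P.v m‖ ≤ (t.1.1 : ℝ) * pm (P.cell m) + (t.1.2 : ℝ)) : False := by
  have h := cert_fin (by linarith [P.hk]) s T0q hs segs rows hcheck (fun i => ‖P.v i‖)
    (fun i => pm (P.cell i)) P.norm_pos P.sum_pm hns hline P.exists_pair
  have := P.big
  unfold ssq at this
  linarith [T0q_le]

lemma false_of_unif [NeZero r] (hk : 10 ≤ k) (s : ℚ) (hs : 0 < s) (segs : List ((ℚ × ℚ) × ℚ))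
    (rows : List CertRow) (hcheck : chainOK (rowOKUnif s T0q segs) s 0 rows = true)
    (hns : ∀ m, ‖P.v m‖ ≤ (s : ℝ) * pm (P.cell m))
    (hline : ∀ m, ∀ t ∈ segs, ‖P.v m‖ ≤ (t.1.1 : ℝ) * pm (P.cell m) + (t.1.2 : ℝ)) : False := by
  have h := cert_unif hk s T0q hs segs rows hcheck (fun i => ‖P.v i‖)
    (fun i => pm (P.cell i)) P.norm_pos P.sum_pm hns hline P.exists_pair
  have := P.big
  unfold ssq at this
  linarith [T0q_le]

end Simp
end Vale.Agent.P226
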