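import Vale.Agent.P226.Shear

/-!
# Consequences of the second variation
-/

open MeasureTheory Real Set
open scoped RealInnerProductSpace

namespace Vale.Agent.P226
namespace Simp

variable {k r : ℕ} [NeZero k] (P : Simp k r)

/-- The second moment functional. -/
noncomputable def Qf (m : Fin k) (y : EE r) : ℝ :=
  (∫ x in P.cell m, ⟪P.F m, x⟫ * ⟪y, x⟫ ^ 2 * dens x) - 2 * ⟪y, P.F m⟫ * ⟪y, P.v m⟫

lemma LD_sq (m : Fin k) (G y : EE r) :
    LD (P.cell m) G (fun x => ⟪y, x⟫ * ⟪y, x⟫)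
      (fun x => ⟪y, G⟫ * ⟪y, x⟫ + ⟪y, x⟫ * ⟪y, G⟫)
      = (∫ x in P.cell m, ⟪G, x⟫ * ⟪y, x⟫ ^ 2 * dens x) - 2 * ⟪y, G⟫ * ⟪y, P.v m⟫ := by
  unfold LD
  rw [← P.moment y m, ← integral_const_mul,
    ← integral_sub (((GB.inner G).mul ((GB.inner y).pow 2)).integrable' (by fun_prop)).restrict
      ((((GB.inner y)).integrable' (by fun_prop)).const_mul _).restrict]
  exact setIntegral_congr_fun (P.measurableSet_cell m) fun x _ => by ring

lemma Qf_le (m : Fin k) (y : EE r) : P.Qf m y ≤ P.kap * ‖y‖ ^ 2 := by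
  have h := P.shear m y
  rwa [P.LD_sq] at h

lemma integrable_Qf (m : Fin k) (y : EE r) :
    Integrable (fun x => ⟪P.F m, x⟫ * ⟪y, x⟫ ^ 2 * dens x) (volume.restrict (P.cell m)) :=
  (((GB.inner _).mul ((GB.inner y).pow 2)).integrable' (by fun_prop)).restrict

lemma sum_Qf_basis (m : Fin k) [NeZero r] {ι : Type*} [Fintype ι]
    (b : OrthonormalBasis ι ℝ (EE r)) : ∑ i, P.Qf m (b i) = ((r : ℝ) - 1) * P.kap := by
  simp only [Qf, Finset.sum_sub_distrib]
  rw [← integral_finsetSum _ (fun i _ => P.integrable_Qf m (b i))]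
  have e1 : ∀ x : EE r, ∑ i, ⟪P.F m, x⟫ * ⟪b i, x⟫ ^ 2 * dens x
      = ⟪P.F m, x⟫ * ‖x‖ ^ 2 * dens x := fun x => by
    rw [← Finset.sum_mul, ← Finset.mul_sum, b.sum_sq_inner_right]
  have e2 : ∑ i, 2 * ⟪b i, P.F m⟫ * ⟪b i, P.v m⟫ = 2 * P.kap := by
    simp only [mul_assoc, ← Finset.mul_sum]
    rw [← P.inner_F_vm m, ← b.sum_inner_mul_inner (P.F m) (P.v m)]
    congr 1
    exact Finset.sum_congr rfl fun i _ => by rw [real_inner_comm (b i) (P.F m)]
  simp only [e1, e2]
  have h := cone_homog_ratio (P.measurableSet_cell m) (P.isCone_cell m)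
    (fun x => ⟪P.F m, x⟫) 1 2 (fun t x _ => by simp [real_inner_smul_right])
  rw [P.moment, P.inner_F_vm] at h
  have hr : r - 1 + 1 = r := Nat.succ_pred_eq_of_pos (Nat.pos_of_ne_zero (NeZero.ne r))
  rw [hr, Jn_succ_succ] at h
  have : ∫ x in P.cell m, ⟪P.F m, x⟫ * ‖x‖ ^ 2 * dens x = ((r : ℝ) + 1) * P.kap := by
    have h' : (∫ x in P.cell m, ⟪P.F m, x⟫ * ‖x‖ ^ 2 * dens x) * Jn r
        = (((r : ℝ) + 1) * P.kap) * Jn r := by rw [h]; ring
    exact mul_right_cancel₀ (Jn_pos r).ne' h'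
  rw [this]; ring

/-- Edge bound for the weighted Laplacian. -/
lemma sum_sq_inner_le {Λ : ℝ} (hΛ : ∀ a b, a ≠ b → ‖P.v a‖ ^ 2 + ‖P.v b‖ ^ 2 ≤ Λ) (z : EE r) :
    ∑ a, ⟪P.v a, z⟫ ^ 2 ≤ Λ * ‖z‖ ^ 2 := by
  classical
  set c : Fin k → ℝ := fun a => ⟪P.v a, z⟫ with hc
  set s := ∑ a, c a • P.v a with hs
  set g : Fin k → ℝ := fun a => ⟪P.v a, s⟫ with hg
  set w : Fin k → Fin k → ℝ := fun a b => if a = b then 0 else -⟪P.v a, P.v b⟫ with hw
  have hw0 : ∀ a b, 0 ≤ w a b := by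
    intro a b
    by_cases h : a = b
    · simp [hw, h]
    · simp only [hw, if_neg h]; linarith [P.obtuse a b h]
  have hws : ∀ a b, w a b = w b a := by
    intro a b
    by_cases h : a = b
    · simp [hw, h]
    · simp only [hw, if_neg h, if_neg (Ne.symm h), real_inner_comm]
  have hwd : ∀ a, ∑ b, w a b = ‖P.v a‖ ^ 2 := by
    intro a
    have h1 : ∑ b, ⟪P.v a, P.v b⟫ = 0 := by rw [← inner_sum, P.sum_v, inner_zero_right]
    have h2 : ∀ b, w a b = -⟪P.v a, P.v b⟫ + (if a = b then ‖P.v a‖ ^ 2 else 0) := by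
      intro b
      by_cases h : a = b
      · subst h; simp [hw, real_inner_self_eq_norm_sq]
      · simp [hw, h]
    simp only [h2, Finset.sum_add_distrib, Finset.sum_neg_distrib, h1, Finset.sum_ite_eq,
      Finset.mem_univ, if_true, neg_zero, zero_add]
  have hga : ∀ a, g a = ∑ b, w a b * (c a - c b) := by
    intro a
    have h2 : ∀ b, w a b * (c a - c b) = -⟪P.v a, P.v b⟫ * (c a - c b) := by
      intro b
      by_cases h : a = b
      · subst h; simp
      · simp [hw, h]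
    simp only [hg, hs, inner_sum, real_inner_smul_right, h2, neg_mul, mul_sub,
      Finset.sum_neg_distrib, Finset.sum_sub_distrib, ← Finset.sum_mul]
    rw [← inner_sum, P.sum_v, inner_zero_right]
    simp [mul_comm]
  set f := ∑ a, c a * g a with hf
  have hfs : f = ‖s‖ ^ 2 := by
    rw [hf, ← real_inner_self_eq_norm_sq]
    symm
    calc ⟪s, s⟫ = ⟪∑ a, c a • P.v a, s⟫ := rfl
      _ = _ := by simp only [sum_inner, real_inner_smul_left, hg]
  have hf2 : 2 * f = ∑ a, ∑ b, w a b * (c a - c b) ^ 2 := by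
    have e1 : f = ∑ a, ∑ b, c a * (w a b * (c a - c b)) := by
      simp only [hf, hga, Finset.mul_sum]
    have e2 : f = ∑ a, ∑ b, c b * (w a b * (c b - c a)) := by
      rw [e1, Finset.sum_comm]
      exact Finset.sum_congr rfl fun a _ => Finset.sum_congr rfl fun b _ => by rw [hws]
    rw [two_mul]
    nth_rewrite 1 [e1]
    nth_rewrite 1 [e2]
    simp only [← Finset.sum_add_distrib]
    exact Finset.sum_congr rfl fun a _ => Finset.sum_congr rfl fun b _ => by ring
  have hgsq : ∀ a, g a ^ 2 ≤ ‖P.v a‖ ^ 2 * ∑ b, w a b * (c a - c b) ^ 2 := by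
    intro a
    rw [hga, ← hwd]
    exact Finset.sum_sq_le_sum_mul_sum_of_sq_eq_mul _ (fun b _ => hw0 a b)
      (fun b _ => mul_nonneg (hw0 a b) (sq_nonneg _)) (fun b _ => by ring)
  have hG : ∑ a, g a ^ 2 ≤ Λ * f := by
    refine (Finset.sum_le_sum fun a _ => hgsq a).trans ?_
    have e3 : ∑ a, ‖P.v a‖ ^ 2 * ∑ b, w a b * (c a - c b) ^ 2
        = ∑ a, ∑ b, ‖P.v b‖ ^ 2 * (w a b * (c a - c b) ^ 2) := by
      simp only [Finset.mul_sum]
      rw [Finset.sum_comm]
      exact Finset.sum_congr rfl fun a _ => Finset.sum_congr rfl fun b _ => by rw [hws]; ring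
    have e4 : ∑ a, ∑ b, (‖P.v a‖ ^ 2 + ‖P.v b‖ ^ 2) * (w a b * (c a - c b) ^ 2)
        ≤ Λ * (2 * f) := by
      rw [hf2, Finset.mul_sum]
      refine Finset.sum_le_sum fun a _ => ?_
      rw [Finset.mul_sum]
      refine Finset.sum_le_sum fun b _ => ?_
      by_cases h : a = b
      · subst h; simp
      · exact mul_le_mul_of_nonneg_right (hΛ a b h) (mul_nonneg (hw0 a b) (sq_nonneg _))
    simp only [add_mul, Finset.sum_add_distrib, ← Finset.mul_sum] at e4
    linarith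
  have hΛ0 : 0 ≤ Λ := by
    have : Nontrivial (Fin k) := Fin.nontrivial_iff_two_le.2 (by linarith [P.hk])
    obtain ⟨j, hj⟩ := exists_ne (0 : Fin k)
    linarith [hΛ j 0 hj, sq_nonneg ‖P.v j‖, sq_nonneg ‖P.v (0 : Fin k)‖]
  set C := ∑ a, c a ^ 2 with hC
  have hC0 : 0 ≤ C := Finset.sum_nonneg fun a _ => sq_nonneg _
  have hf0 : 0 ≤ f := by rw [hfs]; positivity
  have h1 : f ^ 2 ≤ C * (Λ * f) :=
    (Finset.sum_mul_sq_le_sq_mul_sq Finset.univ c g).trans (mul_le_mul_of_nonneg_left hG hC0)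
  have h2 : f ≤ C * Λ := by
    rcases hf0.lt_or_eq with hp | hp
    · refine le_of_mul_le_mul_right ?_ hp
      linarith
    · rw [← hp]; positivity
  have h3 : C ^ 2 ≤ f * ‖z‖ ^ 2 := by
    have : C = ⟪s, z⟫ := by
      simp only [hC, hs, sum_inner, real_inner_smul_left, hc, sq]
    rw [this, hfs, ← mul_pow, ← sq_abs]
    exact pow_le_pow_left₀ (abs_nonneg _) (abs_real_inner_le_norm _ _) 2
  rcases hC0.lt_or_eq with hp | hp
  · refine le_of_mul_le_mul_left ?_ hp
    nlinarith [mul_le_mul_of_nonneg_right h2 (sq_nonneg ‖z‖)]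
  · rw [← hp]; positivity

/-- The lower bound on the norm of a cell vector. -/
lemma total_le [NeZero r] (m : Fin k) {Λ : ℝ}
    (hΛ : ∀ a b, a ≠ b → ‖P.v a‖ ^ 2 + ‖P.v b‖ ^ 2 ≤ Λ) :
    ssq P.v ≤ (k : ℝ) * ((k : ℝ) - 1) * ‖P.v m‖ ^ 2 + Λ := by
  classical
  have hk4 : (4 : ℝ) ≤ k := by exact_mod_cast P.hk
  set K := (k : ℝ) * ((k : ℝ) - 1) with hK
  have hK0 : 0 ≤ K := mul_nonneg (by linarith) (by linarith)
  -- the strip inequality
  have hQ : ∑ l, P.Qf m (P.v l) ≤ K * P.Qf m (P.v m) := by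
    have hsum := Test.sum Finset.univ (fun l _ => (Test.inner (P.F m) (P.v l)).mul
      (Test.inner (P.F m) (P.v l)))
    have hψ := ((Test.const (P.F m) K).mul ((Test.inner (P.F m) (P.v m)).mul
      (Test.inner (P.F m) (P.v m)))).sub hsum
    have h := hψ.LD_nonneg (P.isClosed_cell m) (P.add_smul_mem_cell (P.inner_e_F_nonneg m))
      (κ := fun x => K * (2 * |⟪P.v m, x⟫| + 1))
      ((GB.const K).mul (((GB.const 2).mul ((GB.inner _).mono fun x => le_of_eq (abs_abs _))).add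
        (GB.const 1))) (by fun_prop) (fun x _ s hs hs1 hxs => by
        set g := ⟪P.v m, x⟫
        set L : Fin k → ℝ := fun l => g + s - ⟪P.v l, x⟫ with hL
        have hL0 : ∀ l, 0 ≤ L l := by
          intro l
          rcases eq_or_ne l m with rfl | hl
          · simp only [hL]; linarith
          · have := (P.mem_cell.1 hxs) l
            rw [inner_add_right, real_inner_smul_right, P.inner_e_F hl, e, inner_sub_left] at this
            simp only [hL]; linarith
        have hLs : ∑ l, L l = k * (g + s) := by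
          simp [hL, Finset.sum_sub_distrib, ← sum_inner, P.sum_v, mul_add]
        have h1 : ∑ l, ⟪P.v l, x⟫ * ⟪P.v l, x⟫ ≤ K * (g + s) ^ 2 := by
          have e1 : ∀ l, ⟪P.v l, x⟫ * ⟪P.v l, x⟫
              = (g + s) ^ 2 - 2 * (g + s) * L l + L l ^ 2 := fun l => by simp only [hL]; ring
          have h2 := Finset.sum_sq_le_sq_sum_of_nonneg (s := Finset.univ) (fun l _ => hL0 l)
          simp only [e1, Finset.sum_add_distrib, Finset.sum_sub_distrib, ← Finset.mul_sum, hLs,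
            Finset.sum_const, Finset.card_univ, Fintype.card_fin, nsmul_eq_mul] at h2 ⊢
          rw [hK]; linarith
        have h3 : (g + s) ^ 2 ≤ g ^ 2 + s * (2 * |g| + 1) := by
          nlinarith [le_abs_self g, mul_le_mul_of_nonneg_left (le_abs_self g) hs.le,
            mul_le_mul_of_nonneg_left hs1 hs.le]
        rw [abs_of_nonneg (mul_nonneg hK0 (by positivity))]
        linarith [mul_le_mul_of_nonneg_left h3 hK0])
    unfold LD at h
    have e : ∀ x : EE r, (⟪P.F m, x⟫ * (K * (⟪P.v m, x⟫ * ⟪P.v m, x⟫) -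
        ∑ l, ⟪P.v l, x⟫ * ⟪P.v l, x⟫) -
        ((0 * (⟪P.v m, x⟫ * ⟪P.v m, x⟫) + K * (⟪P.v m, P.F m⟫ * ⟪P.v m, x⟫ +
          ⟪P.v m, x⟫ * ⟪P.v m, P.F m⟫)) -
          ∑ l, (⟪P.v l, P.F m⟫ * ⟪P.v l, x⟫ + ⟪P.v l, x⟫ * ⟪P.v l, P.F m⟫))) * dens x
        = K * ((⟪P.F m, x⟫ * ⟪P.v m, x⟫ ^ 2 * dens x) -
            2 * ⟪P.v m, P.F m⟫ * (⟪P.v m, x⟫ * dens x))
          - ∑ l, ((⟪P.F m, x⟫ * ⟪P.v l, x⟫ ^ 2 * dens x) -
            2 * ⟪P.v l, P.F m⟫ * (⟪P.v l, x⟫ * dens x)) := by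
      intro x
      have h1 : ∑ l, ((⟪P.F m, x⟫ * ⟪P.v l, x⟫ ^ 2 * dens x) -
          2 * ⟪P.v l, P.F m⟫ * (⟪P.v l, x⟫ * dens x))
          = ⟪P.F m, x⟫ * dens x * ∑ l, ⟪P.v l, x⟫ * ⟪P.v l, x⟫ -
            dens x * ∑ l, (⟪P.v l, P.F m⟫ * ⟪P.v l, x⟫ + ⟪P.v l, x⟫ * ⟪P.v l, P.F m⟫) := by
        rw [Finset.mul_sum, Finset.mul_sum, ← Finset.sum_sub_distrib]
        exact Finset.sum_congr rfl fun l _ => by ring
      rw [h1]; ring
    simp only [e] at h
    have hi : ∀ y : EE r, Integrable (fun x => (⟪P.F m, x⟫ * ⟪y, x⟫ ^ 2 * dens x) -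
        2 * ⟪y, P.F m⟫ * (⟪y, x⟫ * dens x)) (volume.restrict (P.cell m)) := fun y =>
      (P.integrable_Qf m y).sub ((((GB.inner y)).integrable' (by fun_prop)).const_mul _).restrict
    have hQe : ∀ y : EE r, ∫ x in P.cell m, ((⟪P.F m, x⟫ * ⟪y, x⟫ ^ 2 * dens x) -
        2 * ⟪y, P.F m⟫ * (⟪y, x⟫ * dens x)) = P.Qf m y := fun y => by
      rw [integral_sub (P.integrable_Qf m y)
        ((((GB.inner y)).integrable' (by fun_prop)).const_mul _).restrict, integral_const_mul,
        P.moment, Qf]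
    rw [integral_sub ((hi _).const_mul K) (integrable_finsetSum _ fun l _ => hi _),
      integral_const_mul, integral_finsetSum _ (fun l _ => hi _)] at h
    simp only [hQe] at h
    linarith
  -- diagonalisation
  set S : EE r →ₗ[ℝ] EE r := ∑ l, ((innerSL ℝ (P.v l)).toLinearMap).smulRight (P.v l) with hS
  have hSap : ∀ x z, ⟪S x, z⟫ = ∑ l, ⟪P.v l, x⟫ * ⟪P.v l, z⟫ := by
    intro x z
    simp [hS, sum_inner, real_inner_smul_left]
  have hsym : S.IsSymmetric := by
    intro x z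
    rw [hSap, real_inner_comm (S z) x, hSap]
    exact Finset.sum_congr rfl fun l _ => mul_comm _ _
  have hn : Module.finrank ℝ (EE r) = r := finrank_euclideanSpace_fin
  set b := hsym.eigenvectorBasis hn
  set μ := hsym.eigenvalues hn
  have hexp : ∀ x z, ∑ l, ⟪P.v l, x⟫ * ⟪P.v l, z⟫ = ∑ i, μ i * (⟪b i, x⟫ * ⟪b i, z⟫) := by
    intro x z
    rw [← hSap, ← b.sum_inner_mul_inner (S x) z]
    refine Finset.sum_congr rfl fun i _ => ?_
    rw [hsym x (b i), hsym.apply_eigenvectorBasis hn i]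
    simp only [RCLike.ofReal_real_eq_id, id_eq, real_inner_smul_right]
    rw [real_inner_comm x (b i)]; ring
  have hμ : ∀ i, μ i ≤ Λ := by
    intro i
    have h := P.sum_sq_inner_le hΛ (b i)
    rw [b.orthonormal.norm_eq_one, one_pow, mul_one] at h
    refine le_of_eq_of_le ?_ h
    simp only [sq, hexp, b.inner_eq_ite, mul_ite, mul_one, mul_zero, Finset.sum_ite_eq',
      Finset.mem_univ, if_true]
  have hQsum : ∑ l, P.Qf m (P.v l) = ∑ i, μ i * P.Qf m (b i) := by
    simp only [Qf, mul_sub, Finset.sum_sub_distrib, ← integral_const_mul]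
    rw [← integral_finsetSum _ (fun l _ => P.integrable_Qf m _),
      ← integral_finsetSum _ (fun i _ => (P.integrable_Qf m _).const_mul _)]
    congr 1
    · congr 1; funext x
      simp only [← Finset.sum_mul, ← Finset.mul_sum, sq, hexp]
      rw [Finset.mul_sum, Finset.sum_mul]
      exact Finset.sum_congr rfl fun i _ => by ring
    · have := hexp (P.F m) (P.v m)
      calc ∑ l, 2 * ⟪P.v l, P.F m⟫ * ⟪P.v l, P.v m⟫
          = 2 * ∑ l, ⟪P.v l, P.F m⟫ * ⟪P.v l, P.v m⟫ := by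
            rw [Finset.mul_sum]; exact Finset.sum_congr rfl fun l _ => by ring
        _ = _ := by
            rw [this, Finset.mul_sum]; exact Finset.sum_congr rfl fun l _ => by ring
  have hF : ssq P.v = ∑ i, μ i := by
    have h1 : ∀ l, ‖P.v l‖ ^ 2 = ∑ i, ⟪b i, P.v l⟫ ^ 2 := fun l => (b.sum_sq_inner_right _).symm
    simp only [ssq, h1]
    rw [Finset.sum_comm]
    refine Finset.sum_congr rfl fun i _ => ?_
    have := hexp (b i) (b i)
    simp only [b.inner_eq_ite, mul_ite, mul_one, mul_zero, Finset.sum_ite_eq', Finset.mem_univ,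
      if_true] at this
    rw [← this]
    exact Finset.sum_congr rfl fun l _ => by rw [real_inner_comm, sq]
  have hΔ : ∀ i, 0 ≤ P.kap - P.Qf m (b i) := fun i => by
    have := P.Qf_le m (b i)
    rw [b.orthonormal.norm_eq_one, one_pow, mul_one] at this
    linarith
  have h1 : P.kap * ssq P.v - Λ * P.kap ≤ ∑ l, P.Qf m (P.v l) := by
    have h2 : ∑ i, μ i * (P.kap - P.Qf m (b i)) ≤ Λ * ∑ i, (P.kap - P.Qf m (b i)) := by
      rw [Finset.mul_sum]
      exact Finset.sum_le_sum fun i _ => mul_le_mul_of_nonneg_right (hμ i) (hΔ i)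
    simp only [mul_sub, Finset.sum_sub_distrib, ← Finset.sum_mul, ← Finset.mul_sum] at h2
    rw [Finset.sum_const, Finset.card_univ, Fintype.card_fin, nsmul_eq_mul, P.sum_Qf_basis m b,
      ← hF, ← hQsum] at h2
    linarith
  have h3 := mul_le_mul_of_nonneg_left (P.Qf_le m (P.v m)) hK0
  refine le_of_mul_le_mul_left ?_ P.kap_pos
  linarith

lemma pm_pos (m : Fin k) : 0 < pm (P.cell m) := by
  rcases (pm_nonneg (P.cell m)).lt_or_eq with h | h
  · exact h
  exfalso
  have hi : Integrable (fun x : EE r => dens x) (volume.restrict (P.cell m)) :=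
    integrable_dens.restrict
  have h0 : (fun x : EE r => dens x) =ᵐ[volume.restrict (P.cell m)] 0 :=
    (integral_eq_zero_iff_of_nonneg_ae (ae_of_all _ fun x => dens_nonneg x) hi).1 h.symm
  have h1 : ∫ x in P.cell m, ⟪P.v m, x⟫ * dens x = 0 := by
    refine integral_eq_zero_of_ae ?_
    filter_upwards [h0] with x hx
    simp [hx]
  rw [P.nsq_eq_moment] at h1
  linarith [pow_pos (P.norm_pos m) 2]

/-- Plain Cauchy–Schwarz for the second moment of a cell. -/
lemma sq_moment_ge (m : Fin k) :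
    (‖P.v m‖ ^ 2) ^ 2 ≤ pm (P.cell m) * ∫ x in P.cell m, ⟪P.v m, x⟫ ^ 2 * dens x := by
  rw [← P.nsq_eq_moment m]
  set g := fun x : EE r => ⟪P.v m, x⟫
  set p := pm (P.cell m) with hp
  set q := ∫ x in P.cell m, g x * dens x with hq
  have hpp : 0 < p := P.pm_pos m
  have h : 0 ≤ ∫ x in P.cell m, (g x - q / p) ^ 2 * dens x :=
    integral_nonneg fun x => mul_nonneg (sq_nonneg _) (dens_nonneg x)
  have i2 : Integrable (fun x => g x ^ 2 * dens x) (volume.restrict (P.cell m)) :=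
    (((GB.inner _).pow 2).integrable' (by fun_prop)).restrict
  have i1 : Integrable (fun x => g x * dens x) (volume.restrict (P.cell m)) :=
    ((GB.inner _).integrable' (by fun_prop)).restrict
  have i0 : Integrable (fun x : EE r => dens x) (volume.restrict (P.cell m)) :=
    integrable_dens.restrict
  have e : ∀ x, (g x - q / p) ^ 2 * dens x =
      g x ^ 2 * dens x - 2 * (q / p) * (g x * dens x) + (q / p) ^ 2 * dens x := fun x => by ring
  have i21 : Integrable (fun x => g x ^ 2 * dens x - 2 * (q / p) * (g x * dens x))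
      (volume.restrict (P.cell m)) := i2.sub (i1.const_mul _)
  simp only [e] at h
  rw [integral_add i21 (i0.const_mul _), integral_sub i2 (i1.const_mul _), integral_const_mul,
    integral_const_mul, ← hq] at h
  change 0 ≤ _ + (q / p) ^ 2 * p at h
  have : (q / p) * q * 2 - (q / p) ^ 2 * p = q ^ 2 / p := by field_simp; ring
  have h4 : q ^ 2 / p ≤ ∫ x in P.cell m, g x ^ 2 * dens x := by linarith
  rw [div_le_iff₀ hpp] at h4
  linarith

/-- Sharper bound using the cone structure. -/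
lemma sq_moment_ge_cone [NeZero r] (m : Fin k) :
    (r : ℝ) * (‖P.v m‖ ^ 2) ^ 2 ≤
      Er r ^ 2 * (pm (P.cell m) * ∫ x in P.cell m, ⟪P.v m, x⟫ ^ 2 * dens x) := by
  set g := fun x : EE r => ⟪P.v m, x⟫ with hg
  set h0 := fun x : EE r => g x / ‖x‖ with hh0
  have hm : Measurable h0 := by simp only [hh0, hg]; fun_prop
  have hb : ∀ x, |h0 x| ≤ ‖P.v m‖ := by
    intro x
    rw [hh0, abs_div, abs_norm]
    exact div_le_of_le_mul₀ (norm_nonneg _) (norm_nonneg _) (abs_real_inner_le_norm _ _)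
  have hgb : GB h0 := (GB.const ‖P.v m‖).mono fun x => (hb x).trans (le_abs_self _)
  have hgx : ∀ x, h0 x * ‖x‖ = g x := by
    intro x
    rcases eq_or_ne x 0 with rfl | hx
    · simp [hg]
    · exact div_mul_cancel₀ _ (norm_ne_zero_iff.2 hx)
  have hom : ∀ (t : ℝ) (x : EE r), 0 < t → h0 (t • x) = t ^ 0 * h0 x := by
    intro t x ht
    simp only [hh0, hg, real_inner_smul_right, norm_smul, Real.norm_eq_abs, abs_of_pos ht,
      pow_zero, one_mul]
    rw [mul_div_mul_left _ _ ht.ne']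
  have hr : r - 1 + 1 = r := Nat.succ_pred_eq_of_pos (Nat.pos_of_ne_zero (NeZero.ne r))
  have r1 := cone_homog_ratio (P.measurableSet_cell m) (P.isCone_cell m) h0 0 1 hom
  have r2 := cone_homog_ratio (P.measurableSet_cell m) (P.isCone_cell m) (fun x => h0 x ^ 2) 0 2
    (fun t x ht => by rw [hom t x ht]; ring)
  simp only [pow_one, add_zero, hgx, hr] at r1
  simp only [add_zero, ← mul_pow, hgx] at r2
  rw [hg, P.nsq_eq_moment] at r1
  have hJ : Jn (r - 1 + 2) = (r : ℝ) * Jn (r - 1) := by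
    rw [Jn_succ_succ]; congr 1
    rw [Nat.cast_sub (Nat.one_le_iff_ne_zero.2 (NeZero.ne r))]; simp
  rw [hJ] at r2
  set p := pm (P.cell m) with hp
  set U := ∫ x in P.cell m, h0 x * dens x with hU
  set W := ∫ x in P.cell m, h0 x ^ 2 * dens x with hW
  have hW2 : (∫ x in P.cell m, g x ^ 2 * dens x) = (r : ℝ) * W := by
    refine mul_right_cancel₀ (Jn_pos (r - 1)).ne' ?_
    rw [r2]; ring
  have hU1 : ‖P.v m‖ ^ 2 = Er r * U := by
    rw [Er, div_mul_eq_mul_div, eq_div_iff (Jn_pos _).ne']; exact r1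
  have hCS : U ^ 2 ≤ p * W := by
    have hpp : 0 < p := P.pm_pos m
    have i2 : Integrable (fun x => h0 x ^ 2 * dens x) (volume.restrict (P.cell m)) :=
      ((hgb.pow 2).integrable' (hm.pow_const 2)).restrict
    have i1 : Integrable (fun x => h0 x * dens x) (volume.restrict (P.cell m)) :=
      (hgb.integrable' hm).restrict
    have i0 : Integrable (fun x : EE r => dens x) (volume.restrict (P.cell m)) :=
      integrable_dens.restrict
    have h : 0 ≤ ∫ x in P.cell m, (h0 x - U / p) ^ 2 * dens x :=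
      integral_nonneg fun x => mul_nonneg (sq_nonneg _) (dens_nonneg x)
    have e : ∀ x, (h0 x - U / p) ^ 2 * dens x =
        h0 x ^ 2 * dens x - 2 * (U / p) * (h0 x * dens x) + (U / p) ^ 2 * dens x :=
      fun x => by ring
    have i21 : Integrable (fun x => h0 x ^ 2 * dens x - 2 * (U / p) * (h0 x * dens x))
        (volume.restrict (P.cell m)) := i2.sub (i1.const_mul _)
    simp only [e] at h
    rw [integral_add i21 (i0.const_mul _), integral_sub i2 (i1.const_mul _), integral_const_mul,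
      integral_const_mul, ← hU, ← hW] at h
    change 0 ≤ _ + (U / p) ^ 2 * p at h
    have : (U / p) * U * 2 - (U / p) ^ 2 * p = U ^ 2 / p := by field_simp; ring
    have h4 : U ^ 2 / p ≤ W := by linarith
    rw [div_le_iff₀ hpp] at h4
    linarith
  simp only [hg] at hW2
  rw [hW2, hU1]
  have := mul_le_mul_of_nonneg_left hCS (mul_nonneg (sq_nonneg (Er r)) (Nat.cast_nonneg (α := ℝ) r))
  linarith

lemma w_bound (m : Fin k) :
    ∑ j, ⟪P.e m j, P.v m⟫ ^ 2 ≤ ((k : ℝ) + 2) * (‖P.v m‖ ^ 2) ^ 2 ∧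
      ∑ j, ⟪P.e m j, P.v m⟫ = (k : ℝ) * ‖P.v m‖ ^ 2 := by
  classical
  have hs : ∑ j, ⟪P.e m j, P.v m⟫ = (k : ℝ) * ‖P.v m‖ ^ 2 := by
    rw [← sum_inner, P.sum_e, real_inner_smul_left, real_inner_self_eq_norm_sq]
  refine ⟨?_, hs⟩
  set n := ‖P.v m‖ ^ 2
  set t : Fin k → ℝ := fun j => if j = m then 0 else -⟪P.v j, P.v m⟫ with ht
  have hw : ∀ j, ⟪P.e m j, P.v m⟫ = if j = m then 0 else n + t j := by
    intro j
    by_cases h : j = m
    · subst h; simp [P.e_self]
    · simp only [e, inner_sub_left, real_inner_self_eq_norm_sq, ht, if_neg h]; ring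
  have ht0 : ∀ j, 0 ≤ t j := by
    intro j
    by_cases h : j = m
    · simp [ht, h]
    · simp only [ht, if_neg h]; linarith [P.obtuse j m h]
  have hts : ∑ j, t j = n := by
    have h1 : ∑ j, ⟪P.v j, P.v m⟫ = 0 := by rw [← sum_inner, P.sum_v, inner_zero_left]
    have h2 : ∀ j, t j = -⟪P.v j, P.v m⟫ + (if j = m then n else 0) := by
      intro j
      by_cases h : j = m
      · subst h; simp [ht, n, real_inner_self_eq_norm_sq]
      · simp [ht, h]
    simp [h2, Finset.sum_add_distrib, Finset.sum_neg_distrib, h1]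
  have h2 := Finset.sum_sq_le_sq_sum_of_nonneg (s := Finset.univ) (fun j _ => ht0 j)
  rw [hts] at h2
  have e1 : ∀ j, ⟪P.e m j, P.v m⟫ ^ 2 = n ^ 2 + 2 * n * t j + t j ^ 2
      - (if j = m then n ^ 2 else 0) := by
    intro j
    rw [hw]
    by_cases h : j = m
    · subst h; simp [ht]
    · simp only [if_neg h]; ring
  simp only [e1, Finset.sum_sub_distrib, Finset.sum_add_distrib, ← Finset.mul_sum, hts,
    Finset.sum_const, Finset.card_univ, Fintype.card_fin, nsmul_eq_mul, Finset.sum_ite_eq',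
    Finset.mem_univ, if_true]
  linarith

/-- The variance inequality. -/
lemma variance_le (m : Fin k) :
    ((∫ x in P.cell m, ⟪P.v m, x⟫ ^ 2 * dens x) - ‖P.v m‖ ^ 2 * pm (P.cell m)) ^ 2
      ≤ P.kap * ‖P.v m‖ ^ 2 * ((((k : ℝ) + 2) / k) * (‖P.v m‖ ^ 2) ^ 2) := by
  classical
  set A := P.cell m with hA
  set w : Fin k → ℝ := fun j => ⟪P.e m j, P.v m⟫ with hw
  set I := ∫ x in A, ⟪P.v m, x⟫ ^ 2 * dens x with hI
  set n := ‖P.v m‖ ^ 2 with hn
  set p := pm A with hp
  have hk4 : (4 : ℝ) ≤ k := by exact_mod_cast P.hk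
  have hk0 : (k : ℝ) ≠ 0 := by positivity
  have hcast : ∀ j, j ≠ m → ∫ x in A, ⟪P.G m j, x⟫ * dens x = (k : ℝ)⁻¹ := fun j hj => by
    rw [hA, P.moment, P.inner_G_vm hj]
  set B : Fin k → ℝ := fun j => (∫ x in A, ⟪P.G m j, x⟫ * ⟪P.v m, x⟫ ^ 2 * dens x)
    - 2 * ⟪P.v m, P.G m j⟫ * n with hB
  set J : Fin k → ℝ := fun j => (∫ x in A, ⟪P.G m j, x⟫ * ⟪P.v m, x⟫ * dens x)
    - ⟪P.v m, P.G m j⟫ * p with hJ
  have hstep : ∀ (t : ℝ) j, 0 ≤ B j - 2 * t * (w j * J j) +
      t ^ 2 * ((k : ℝ)⁻¹ * w j ^ 2) := by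
    intro t j
    rcases eq_or_ne j m with rfl | hj
    · simp [hB, hJ, hw, P.G_self, P.e_self]
    have hlin := (Test.inner (P.G m j) (P.v m)).sub (Test.const (P.G m j) (t * w j))
    have h := P.LD_G_nonneg (hlin.mul hlin) (fun x => mul_self_nonneg _)
    have i2 : Integrable (fun x => ⟪P.G m j, x⟫ * ⟪P.v m, x⟫ ^ 2 * dens x)
        (volume.restrict A) :=
      (((GB.inner _).mul ((GB.inner _).pow 2)).integrable' (by fun_prop)).restrict
    have ig : Integrable (fun x => ⟪P.v m, x⟫ * dens x) (volume.restrict A) :=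
      ((GB.inner _).integrable' (by fun_prop)).restrict
    have i1 : Integrable (fun x => ⟪P.G m j, x⟫ * ⟪P.v m, x⟫ * dens x) (volume.restrict A) :=
      (((GB.inner _).mul (GB.inner _)).integrable' (by fun_prop)).restrict
    have iG : Integrable (fun x => ⟪P.G m j, x⟫ * dens x) (volume.restrict A) :=
      ((GB.inner _).integrable' (by fun_prop)).restrict
    have i0 : Integrable (fun x : EE r => dens x) (volume.restrict A) := integrable_dens.restrict
    set γ := ⟪P.v m, P.G m j⟫ with hγ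
    have e : LD (P.cell m) (P.G m j)
        (fun x => (⟪P.v m, x⟫ - t * w j) * (⟪P.v m, x⟫ - t * w j))
        (fun x => (γ - 0) * (⟪P.v m, x⟫ - t * w j) + (⟪P.v m, x⟫ - t * w j) * (γ - 0))
        = ∫ x in A, (((⟪P.G m j, x⟫ * ⟪P.v m, x⟫ ^ 2 * dens x
            - 2 * γ * (⟪P.v m, x⟫ * dens x))
          - 2 * t * w j * (⟪P.G m j, x⟫ * ⟪P.v m, x⟫ * dens x - γ * dens x))
          + (t * w j) ^ 2 * (⟪P.G m j, x⟫ * dens x)) := by
      unfold LD
      exact setIntegral_congr_fun (P.measurableSet_cell m) fun x _ => by ring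
    rw [e] at h
    have j1 : Integrable (fun x => ⟪P.G m j, x⟫ * ⟪P.v m, x⟫ ^ 2 * dens x
        - 2 * γ * (⟪P.v m, x⟫ * dens x)) (volume.restrict A) := i2.sub (ig.const_mul _)
    have j2 : Integrable (fun x => ⟪P.G m j, x⟫ * ⟪P.v m, x⟫ * dens x - γ * dens x)
        (volume.restrict A) := i1.sub (i0.const_mul _)
    have j3 : Integrable (fun x => (⟪P.G m j, x⟫ * ⟪P.v m, x⟫ ^ 2 * dens x
        - 2 * γ * (⟪P.v m, x⟫ * dens x))
        - 2 * t * w j * (⟪P.G m j, x⟫ * ⟪P.v m, x⟫ * dens x - γ * dens x))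
        (volume.restrict A) := j1.sub (j2.const_mul _)
    rw [integral_add j3 (iG.const_mul _), integral_sub j1 (j2.const_mul _),
      integral_sub i2 (ig.const_mul _)] at h
    simp only [integral_const_mul] at h
    rw [integral_sub i1 (i0.const_mul _), integral_const_mul, hcast j hj] at h
    rw [P.nsq_eq_moment] at h
    simp only [hB, hJ, ← hγ]
    change 0 ≤ _ - _ * (_ - γ * p) + _ at h
    linarith
  have hBsum : ∑ j, B j = P.Qf m (P.v m) := by
    simp only [hB, Finset.sum_sub_distrib, Qf]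
    rw [← integral_finsetSum _ (fun j _ =>
      (((GB.inner _).mul ((GB.inner _).pow 2)).integrable' (by fun_prop)).restrict)]
    congr 1
    · simp only [← Finset.sum_mul, ← sum_inner]; rfl
    · simp only [← Finset.sum_mul, ← Finset.mul_sum, ← inner_sum, hn, real_inner_self_eq_norm_sq]
      rfl
  have hJsum : ∑ j, w j * J j = I - n * p := by
    have hwG : ∀ x, ∑ j, w j * ⟪P.G m j, x⟫ = ⟪P.v m, x⟫ := fun x => by
      simp only [← real_inner_smul_left, ← sum_inner, hw, P.sum_w_G]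
    simp only [hJ, mul_sub, Finset.sum_sub_distrib, ← integral_const_mul]
    rw [← integral_finsetSum _ (fun j _ =>
      ((((GB.inner _).mul (GB.inner _)).integrable' (by fun_prop)).restrict).const_mul _)]
    congr 1
    · rw [hI]; congr 1; funext x
      simp only [← mul_assoc, ← Finset.sum_mul, hwG]; ring
    · simp only [← mul_assoc, ← Finset.sum_mul]
      congr 1
      rw [hn, ← real_inner_self_eq_norm_sq, ← hwG (P.v m)]
      exact Finset.sum_congr rfl fun j _ => by rw [real_inner_comm (P.G m j)]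
  set W := (k : ℝ)⁻¹ * ∑ j, w j ^ 2 with hW
  have hq : ∀ t : ℝ, 0 ≤ W * (t * t) + (-2 * (I - n * p)) * t + P.Qf m (P.v m) := by
    intro t
    have h := Finset.sum_nonneg (s := Finset.univ) fun j _ => hstep t j
    simp only [Finset.sum_add_distrib, Finset.sum_sub_distrib, ← Finset.mul_sum, hBsum,
      hJsum] at h
    rw [hW]; linarith
  have hd := discrim_le_zero hq
  rw [discrim] at hd
  have hW0 : 0 ≤ W := mul_nonneg (by positivity) (Finset.sum_nonneg fun j _ => sq_nonneg _)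
  have hW1 : W ≤ (((k : ℝ) + 2) / k) * n ^ 2 := by
    rw [hW, inv_mul_le_iff₀ (by positivity)]
    refine (P.w_bound m).1.trans (le_of_eq ?_)
    rw [hn]; field_simp
  have hQ := mul_le_mul_of_nonneg_right (P.Qf_le m (P.v m)) hW0
  have hW2 := mul_le_mul_of_nonneg_left hW1
    (mul_nonneg P.kap_pos.le (sq_nonneg ‖P.v m‖))
  rw [hn] at *
  linarith

/-- The slope bound: any lower constant `ρ` for the second moment gives a quadratic inequality. -/
lemma slope_quadratic (m : Fin k) {ρ c : ℝ}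
    (hρ : ρ * (‖P.v m‖ ^ 2) ^ 2 ≤ pm (P.cell m) * ∫ x in P.cell m, ⟪P.v m, x⟫ ^ 2 * dens x)
    (hc : 0 ≤ c) (hck : P.kap * (((k : ℝ) + 2) / k) ≤ c ^ 2) :
    ρ * ‖P.v m‖ ^ 2 ≤ c * ‖P.v m‖ * pm (P.cell m) + pm (P.cell m) ^ 2 := by
  set n := ‖P.v m‖
  set p := pm (P.cell m)
  set I := ∫ x in P.cell m, ⟪P.v m, x⟫ ^ 2 * dens x
  have hn : 0 < n := P.norm_pos m
  have hp : 0 < p := P.pm_pos m
  have h := P.variance_le m
  have h2 : (I - n ^ 2 * p) ^ 2 ≤ (c * n ^ 3) ^ 2 := by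
    refine h.trans ?_
    have := mul_le_mul_of_nonneg_left hck (by positivity : (0 : ℝ) ≤ n ^ 6)
    linarith
  have h3 : I - n ^ 2 * p ≤ c * n ^ 3 :=
    (le_abs_self _).trans (abs_le_of_sq_le_sq h2 (by positivity))
  refine le_of_mul_le_mul_left ?_ (pow_pos hn 2)
  linarith [mul_le_mul_of_nonneg_left h3 hp.le]

end Simp
end Vale.Agent.P226
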