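import Vale.Agent.P226.Basic

/-!
# Radial factorisation of Gaussian integrals of homogeneous functions
-/

open MeasureTheory Real Set
open scoped RealInnerProductSpace

namespace Vale.Agent.P226

/-- Radial moments. -/
noncomputable def Jn (n : ℕ) : ℝ := ∫ t in Ioi (0 : ℝ), t ^ n * Real.exp (-t ^ 2 / 2)

lemma Jn_eq (n : ℕ) : Jn n = (2 : ℝ) ^ (((n : ℝ) + 1) / 2) * (1 / 2) *
    Real.Gamma (((n : ℝ) + 1) / 2) := by
  have h := integral_rpow_mul_exp_neg_mul_rpow (p := (2 : ℝ)) (q := (n : ℝ)) (b := (1 : ℝ) / 2)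
    (by norm_num) (by linarith [Nat.cast_nonneg (α := ℝ) n]) (by norm_num)
  have e : Jn n = ∫ x in Ioi (0 : ℝ), x ^ (n : ℝ) * Real.exp (-(1 / 2) * x ^ (2 : ℝ)) := by
    refine setIntegral_congr_fun measurableSet_Ioi fun x _ => ?_
    simp only [Real.rpow_natCast, show (2 : ℝ) = ((2 : ℕ) : ℝ) by norm_num]
    ring_nf
  rw [e, h, show ((1 : ℝ) / 2) = (2 : ℝ)⁻¹ by norm_num, Real.inv_rpow (by norm_num),
    ← Real.rpow_neg (by norm_num)]
  congr 3; ring

lemma Jn_pos (n : ℕ) : 0 < Jn n := by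
  rw [Jn_eq]
  have : 0 < Real.Gamma (((n : ℝ) + 1) / 2) := Real.Gamma_pos_of_pos (by positivity)
  positivity

lemma Jn_succ_succ (n : ℕ) : Jn (n + 2) = (n + 1) * Jn n := by
  rw [Jn_eq, Jn_eq]
  have h1 : (((n + 2 : ℕ) : ℝ) + 1) / 2 = ((n : ℝ) + 1) / 2 + 1 := by push_cast; ring
  rw [h1, Real.Gamma_add_one (by positivity), Real.rpow_add (by norm_num), Real.rpow_one]
  ring

lemma Jn_zero : Jn 0 = Real.sqrt (π / 2) := by
  rw [Jn_eq]
  norm_num
  rw [Real.Gamma_one_half_eq, ← Real.sqrt_eq_rpow]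
  have h2 : (0 : ℝ) < √2 := by positivity
  field_simp
  rw [Real.sq_sqrt (by norm_num)]

lemma Jn_one : Jn 1 = 1 := by
  rw [Jn_eq]; norm_num

variable {r : ℕ}

/-- Radial factorisation. -/
lemma integral_homog [NeZero r] (h : EE r → ℝ) (q : ℕ)
    (hhom : ∀ (t : ℝ) (x : EE r), 0 < t → h (t • x) = t ^ q * h x) (φ : ℝ → ℝ) :
    ∫ x : EE r, h x * φ ‖x‖ =
      (∫ θ : Metric.sphere (0 : EE r) 1, h θ.1 ∂(volume : Measure (EE r)).toSphere) *
        ∫ t in Ioi (0 : ℝ), t ^ (r - 1 + q) * φ t := by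
  have hd : Module.finrank ℝ (EE r) = r := finrank_euclideanSpace_fin
  have hnt : Nontrivial (EE r) := by
    apply Module.nontrivial_of_finrank_pos (R := ℝ)
    rw [hd]; exact Nat.pos_of_ne_zero (NeZero.ne r)
  set g : Metric.sphere (0 : EE r) 1 × Ioi (0 : ℝ) → ℝ :=
    fun p => h p.1.1 * ((p.2.1) ^ q * φ p.2.1) with hg
  calc ∫ x : EE r, h x * φ ‖x‖
      = ∫ x : ({(0 : EE r)}ᶜ : Set (EE r)), h x.1 * φ ‖x.1‖ ∂((volume : Measure (EE r)).comap (↑)) := by
        rw [integral_subtype_comap (measurableSet_singleton _).compl fun x => h x * φ ‖x‖,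
          Measure.restrict_congr_set (t := univ), Measure.restrict_univ]
        rw [ae_eq_univ, compl_compl]; exact measure_singleton _
    _ = ∫ p, g p ∂((volume : Measure (EE r)).toSphere.prod
          (Measure.volumeIoiPow (Module.finrank ℝ (EE r) - 1))) := by
        rw [← (volume : Measure (EE r)).measurePreserving_homeomorphUnitSphereProd.integral_comp
          (Homeomorph.measurableEmbedding _) g]
        congr 1; funext x
        have hx : 0 < ‖x.1‖ := norm_pos_iff.2 x.2
        simp only [hg, homeomorphUnitSphereProd_apply_fst_coe, homeomorphUnitSphereProd_apply_snd_coe]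
        rw [hhom _ _ (inv_pos.2 hx)]
        rw [inv_pow]
        field_simp
    _ = (∫ θ : Metric.sphere (0 : EE r) 1, h θ.1 ∂(volume : Measure (EE r)).toSphere) *
          ∫ t : Ioi (0 : ℝ), t.1 ^ q * φ t.1
            ∂(Measure.volumeIoiPow (Module.finrank ℝ (EE r) - 1)) := by
        rw [← integral_prod_mul (fun θ : Metric.sphere (0 : EE r) 1 => h θ.1)
          (fun t : Ioi (0 : ℝ) => t.1 ^ q * φ t.1)]
    _ = _ := by
        congr 1
        rw [hd]
        simp only [Measure.volumeIoiPow, ENNReal.ofReal]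
        rw [integral_withDensity_eq_integral_smul
          ((measurable_subtype_coe.pow_const _).real_toNNReal)]
        rw [integral_subtype_comap measurableSet_Ioi
          fun a => Real.toNNReal (a ^ (r - 1)) • (a ^ q * φ a)]
        refine setIntegral_congr_fun measurableSet_Ioi fun x hx => ?_
        rw [NNReal.smul_def, Real.coe_toNNReal _ (pow_nonneg (le_of_lt hx) _), smul_eq_mul,
          pow_add]
        ring

/-- Moments of homogeneous functions differ by ratios of radial moments. -/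
lemma homog_ratio [NeZero r] (h : EE r → ℝ) (q j : ℕ)
    (hhom : ∀ (t : ℝ) (x : EE r), 0 < t → h (t • x) = t ^ q * h x) :
    (∫ x, h x * ‖x‖ ^ j * dens x) * Jn (r - 1 + q) =
      Jn (r - 1 + q + j) * ∫ x, h x * dens x := by
  set c := ((2 * π) ^ ((r : ℝ) / 2))⁻¹
  have e1 : ∫ x : EE r, h x * ‖x‖ ^ j * dens x
      = c * ∫ x : EE r, h x * (fun t => t ^ j * Real.exp (-t ^ 2 / 2)) ‖x‖ := by
    rw [← integral_const_mul]; congr 1; funext x; simp only [dens, c]; ring
  have e2 : ∫ x : EE r, h x * dens x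
      = c * ∫ x : EE r, h x * (fun t => Real.exp (-t ^ 2 / 2)) ‖x‖ := by
    rw [← integral_const_mul]; congr 1; funext x; simp only [dens, c]; ring
  rw [e1, e2, integral_homog h q hhom (fun t => t ^ j * Real.exp (-t ^ 2 / 2)),
    integral_homog h q hhom (fun t => Real.exp (-t ^ 2 / 2))]
  have e3 : ∫ t in Ioi (0 : ℝ), t ^ (r - 1 + q) * (t ^ j * Real.exp (-t ^ 2 / 2))
      = Jn (r - 1 + q + j) := by
    refine setIntegral_congr_fun measurableSet_Ioi fun x _ => ?_
    rw [pow_add]; ring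
  rw [e3]; unfold Jn; ring

/-- A cone: invariant under positive scalings. -/
def IsCone (A : Set (EE r)) : Prop := ∀ (t : ℝ) (x : EE r), 0 < t → (t • x ∈ A ↔ x ∈ A)

/-- Gaussian measure of a set. -/
noncomputable def pm (A : Set (EE r)) : ℝ := ∫ x in A, dens x

lemma pm_nonneg (A : Set (EE r)) : 0 ≤ pm A :=
  setIntegral_nonneg_of_ae_restrict (ae_of_all _ fun x => dens_nonneg x)

lemma cone_homog_ratio [NeZero r] {A : Set (EE r)} (hA : MeasurableSet A) (hc : IsCone A)
    (h : EE r → ℝ) (q j : ℕ)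
    (hhom : ∀ (t : ℝ) (x : EE r), 0 < t → h (t • x) = t ^ q * h x) :
    (∫ x in A, h x * ‖x‖ ^ j * dens x) * Jn (r - 1 + q) =
      Jn (r - 1 + q + j) * ∫ x in A, h x * dens x := by
  have := homog_ratio (A.indicator h) q j (fun t x ht => by
    by_cases hx : x ∈ A
    · rw [indicator_of_mem ((hc t x ht).2 hx), indicator_of_mem hx, hhom t x ht]
    · rw [indicator_of_notMem (fun hh => hx ((hc t x ht).1 hh)), indicator_of_notMem hx, mul_zero])
  rw [← integral_indicator hA, ← integral_indicator hA]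
  have e1 : ∀ x, A.indicator (fun x => h x * ‖x‖ ^ j * dens x) x
      = A.indicator h x * ‖x‖ ^ j * dens x := fun x => by
    by_cases hx : x ∈ A <;> simp [hx]
  have e2 : ∀ x, A.indicator (fun x => h x * dens x) x = A.indicator h x * dens x := fun x => by
    by_cases hx : x ∈ A <;> simp [hx]
  simp only [e1, e2]
  exact this

/-- Mean norm. -/
noncomputable def Er (r : ℕ) : ℝ := Jn r / Jn (r - 1)

lemma Er_pos (r : ℕ) : 0 < Er r := div_pos (Jn_pos _) (Jn_pos _)

lemma cone_norm [NeZero r] {A : Set (EE r)} (hA : MeasurableSet A) (hc : IsCone A) :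
    ∫ x in A, ‖x‖ * dens x = Er r * pm A := by
  have h := cone_homog_ratio hA hc (fun _ => 1) 0 1 (fun t x _ => by simp)
  simp only [one_mul, pow_one, add_zero] at h
  have hr : r - 1 + 1 = r := Nat.succ_pred_eq_of_pos (Nat.pos_of_ne_zero (NeZero.ne r))
  rw [hr] at h
  unfold Er pm
  rw [div_mul_eq_mul_div, eq_div_iff (Jn_pos _).ne']
  exact h

end Vale.Agent.P226
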