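import Vale.Agent.P226.Dual

/-!
# The shear trial: an upper bound for the second variation
-/

open MeasureTheory Real Set Filter
open scoped RealInnerProductSpace Topology

namespace Vale.Agent.P226

/-- Second order remainder of the exponential. -/
noncomputable def expR (u : ℝ) : ℝ := Real.exp u - 1 - u

lemma abs_expR_le (u : ℝ) : |expR u| ≤ 3 * u ^ 2 * Real.exp |u| := by
  have h0 : 0 ≤ expR u := by unfold expR; linarith [Real.add_one_le_exp u]
  have he : 1 ≤ Real.exp |u| := Real.one_le_exp (abs_nonneg u)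
  rw [abs_of_nonneg h0]
  rcases le_or_gt |u| 1 with h | h
  · have := (abs_le.1 (Real.abs_exp_sub_one_sub_id_le h)).2
    calc expR u ≤ u ^ 2 * 1 := by rw [mul_one]; exact this
      _ ≤ u ^ 2 * Real.exp |u| := mul_le_mul_of_nonneg_left he (sq_nonneg u)
      _ ≤ _ := by nlinarith [mul_nonneg (sq_nonneg u) (Real.exp_pos |u|).le]
  · have h1 : expR u ≤ 2 * Real.exp |u| := by
      have h2 : -u ≤ |u| := neg_le_abs u
      have h3 : |u| ≤ Real.exp |u| := by linarith [Real.add_one_le_exp |u|]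
      have h4 : Real.exp u ≤ Real.exp |u| := Real.exp_le_exp.2 (le_abs_self u)
      unfold expR; linarith
    have h2 : 1 ≤ u ^ 2 := by rw [← sq_abs]; nlinarith
    nlinarith [mul_le_mul_of_nonneg_right h2 (Real.exp_pos |u|).le, Real.exp_pos |u|]

lemma tendsto_expR_div (B C : ℝ) :
    Tendsto (fun ε : ℝ => expR (B * ε - C * ε ^ 2 / 2) / ε ^ 2) (𝓝[>] 0) (𝓝 (B ^ 2 / 2)) := by
  have hu : Tendsto (fun ε : ℝ => B * ε - C * ε ^ 2 / 2) (𝓝[>] 0) (𝓝 0) := by
    refine tendsto_nhdsWithin_of_tendsto_nhds ?_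
    have : Continuous fun ε : ℝ => B * ε - C * ε ^ 2 / 2 := by fun_prop
    simpa using this.tendsto 0
  have hv : Tendsto (fun ε : ℝ => (B - C * ε / 2) ^ 2 / 2) (𝓝[>] 0) (𝓝 (B ^ 2 / 2)) := by
    refine tendsto_nhdsWithin_of_tendsto_nhds ?_
    have : Continuous fun ε : ℝ => (B - C * ε / 2) ^ 2 / 2 := by fun_prop
    simpa using this.tendsto 0
  have hw : Tendsto (fun ε : ℝ => expR (B * ε - C * ε ^ 2 / 2) / ε ^ 2 -
      (B - C * ε / 2) ^ 2 / 2) (𝓝[>] 0) (𝓝 0) := by
    refine squeeze_zero_norm' (a := fun ε => ε * |B - C * ε / 2| ^ 3) ?_ ?_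
    · filter_upwards [self_mem_nhdsWithin, hu.eventually (Metric.ball_mem_nhds 0 one_pos)]
        with ε hε hb
      have hε0 : (0 : ℝ) < ε := hε
      have hb' : |B * ε - C * ε ^ 2 / 2| ≤ 1 := le_of_lt (by simpa using hb)
      have key := Real.exp_bound hb' (n := 3) (by norm_num)
      simp only [Finset.sum_range_succ, Finset.sum_range_zero] at key
      norm_num [Nat.factorial] at key
      have e : expR (B * ε - C * ε ^ 2 / 2) / ε ^ 2 - (B - C * ε / 2) ^ 2 / 2
          = (Real.exp (B * ε - C * ε ^ 2 / 2) -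
            (1 + (B * ε - C * ε ^ 2 / 2) + (B * ε - C * ε ^ 2 / 2) ^ 2 / 2)) / ε ^ 2 := by
        unfold expR; field_simp; ring
      rw [Real.norm_eq_abs, e, abs_div, abs_of_pos (pow_pos hε0 2), div_le_iff₀ (pow_pos hε0 2)]
      have e2 : |B * ε - C * ε ^ 2 / 2| ^ 3 = ε * |B - C * ε / 2| ^ 3 * ε ^ 2 := by
        rw [show B * ε - C * ε ^ 2 / 2 = ε * (B - C * ε / 2) by ring, abs_mul, abs_of_pos hε0]
        ring
      rw [← e2]
      have hp : 0 ≤ |B * ε - C * ε ^ 2 / 2| ^ 3 := by positivity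
      linarith
    · refine tendsto_nhdsWithin_of_tendsto_nhds ?_
      have : Continuous fun ε : ℝ => ε * |B - C * ε / 2| ^ 3 := by fun_prop
      simpa using this.tendsto 0
  simpa using hw.add hv

lemma dens_sub_smul {r : ℕ} (x G : EE r) (s : ℝ) :
    dens (x - s • G) = dens x * Real.exp (⟪G, x⟫ * s - ⟪G, G⟫ * s ^ 2 / 2) := by
  unfold dens
  rw [mul_assoc, ← Real.exp_add, norm_sub_sq_real, norm_smul, Real.norm_eq_abs, mul_pow, sq_abs,
    real_inner_smul_right, real_inner_self_eq_norm_sq, real_inner_comm]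
  congr 2; ring

lemma GB.integrable_exp {r : ℕ} {h : EE r → ℝ} (hh : GB h) (hc : Continuous h) :
    Integrable (fun x => h x * Real.exp (‖x‖ ^ 2 / 8) * dens x) := by
  obtain ⟨C, N, hC, hb⟩ := hh
  obtain ⟨K, hK, hKb⟩ := pow_le_exp_sq N (b := 1/8) (by norm_num)
  refine Integrable.mono' ((integrable_exp_norm (r := r) (b := 1/4) (by norm_num)).const_mul
    (C * K * ((2 * π) ^ ((r : ℝ) / 2))⁻¹))
    ((hc.mul (by fun_prop)).mul continuous_dens).aestronglyMeasurable (ae_of_all _ fun x => ?_)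
  rw [Real.norm_eq_abs, abs_mul, abs_mul, abs_of_nonneg (dens_nonneg x), Real.abs_exp]
  have h2 : |h x| ≤ C * (K * Real.exp (1/8 * ‖x‖ ^ 2)) :=
    (hb x).trans (mul_le_mul_of_nonneg_left (hKb _ (norm_nonneg x)) hC)
  calc |h x| * Real.exp (‖x‖ ^ 2 / 8) * dens x
      ≤ C * (K * Real.exp (1/8 * ‖x‖ ^ 2)) * Real.exp (‖x‖ ^ 2 / 8) * dens x :=
        mul_le_mul_of_nonneg_right (mul_le_mul_of_nonneg_right h2 (Real.exp_pos _).le)
          (dens_nonneg x)
    _ = _ := by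
      unfold dens
      rw [show (C * (K * Real.exp (1/8 * ‖x‖ ^ 2))) * Real.exp (‖x‖ ^ 2 / 8) *
          (((2 * π) ^ ((r : ℝ) / 2))⁻¹ * Real.exp (-‖x‖ ^ 2 / 2))
          = C * K * ((2 * π) ^ ((r : ℝ) / 2))⁻¹ *
            (Real.exp (1/8 * ‖x‖ ^ 2) * Real.exp (‖x‖ ^ 2 / 8) * Real.exp (-‖x‖ ^ 2 / 2)) by ring,
        ← Real.exp_add, ← Real.exp_add]
      ring_nf

namespace Simp

variable {k r : ℕ} [NeZero k] (P : Simp k r)

lemma erase_nonempty {k r : ℕ} [NeZero k] (P : Simp k r) (m : Fin k) : (Finset.univ.erase m).Nonempty := by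
  have : Nontrivial (Fin k) := Fin.nontrivial_iff_two_le.2 (by linarith [P.hk])
  obtain ⟨j, hj⟩ := exists_ne m
  exact ⟨j, by simp [hj]⟩

/-- Signed depth in the cell. -/
noncomputable def D (m : Fin k) (x : EE r) : ℝ :=
  (Finset.univ.erase m).inf' (P.erase_nonempty m) (fun l => ⟪P.e m l, x⟫)

lemma D_le {m l : Fin k} (hl : l ≠ m) (x : EE r) : P.D m x ≤ ⟪P.e m l, x⟫ :=
  Finset.inf'_le (fun l => ⟪P.e m l, x⟫) (by simp [hl])

lemma exists_D (m : Fin k) (x : EE r) : ∃ l, l ≠ m ∧ P.D m x = ⟪P.e m l, x⟫ := by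
  obtain ⟨l, hl, he⟩ := Finset.exists_mem_eq_inf' (P.erase_nonempty m) (fun l => ⟪P.e m l, x⟫)
  exact ⟨l, Finset.ne_of_mem_erase hl, he⟩

lemma continuous_D (m : Fin k) : Continuous (P.D m) :=
  Continuous.finset_inf'_apply _ (fun _ _ => by fun_prop)

lemma GB_D (m : Fin k) : GB (P.D m) := by
  refine (GB.sum Finset.univ (h := fun l (x : EE r) => ‖P.e m l‖ * ‖x‖)
    (fun l _ => (GB.const _).mul GB.norm)).mono fun x => ?_
  obtain ⟨l, -, hl⟩ := P.exists_D m x
  rw [hl]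
  exact ((abs_real_inner_le_norm _ _).trans
    (Finset.single_le_sum (f := fun j => ‖P.e m j‖ * ‖x‖)
      (fun j _ => mul_nonneg (norm_nonneg _) (norm_nonneg _)) (Finset.mem_univ l))).trans
    (le_abs_self _)

lemma D_add_smul (m : Fin k) (x : EE r) (s : ℝ) : P.D m (x + s • P.F m) = P.D m x + s := by
  have h : ∀ l, l ≠ m → ⟪P.e m l, x + s • P.F m⟫ = ⟪P.e m l, x⟫ + s := fun l hl => by
    rw [inner_add_right, real_inner_smul_right, P.inner_e_F hl, mul_one]
  apply le_antisymm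
  · obtain ⟨l, hl, he⟩ := P.exists_D m x
    rw [he, ← h l hl]; exact P.D_le hl _
  · obtain ⟨l, hl, he⟩ := P.exists_D m (x + s • P.F m)
    rw [he, h l hl]; linarith [P.D_le hl x]

lemma mem_cell_iff_D {m : Fin k} {x : EE r} : x ∈ P.cell m ↔ 0 ≤ P.D m x := by
  rw [P.mem_cell]
  constructor
  · intro h
    obtain ⟨l, -, he⟩ := P.exists_D m x
    rw [he]; exact h l
  · intro h l
    rcases eq_or_ne l m with rfl | hl
    · simp [P.e_self]
    · exact h.trans (P.D_le hl x)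

/-- Perturbing one vector: comparison with the maximality. -/
lemma perturb (m : Fin k) (y : EE r) (ε : ℝ) {E : Set (EE r)} (hE : MeasurableSet E) :
    (∫ x in E, (P.D m x + ε * ⟪y, x⟫) * dens x) - ∫ x in P.cell m, P.D m x * dens x
      ≤ ε * ⟪P.v m, y⟫ + ε ^ 2 * P.kap * ‖y‖ ^ 2 / 2 := by
  classical
  set A := P.cell m with hA
  set w : Fin k → EE r := fun i => P.v i + (if i = m then ε • y else 0) with hw
  set c : EE r := -((k : ℝ)⁻¹ * ε) • y with hc
  have hk : (k : ℝ) ≠ 0 := Nat.cast_ne_zero.2 (NeZero.ne k)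
  have hup : fmax w ≤ ssq P.v + ε * ⟪P.v m, y⟫ + ε ^ 2 * P.kap * ‖y‖ ^ 2 / 2 := by
    have h1 := P.opt (fun i => w i + c)
    rw [fmax_add_const] at h1
    have h2 : ssq (fun i => w i + c) = ssq P.v + 2 * ε * ⟪P.v m, y⟫
        + ε ^ 2 * P.kap * ‖y‖ ^ 2 := by
      have e : ∀ i, ‖w i + c‖ ^ 2 = ‖P.v i‖ ^ 2 + 2 * ⟪P.v i, c⟫ + ‖c‖ ^ 2 +
          (if i = m then 2 * ⟪P.v m, ε • y⟫ + 2 * ⟪ε • y, c⟫ + ‖ε • y‖ ^ 2 else 0) := by
        intro i
        by_cases hi : i = m
        · subst hi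
          simp only [hw, if_true]
          rw [norm_add_sq_real, norm_add_sq_real, inner_add_left]; ring
        · simp only [hw, if_neg hi, add_zero, norm_add_sq_real]
      simp only [ssq, e, Finset.sum_add_distrib, Finset.sum_ite_eq', Finset.mem_univ, if_true,
        Finset.sum_const, Finset.card_univ, Fintype.card_fin, nsmul_eq_mul, ← Finset.mul_sum,
        ← sum_inner, P.sum_v, inner_zero_left, mul_zero, add_zero]
      simp only [hc, norm_smul, Real.norm_eq_abs, mul_pow, sq_abs, real_inner_smul_left,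
        real_inner_smul_right, real_inner_self_eq_norm_sq, kap]
      field_simp
      ring
    linarith
  have hg : Integrable fun x : EE r => ⟪P.v m, x⟫ * dens x :=
    (GB.inner _).integrable' (by fun_prop)
  have hD : Integrable fun x : EE r => P.D m x * dens x :=
    (P.GB_D m).integrable' (P.continuous_D m).measurable
  have hl : Integrable fun x : EE r => (P.D m x + ε * ⟪y, x⟫) * dens x :=
    ((P.GB_D m).add ((GB.const ε).mul (GB.inner y))).integrable'
      ((P.continuous_D m).add (by fun_prop)).measurable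
  have hlow : -(∫ x, P.D m x * dens x) + ∫ x in E, (P.D m x + ε * ⟪y, x⟫) * dens x
      ≤ fmax w := by
    have : ∀ x, (⟪P.v m, x⟫ * dens x - P.D m x * dens x) +
        E.indicator (fun x => (P.D m x + ε * ⟪y, x⟫) * dens x) x ≤ maxv w x * dens x := by
      intro x
      by_cases hx : x ∈ E
      · rw [indicator_of_mem hx]
        have := le_maxv w m x
        simp only [hw, if_true, inner_add_left, real_inner_smul_left] at this
        calc _ = (⟪P.v m, x⟫ + ε * ⟪y, x⟫) * dens x := by ring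
          _ ≤ _ := mul_le_mul_of_nonneg_right this (dens_nonneg x)
      · rw [indicator_of_notMem hx, add_zero, ← sub_mul]
        refine mul_le_mul_of_nonneg_right ?_ (dens_nonneg x)
        obtain ⟨l, hlm, he⟩ := P.exists_D m x
        have := le_maxv w l x
        simp only [hw, if_neg hlm, add_zero] at this
        rw [he, e, inner_sub_left]; linarith
    have h3 := integral_mono ((hg.sub hD).add (hl.indicator hE)) (integrable_maxv w) this
    rw [integral_add' (hg.sub hD) (hl.indicator hE), integral_sub' hg hD, integral_indicator hE,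
      integral_inner_dens, zero_sub] at h3
    exact h3
  have hv : fmax P.v = -(∫ x, P.D m x * dens x) + ∫ x in A, P.D m x * dens x := by
    have : ∀ x, maxv P.v x * dens x = (⟪P.v m, x⟫ * dens x - P.D m x * dens x) +
        A.indicator (fun x => P.D m x * dens x) x := by
      intro x
      by_cases hx : x ∈ A
      · rw [indicator_of_mem hx, sub_add_cancel]
        rw [le_antisymm (maxv_le _ _ hx) (le_maxv _ _ _)]
      · rw [indicator_of_notMem hx, add_zero, ← sub_mul]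
        have hneg : P.D m x < 0 := by
          rw [hA, P.mem_cell_iff_D] at hx; exact not_le.1 hx
        obtain ⟨l, hlm, he⟩ := P.exists_D m x
        congr 1
        apply le_antisymm
        · refine maxv_le _ _ fun i => ?_
          rcases eq_or_ne i m with rfl | hi
          · linarith
          · have := P.D_le hi x
            rw [e, inner_sub_left] at this; linarith
        · have := le_maxv P.v l x
          rw [he, e, inner_sub_left]; linarith
    unfold fmax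
    simp only [this]
    rw [integral_add (f := fun x => ⟪P.v m, x⟫ * dens x - P.D m x * dens x)
      (g := fun x => A.indicator (fun x => P.D m x * dens x) x)
      (hg.sub hD) (hD.indicator (P.measurableSet_cell m)), integral_sub hg hD,
      integral_indicator (P.measurableSet_cell m), integral_inner_dens, zero_sub]
  have := P.val
  linarith

lemma shear_image (m : Fin k) (y : EE r) {ε : ℝ} (hε : |ε * ⟪y, P.F m⟫| < 1) :
    (1 - ε * ⟪y, P.F m⟫) * (∫ z in P.cell m,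
      (P.D m z - ε ^ 2 * ⟪y, P.F m⟫ * ⟪y, z⟫) * dens (z - (ε * ⟪y, z⟫) • P.F m))
      - ∫ x in P.cell m, P.D m x * dens x ≤ ε * ⟪P.v m, y⟫ + ε ^ 2 * P.kap * ‖y‖ ^ 2 / 2 := by
  have ha : 0 < 1 - ε * ⟪y, P.F m⟫ := by linarith [(abs_lt.1 hε).2]
  set L : EE r →ₗ[ℝ] EE r :=
    LinearMap.transvection ((innerSL ℝ y).toLinearMap) ((-ε) • P.F m) with hL
  set T : EE r →L[ℝ] EE r := LinearMap.toContinuousLinearMap L with hT
  have hTa : ∀ z, T z = z - (ε * ⟪y, z⟫) • P.F m := by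
    intro z
    simp [hT, hL, LinearMap.transvection.apply, smul_smul, sub_eq_add_neg, mul_comm]
  have hdet : T.det = 1 - ε * ⟪y, P.F m⟫ := by
    show LinearMap.det (T : EE r →ₗ[ℝ] EE r) = _
    rw [hT, LinearMap.coe_toContinuousLinearMap, hL, LinearMap.transvection.det]
    simp [real_inner_smul_right]; ring
  have hinj : InjOn T (P.cell m) := by
    intro z _ z' _ h
    rw [hTa, hTa] at h
    have h2 := congrArg (fun v => ⟪y, v⟫) h
    simp only [inner_sub_right, real_inner_smul_right] at h2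
    have h3 : ⟪y, z⟫ = ⟪y, z'⟫ := by
      have : (⟪y, z⟫ - ⟪y, z'⟫) * (1 - ε * ⟪y, P.F m⟫) = 0 := by linarith
      rcases mul_eq_zero.1 this with h' | h'
      · exact sub_eq_zero.1 h'
      · exact absurd h' ha.ne'
    rw [h3] at h
    exact sub_left_inj.1 h
  have key := integral_image_eq_integral_abs_det_fderiv_smul (μ := volume) (f := T)
    (f' := fun _ => T) (P.measurableSet_cell m)
    (fun x _ => T.hasFDerivAt.hasFDerivWithinAt) hinj
    (fun x => (P.D m x + ε * ⟪y, x⟫) * dens x)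
  have hE : MeasurableSet (T '' P.cell m) :=
    (P.measurableSet_cell m).image_of_continuousOn_injOn T.continuous.continuousOn hinj
  have h := P.perturb m y ε hE
  rw [key] at h
  simp only [hdet, smul_eq_mul, abs_of_pos ha] at h
  rw [integral_const_mul] at h
  have e : ∀ z, (P.D m (T z) + ε * ⟪y, T z⟫) * dens (T z) =
      (P.D m z - ε ^ 2 * ⟪y, P.F m⟫ * ⟪y, z⟫) * dens (z - (ε * ⟪y, z⟫) • P.F m) := by
    intro z
    rw [hTa, sub_eq_add_neg, ← neg_smul, P.D_add_smul, inner_add_right, real_inner_smul_right]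
    ring
  simp only [e] at h
  exact h

lemma test_D (m : Fin k) : Test (P.F m) (P.D m) (fun _ => 1) := by
  refine ⟨P.continuous_D m, continuous_const, P.GB_D m, GB.const 1, fun x s => ?_⟩
  simp only [P.D_add_smul]
  exact (hasDerivAt_id s).const_add _

/-- Integration by parts along the diagonal direction. -/
lemma D_identity (m : Fin k) (y : EE r) :
    ∫ x in P.cell m, (P.D m x * ((⟪P.F m, x⟫ * ⟪y, x⟫) ^ 2
      - 2 * ⟪y, P.F m⟫ * (⟪P.F m, x⟫ * ⟪y, x⟫) - ⟪P.F m, P.F m⟫ * ⟪y, x⟫ ^ 2)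
      - ⟪y, x⟫ ^ 2 * ⟪P.F m, x⟫) * dens x = 0 := by
  have hQ := ((Test.inner (P.F m) y).mul (Test.inner (P.F m) y)).mul
    (Test.inner (P.F m) (P.F m))
  have hψ := (P.test_D m).mul hQ
  have hneg := (Test.const (P.F m) 0).sub hψ
  have hstrip : ∀ x, x ∉ P.cell m → ∀ s : ℝ, 0 < s → s ≤ 1 → x + s • P.F m ∈ P.cell m →
      |P.D m x| ≤ s := by
    intro x hx s _ _ hxs
    rw [P.mem_cell_iff_D] at hx hxs
    rw [P.D_add_smul] at hxs
    rw [abs_of_neg (not_le.1 hx)]; linarith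
  have hb : ∀ x, x ∉ P.cell m → ∀ s : ℝ, 0 < s → s ≤ 1 → x + s • P.F m ∈ P.cell m →
      |P.D m x * (⟪y, x⟫ * ⟪y, x⟫ * ⟪P.F m, x⟫)|
        ≤ s * |⟪y, x⟫ * ⟪y, x⟫ * ⟪P.F m, x⟫| := by
    intro x hx s h1 h2 h3
    rw [abs_mul]
    exact mul_le_mul_of_nonneg_right (hstrip x hx s h1 h2 h3) (abs_nonneg _)
  have h1 := hψ.LD_nonneg (P.isClosed_cell m) (P.add_smul_mem_cell (P.inner_e_F_nonneg m))
    hQ.gb hQ.cont (fun x hx s a b c => (abs_le.1 (hb x hx s a b c)).1)
  have h2 := hneg.LD_nonneg (P.isClosed_cell m) (P.add_smul_mem_cell (P.inner_e_F_nonneg m))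
    hQ.gb hQ.cont (fun x hx s a b c => by
      simp only [zero_sub, neg_le_neg_iff]; exact (abs_le.1 (hb x hx s a b c)).2)
  simp only [LD] at h1 h2
  rw [setIntegral_congr_fun (P.measurableSet_cell m)
    (g := fun x => -((P.D m x * ((⟪P.F m, x⟫ * ⟪y, x⟫) ^ 2
      - 2 * ⟪y, P.F m⟫ * (⟪P.F m, x⟫ * ⟪y, x⟫) - ⟪P.F m, P.F m⟫ * ⟪y, x⟫ ^ 2)
      - ⟪y, x⟫ ^ 2 * ⟪P.F m, x⟫) * dens x)) (fun x _ => by ring), integral_neg] at h2
  rw [setIntegral_congr_fun (P.measurableSet_cell m)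
    (g := fun x => (P.D m x * ((⟪P.F m, x⟫ * ⟪y, x⟫) ^ 2
      - 2 * ⟪y, P.F m⟫ * (⟪P.F m, x⟫ * ⟪y, x⟫) - ⟪P.F m, P.F m⟫ * ⟪y, x⟫ ^ 2)
      - ⟪y, x⟫ ^ 2 * ⟪P.F m, x⟫) * dens x) (fun x _ => by ring)] at h1
  linarith

/-- The second variation upper bound. -/
lemma shear (m : Fin k) (y : EE r) :
    LD (P.cell m) (P.F m) (fun x => ⟪y, x⟫ * ⟪y, x⟫)
      (fun x => ⟪y, P.F m⟫ * ⟪y, x⟫ + ⟪y, x⟫ * ⟪y, P.F m⟫) ≤ P.kap * ‖y‖ ^ 2 := by
  set a := ⟪y, P.F m⟫ with ha
  set c := ⟪P.F m, P.F m⟫ with hc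
  set A := P.cell m with hA
  set B : EE r → ℝ := fun z => ⟪P.F m, z⟫ * ⟪y, z⟫ with hB
  set C : EE r → ℝ := fun z => c * ⟪y, z⟫ ^ 2 with hC
  set R : EE r → ℝ → ℝ := fun z ε => expR (B z * ε - C z * ε ^ 2 / 2) / ε ^ 2 with hR
  set R' : EE r → ℝ → ℝ := fun z ε => expR (-B z * ε - C z * ε ^ 2 / 2) / ε ^ 2 with hR'
  set Ψ : ℝ → EE r → ℝ := fun ε z => ((P.D m z - ε ^ 2 * a * ⟪y, z⟫) *
    (-C z + R z ε + R' z ε - a * (2 * B z + ε * (R z ε - R' z ε)))
    - 2 * a * ⟪y, z⟫) * dens z with hΨ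
  set V : EE r → ℝ := fun z => (P.D m z * (B z ^ 2 - C z - 2 * a * B z) - 2 * a * ⟪y, z⟫)
    * dens z with hV
  have hc0 : 0 ≤ c := real_inner_self_nonneg
  set K := ‖P.F m‖ * ‖y‖ + c * ‖y‖ ^ 2 with hK
  have hK0 : 0 ≤ K := by positivity
  have hBC : ∀ z, |B z| + C z ≤ K * ‖z‖ ^ 2 := by
    intro z
    have h1 : |B z| ≤ ‖P.F m‖ * ‖y‖ * ‖z‖ ^ 2 := by
      rw [hB, abs_mul]
      calc |⟪P.F m, z⟫| * |⟪y, z⟫| ≤ (‖P.F m‖ * ‖z‖) * (‖y‖ * ‖z‖) :=
            mul_le_mul (abs_real_inner_le_norm _ _) (abs_real_inner_le_norm _ _) (abs_nonneg _)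
              (by positivity)
        _ = _ := by ring
    have h2 : C z ≤ c * ‖y‖ ^ 2 * ‖z‖ ^ 2 := by
      simp only [hC]
      rw [mul_assoc, ← mul_pow, ← sq_abs ⟪y, z⟫]
      exact mul_le_mul_of_nonneg_left (pow_le_pow_left₀ (abs_nonneg _)
        (abs_real_inner_le_norm _ _) 2) hc0
    rw [hK, add_mul]; linarith
  set ε0 : ℝ := min 1 (min (1 / (8 * (K + 1))) (1 / (|a| + 1))) with hε0
  have hε0p : 0 < ε0 := by positivity
  have hsmall : ∀ ε : ℝ, 0 < ε → ε < ε0 → ε ≤ 1 ∧ ε * K ≤ 1 / 8 ∧ |ε * a| < 1 := by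
    intro ε h1 h2
    simp only [hε0, lt_min_iff] at h2
    obtain ⟨h2, h3, h4⟩ := h2
    refine ⟨h2.le, ?_, ?_⟩
    · rw [lt_div_iff₀ (by positivity)] at h3
      linarith
    · rw [lt_div_iff₀ (by positivity)] at h4
      rw [abs_mul, abs_of_pos h1]
      linarith
  have hRb : ∀ z (σ : ℝ) (ε : ℝ), |σ| = 1 → 0 < ε → ε < ε0 →
      |expR (σ * B z * ε - C z * ε ^ 2 / 2) / ε ^ 2|
        ≤ 3 * (K * ‖z‖ ^ 2) ^ 2 * Real.exp (‖z‖ ^ 2 / 8) := by
    intro z σ ε hσ h1 h2
    obtain ⟨e1, e2, -⟩ := hsmall ε h1 h2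
    set u := σ * B z * ε - C z * ε ^ 2 / 2 with hu
    have hC0 : 0 ≤ C z := mul_nonneg hc0 (sq_nonneg _)
    have hub : |u| ≤ ε * (K * ‖z‖ ^ 2) := by
      have t1 : |u| ≤ |σ * B z * ε| + |C z * ε ^ 2 / 2| := abs_sub _ _
      rw [abs_mul, abs_mul, hσ, abs_of_pos h1, one_mul,
        abs_of_nonneg (by positivity : (0:ℝ) ≤ C z * ε ^ 2 / 2)] at t1
      have t2 : C z * ε ^ 2 ≤ C z * ε :=
        mul_le_mul_of_nonneg_left (by nlinarith) hC0
      nlinarith [hBC z, mul_le_mul_of_nonneg_left (hBC z) h1.le, mul_nonneg hC0 h1.le]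
    have hexp : Real.exp |u| ≤ Real.exp (‖z‖ ^ 2 / 8) := by
      refine Real.exp_le_exp.2 (hub.trans ?_)
      calc ε * (K * ‖z‖ ^ 2) = ε * K * ‖z‖ ^ 2 := by ring
        _ ≤ 1 / 8 * ‖z‖ ^ 2 := mul_le_mul_of_nonneg_right e2 (sq_nonneg _)
        _ = _ := by ring
    rw [abs_div, abs_of_pos (pow_pos h1 2), div_le_iff₀ (pow_pos h1 2)]
    refine (abs_expR_le u).trans ?_
    have hsq : u ^ 2 ≤ (ε * (K * ‖z‖ ^ 2)) ^ 2 := by
      rw [← sq_abs u]; exact pow_le_pow_left₀ (abs_nonneg u) hub 2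
    calc 3 * u ^ 2 * Real.exp |u|
        ≤ 3 * (ε * (K * ‖z‖ ^ 2)) ^ 2 * Real.exp (‖z‖ ^ 2 / 8) :=
          mul_le_mul (by linarith) hexp (Real.exp_pos _).le (by positivity)
      _ = _ := by ring
  set q : EE r → ℝ := fun z => (|P.D m z| + |a| * |⟪y, z⟫|) *
      ((1 + 2 * |a|) * (K * ‖z‖ ^ 2) + (1 + |a|) * (6 * (K * ‖z‖ ^ 2) ^ 2))
      + 2 * |a| * |⟪y, z⟫| with hq
  have hqc : Continuous q := by
    have := P.continuous_D m; rw [hq]; fun_prop
  have hqg : GB q := by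
    have hN : GB fun z : EE r => K * ‖z‖ ^ 2 := (GB.const K).mul (GB.norm.pow 2)
    have hy : GB fun z : EE r => |⟪y, z⟫| :=
      (GB.inner y).mono fun z => le_of_eq (abs_abs _)
    have hDa : GB fun z => |P.D m z| := (P.GB_D m).mono fun z => le_of_eq (abs_abs _)
    exact ((hDa.add ((GB.const |a|).mul hy)).mul (((GB.const (1 + 2 * |a|)).mul hN).add
      ((GB.const (1 + |a|)).mul ((GB.const 6).mul (hN.pow 2))))).add
      ((GB.const (2 * |a|)).mul hy)
  have hΨc : ∀ ε, Continuous (Ψ ε) := by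
    intro ε
    have := P.continuous_D m
    have := continuous_dens (r := r)
    simp only [hΨ, hR, hR', hB, hC, expR]
    fun_prop
  have hdom : ∀ ε, 0 < ε → ε < ε0 → ∀ z, |Ψ ε z| ≤ q z * Real.exp (‖z‖ ^ 2 / 8) * dens z := by
    intro ε h1 h2 z
    obtain ⟨e1, -, -⟩ := hsmall ε h1 h2
    have r1 : |R z ε| ≤ 3 * (K * ‖z‖ ^ 2) ^ 2 * Real.exp (‖z‖ ^ 2 / 8) := by
      simpa [hR] using hRb z 1 ε (by simp) h1 h2
    have r2 : |R' z ε| ≤ 3 * (K * ‖z‖ ^ 2) ^ 2 * Real.exp (‖z‖ ^ 2 / 8) := by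
      simpa [hR'] using hRb z (-1) ε (by simp) h1 h2
    set E := Real.exp (‖z‖ ^ 2 / 8) with hE
    have hE1 : 1 ≤ E := Real.one_le_exp (by positivity)
    set N := K * ‖z‖ ^ 2 with hN
    have hN0 : 0 ≤ N := by positivity
    have hb1 : |B z| ≤ N := by linarith [hBC z, mul_nonneg hc0 (sq_nonneg ⟪y, z⟫)]
    have hc1 : |C z| ≤ N := by
      rw [abs_of_nonneg (mul_nonneg hc0 (sq_nonneg _))]; linarith [hBC z, abs_nonneg (B z)]
    simp only [hΨ]
    rw [abs_mul, abs_of_nonneg (dens_nonneg z)]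
    refine mul_le_mul_of_nonneg_right ?_ (dens_nonneg z)
    have t1 : |P.D m z - ε ^ 2 * a * ⟪y, z⟫| ≤ |P.D m z| + |a| * |⟪y, z⟫| := by
      refine (abs_sub _ _).trans (add_le_add le_rfl ?_)
      rw [abs_mul, abs_mul, abs_of_nonneg (sq_nonneg ε), mul_assoc]
      exact mul_le_of_le_one_left (by positivity) (by nlinarith)
    have t2 : |-C z + R z ε + R' z ε - a * (2 * B z + ε * (R z ε - R' z ε))|
        ≤ ((1 + 2 * |a|) * N + (1 + |a|) * (6 * N ^ 2)) * E := by
      have u1 : |2 * B z + ε * (R z ε - R' z ε)| ≤ 2 * N * E + 6 * N ^ 2 * E := by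
        refine (abs_add_le _ _).trans (add_le_add ?_ ?_)
        · rw [abs_mul, abs_two]; nlinarith
        · rw [abs_mul, abs_of_pos h1]
          refine (mul_le_of_le_one_left (abs_nonneg _) e1).trans ((abs_sub _ _).trans ?_)
          linarith
      calc _ ≤ |C z| + |R z ε| + |R' z ε| + |a| * |2 * B z + ε * (R z ε - R' z ε)| := by
            rw [← abs_mul]
            refine (abs_sub _ _).trans (add_le_add ((abs_add_le _ _).trans (add_le_add
              ((abs_add_le _ _).trans (add_le_add (le_of_eq (abs_neg _)) le_rfl)) le_rfl)) le_rfl)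
        _ ≤ N * E + 3 * N ^ 2 * E + 3 * N ^ 2 * E + |a| * (2 * N * E + 6 * N ^ 2 * E) := by
            have : |C z| ≤ N * E := hc1.trans (le_mul_of_one_le_right hN0 hE1)
            linarith [mul_le_mul_of_nonneg_left u1 (abs_nonneg a)]
        _ = _ := by ring
    have t3 : |2 * a * ⟪y, z⟫| ≤ 2 * |a| * |⟪y, z⟫| * E := by
      rw [abs_mul, abs_mul, abs_two]; exact le_mul_of_one_le_right (by positivity) hE1
    calc _ ≤ |P.D m z - ε ^ 2 * a * ⟪y, z⟫| *
          |-C z + R z ε + R' z ε - a * (2 * B z + ε * (R z ε - R' z ε))| + |2 * a * ⟪y, z⟫| := by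
          rw [← abs_mul]; exact abs_sub _ _
      _ ≤ (|P.D m z| + |a| * |⟪y, z⟫|) * (((1 + 2 * |a|) * N + (1 + |a|) * (6 * N ^ 2)) * E)
          + 2 * |a| * |⟪y, z⟫| * E :=
          add_le_add (mul_le_mul t1 t2 (abs_nonneg _) (by positivity)) t3
      _ = _ := by simp only [hq]; ring
  have hqi : Integrable (fun z => q z * Real.exp (‖z‖ ^ 2 / 8) * dens z) :=
    hqg.integrable_exp hqc
  have hlim : Tendsto (fun ε => ∫ z in A, Ψ ε z) (𝓝[>] (0 : ℝ)) (𝓝 (∫ z in A, V z)) := by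
    refine tendsto_integral_filter_of_dominated_convergence
      (fun z => q z * Real.exp (‖z‖ ^ 2 / 8) * dens z)
      (Eventually.of_forall fun ε => (hΨc ε).aestronglyMeasurable) ?_ hqi.restrict
      (ae_of_all _ fun z => ?_)
    · filter_upwards [self_mem_nhdsWithin, mem_nhdsWithin_of_mem_nhds (Iio_mem_nhds hε0p)]
        with ε h1 h2
      exact ae_of_all _ fun z => by rw [Real.norm_eq_abs]; exact hdom ε h1 h2 z
    · have h1 := tendsto_expR_div (B z) (C z)
      have h2 : Tendsto (fun ε => R' z ε) (𝓝[>] (0:ℝ)) (𝓝 (B z ^ 2 / 2)) := by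
        simpa [hR'] using tendsto_expR_div (-B z) (C z)
      have hid : Tendsto (fun ε : ℝ => ε) (𝓝[>] (0:ℝ)) (𝓝 0) :=
        tendsto_nhdsWithin_of_tendsto_nhds tendsto_id
      have := ((((tendsto_const_nhds (x := P.D m z)).sub
          (((hid.pow 2).mul_const a).mul_const ⟪y, z⟫)).mul
          ((((tendsto_const_nhds (x := -C z)).add h1).add h2).sub
            ((((tendsto_const_nhds (x := 2 * B z))).add (hid.mul (h1.sub h2))).const_mul a))).sub
          (tendsto_const_nhds (x := 2 * a * ⟪y, z⟫))).mul_const (dens z)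
      convert this using 2 <;> simp only [hV, hΨ, hR] <;> ring
  have hev : ∀ᶠ ε in 𝓝[>] (0 : ℝ), ∫ z in A, Ψ ε z ≤ P.kap * ‖y‖ ^ 2 := by
    filter_upwards [self_mem_nhdsWithin, mem_nhdsWithin_of_mem_nhds (Iio_mem_nhds hε0p)]
      with ε hε h2
    have h1 : (0 : ℝ) < ε := hε
    obtain ⟨-, -, e3⟩ := hsmall ε h1 h2
    have sp := P.shear_image m y e3
    have sm := P.shear_image m y (ε := -ε) (by rw [neg_mul, abs_neg]; exact e3)
    simp only [neg_sq, neg_mul, sub_neg_eq_add] at sm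
    simp only [← ha, ← hA] at sp sm
    have hsh : ∀ t : ℝ, |t| = ε → Integrable
        (fun z => (P.D m z - ε ^ 2 * a * ⟪y, z⟫) * dens (z - (t * ⟪y, z⟫) • P.F m))
        (volume.restrict A) := by
      intro t ht
      refine Integrable.restrict (Integrable.mono'
        ((((P.GB_D m).mono (fun z => le_of_eq (abs_abs _))).add
          ((GB.const (|a|)).mul ((GB.inner y).mono fun z => le_of_eq (abs_abs _)))).integrable_exp
          (by have := P.continuous_D m; fun_prop)) ?_ (ae_of_all _ fun z => ?_))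
      · have := P.continuous_D m
        have := continuous_dens (r := r)
        exact Continuous.aestronglyMeasurable (by fun_prop)
      · obtain ⟨e1, e2, -⟩ := hsmall ε h1 h2
        rw [Real.norm_eq_abs, abs_mul, abs_of_nonneg (dens_nonneg _), dens_sub_smul, ← mul_assoc]
        rw [mul_right_comm _ (dens z)]
        refine mul_le_mul_of_nonneg_right (mul_le_mul ?_ (Real.exp_le_exp.2 ?_)
          (Real.exp_pos _).le (by positivity)) (dens_nonneg z)
        · refine (abs_sub _ _).trans (add_le_add le_rfl ?_)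
          rw [abs_mul, abs_mul, abs_of_nonneg (sq_nonneg ε), mul_assoc]
          exact mul_le_of_le_one_left (by positivity) (by nlinarith)
        · have t1 : t * B z ≤ ε * |B z| := by
            rw [← ht, ← abs_mul]; exact le_abs_self _
          have t2 : 0 ≤ c * (t * ⟪y, z⟫) ^ 2 := mul_nonneg hc0 (sq_nonneg _)
          have t3 : ε * |B z| ≤ 1 / 8 * ‖z‖ ^ 2 := by
            have := hBC z
            have hC0 : 0 ≤ C z := mul_nonneg hc0 (sq_nonneg _)
            calc ε * |B z| ≤ ε * (K * ‖z‖ ^ 2) :=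
                  mul_le_mul_of_nonneg_left (by linarith) h1.le
              _ = ε * K * ‖z‖ ^ 2 := by ring
              _ ≤ _ := mul_le_mul_of_nonneg_right e2 (sq_nonneg _)
          simp only [hB] at t1
          linarith
    have hD0 : Integrable (fun z => P.D m z * dens z) (volume.restrict A) :=
      ((P.GB_D m).integrable' (P.continuous_D m).measurable).restrict
    have ep : ∀ z, Ψ ε z = ((1 - ε * a) *
        ((P.D m z - ε ^ 2 * a * ⟪y, z⟫) * dens (z - (ε * ⟪y, z⟫) • P.F m)) +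
        (1 + ε * a) *
        ((P.D m z - ε ^ 2 * a * ⟪y, z⟫) * dens (z - (-ε * ⟪y, z⟫) • P.F m)) -
        2 * (P.D m z * dens z)) / ε ^ 2 := by
      intro z
      rw [dens_sub_smul, dens_sub_smul]
      have ee : ∀ u : ℝ, Real.exp u = 1 + u + expR u := fun u => by unfold expR; ring
      rw [ee, ee]
      simp only [hΨ, hR, hR', hB, hC]
      rw [show ⟪P.F m, z⟫ * (ε * ⟪y, z⟫) - c * (ε * ⟪y, z⟫) ^ 2 / 2
          = ⟪P.F m, z⟫ * ⟪y, z⟫ * ε - c * ⟪y, z⟫ ^ 2 * ε ^ 2 / 2 by ring,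
        show ⟪P.F m, z⟫ * (-ε * ⟪y, z⟫) - c * (-ε * ⟪y, z⟫) ^ 2 / 2
          = -(⟪P.F m, z⟫ * ⟪y, z⟫) * ε - c * ⟪y, z⟫ ^ 2 * ε ^ 2 / 2 by ring]
      field_simp
      ring
    simp only [ep]
    have i1 := (hsh ε (abs_of_pos h1)).const_mul (1 - ε * a)
    have i2 := (hsh (-ε) (by rw [abs_neg, abs_of_pos h1])).const_mul (1 + ε * a)
    have i12 : Integrable (fun z => (1 - ε * a) *
        ((P.D m z - ε ^ 2 * a * ⟪y, z⟫) * dens (z - (ε * ⟪y, z⟫) • P.F m)) + (1 + ε * a) *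
        ((P.D m z - ε ^ 2 * a * ⟪y, z⟫) * dens (z - (-ε * ⟪y, z⟫) • P.F m)))
        (volume.restrict A) := i1.add i2
    rw [integral_div, integral_sub i12 (hD0.const_mul 2), integral_add i1 i2,
      integral_const_mul, integral_const_mul, integral_const_mul, div_le_iff₀ (pow_pos h1 2)]
    simp only [neg_mul]
    linarith
  have key : ∫ z in A, V z ≤ P.kap * ‖y‖ ^ 2 := le_of_tendsto hlim hev
  have hid := P.D_identity m y
  rw [← hA] at hid
  have hsplit : ∫ z in A, V z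
      = (∫ z in A, (⟪P.F m, z⟫ * (⟪y, z⟫ * ⟪y, z⟫) - (a * ⟪y, z⟫ + ⟪y, z⟫ * a)) * dens z) +
        ∫ x in A, (P.D m x * ((⟪P.F m, x⟫ * ⟪y, x⟫) ^ 2
          - 2 * a * (⟪P.F m, x⟫ * ⟪y, x⟫) - c * ⟪y, x⟫ ^ 2)
          - ⟪y, x⟫ ^ 2 * ⟪P.F m, x⟫) * dens x := by
    rw [← integral_add]
    · refine setIntegral_congr_fun (P.measurableSet_cell m) fun z _ => ?_
      simp only [hV, hB, hC]; ring
    · exact ((Test.inner (P.F m) y).mul (Test.inner (P.F m) y)).integrableOn A
    · refine ((((P.GB_D m).mul (((((GB.inner _).mul (GB.inner y)).pow 2).sub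
        ((GB.const (2 * a)).mul ((GB.inner _).mul (GB.inner y)))).sub
        ((GB.const c).mul ((GB.inner y).pow 2)))).sub
        (((GB.inner y).pow 2).mul (GB.inner (P.F m)))).integrable' ?_).restrict
      have := P.continuous_D m
      exact Continuous.measurable (by fun_prop)
  rw [hsplit, hid, add_zero] at key
  exact key

end Simp
end Vale.Agent.P226
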