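import Vale.Agent.P226.Crit

/-!
# Merging cells: the maximiser is an obtuse simplex
-/

open MeasureTheory Real Set
open scoped RealInnerProductSpace

namespace Vale.Agent.P226

/-- A maximiser whose vectors are pairwise strictly obtuse. -/
structure Simp (k r : ℕ) [NeZero k] extends Maxi k r where
  obtuse : ∀ a b, a ≠ b → ⟪v a, v b⟫ < 0
  hk : 4 ≤ k

lemma Maxi.obtuse_of_bound {n r : ℕ} [NeZero n] (P : Maxi (n + 1) r) (H : BoundAt n r)
    {a b : Fin (n + 1)} (hab : a ≠ b) : ⟪P.v a, P.v b⟫ < 0 := by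
  classical
  set σ : Fin (n + 1) → Fin (n + 1) := fun i => if i = b then a else i with hσ
  have hσb : ∀ i, σ i ≠ b := by
    intro i
    by_cases hi : i = b
    · simp [hσ, hi, hab]
    · simp [hσ, hi]
  have hex : ∀ i, ∃ j : Fin n, b.succAbove j = σ i := fun i =>
    Fin.exists_succAbove_eq (hσb i)
  choose prj hprj using hex
  set u : Fin n → EE r := fun j =>
    P.v (b.succAbove j) + (if b.succAbove j = a then P.v b else 0) with hu
  have e1 : ∑ i, ⟪u (prj i), P.v i⟫ = ssq P.v + 2 * ⟪P.v a, P.v b⟫ := by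
    have : ∀ i, ⟪u (prj i), P.v i⟫ = ‖P.v i‖ ^ 2 +
        ((if i = a then ⟪P.v b, P.v a⟫ else 0) + (if i = b then ⟪P.v a, P.v b⟫ else 0)) := by
      intro i
      simp only [hu, hprj i, inner_add_left]
      by_cases hi : i = b
      · subst hi
        simp [hσ, hab.symm]
        ring
      · by_cases hia : i = a
        · subst hia
          simp [hσ, hi]
        · simp [hσ, hi, hia]
    simp only [this, Finset.sum_add_distrib, Finset.sum_ite_eq', Finset.mem_univ, if_true, ssq,
      real_inner_comm (P.v a) (P.v b)]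
    ring
  have e2 : ssq u = ssq P.v + 2 * ⟪P.v a, P.v b⟫ := by
    obtain ⟨j0, hj0⟩ := Fin.exists_succAbove_eq hab
    have hj : ∀ j, b.succAbove j = a ↔ j = j0 := fun j => by
      rw [← hj0, Fin.succAbove_right_injective.eq_iff]
    have : ∀ j, ‖u j‖ ^ 2 = ‖P.v (b.succAbove j)‖ ^ 2 +
        (if j = j0 then 2 * ⟪P.v a, P.v b⟫ + ‖P.v b‖ ^ 2 else 0) := by
      intro j
      simp only [hu, hj]
      by_cases hjj : j = j0
      · subst hjj; rw [if_pos rfl, if_pos rfl, hj0, norm_add_sq_real]; ring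
      · simp [hjj]
    simp only [ssq, this, Finset.sum_add_distrib, Finset.sum_ite_eq', Finset.mem_univ, if_true]
    rw [Fin.sum_univ_succAbove (fun i => ‖P.v i‖ ^ 2) b]
    ring
  have e3 : ssq u ≤ fmax u := by
    rw [e2, ← e1]
    unfold fmax
    rw [← P.sum_setIntegral _ (integrable_maxv u)]
    refine Finset.sum_le_sum fun i _ => ?_
    rw [← P.moment_dcell]
    refine setIntegral_mono ((GB.inner _).integrable' (by fun_prop)).integrableOn
      (integrable_maxv u).integrableOn fun x => ?_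
    exact mul_le_mul_of_nonneg_right (le_maxv u _ x) (dens_nonneg x)
  have h0 : (0 : ℝ) ≤ ssq u := Finset.sum_nonneg fun i _ => sq_nonneg _
  have h2 : ssq u ≤ Tc := by
    rcases h0.lt_or_eq with hp | hp
    · have h3 := (pow_le_pow_left₀ h0 e3 2).trans (H u)
      rw [sq] at h3
      exact le_of_mul_le_mul_right h3 hp
    · rw [← hp]; exact Tc_pos.le
  have := P.big
  linarith [e2]

namespace Simp

variable {k r : ℕ} [NeZero k] (P : Simp k r)

lemma norm_pos (m : Fin k) : 0 < ‖P.v m‖ := by
  obtain ⟨j, hj⟩ : ∃ j : Fin k, j ≠ m := by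
    have : Nontrivial (Fin k) := Fin.nontrivial_iff_two_le.2 (by linarith [P.hk])
    exact exists_ne m
  rcases eq_or_ne (P.v m) 0 with h | h
  · have := P.obtuse m j (Ne.symm hj); simp [h] at this
  · exact norm_pos_iff.2 h

lemma sub_ne_zero' {m j : Fin k} (h : j ≠ m) : P.v m - P.v j ≠ 0 := by
  intro he
  have := P.obtuse m j (Ne.symm h)
  rw [sub_eq_zero.1 he, real_inner_self_eq_norm_sq] at this
  nlinarith [sq_nonneg ‖P.v j‖]

lemma hyperplane_null {w : EE r} (hw : w ≠ 0) : volume {x : EE r | ⟪w, x⟫ = 0} = 0 := by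
  have : {x : EE r | ⟪w, x⟫ = 0} = (LinearMap.ker (innerSL ℝ w).toLinearMap : Set (EE r)) := by
    ext x; simp
  rw [this]
  refine Measure.addHaar_submodule _ _ ?_
  rw [Ne, LinearMap.ker_eq_top]
  intro h
  have h2 : ((innerSL ℝ w).toLinearMap) w = (0 : EE r →ₗ[ℝ] ℝ) w := by rw [h]
  simp at h2
  exact hw h2

lemma dcell_ae (m : Fin k) : P.dcell m =ᵐ[volume] P.cell m := by
  have hsub : P.dcell m ⊆ P.cell m := fun x hx => hx.1
  rw [ae_eq_set]
  refine ⟨by rw [sdiff_eq_empty.2 hsub]; exact measure_empty, ?_⟩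
  refine measure_mono_null (t := ⋃ (j) (_ : j ≠ m), {x : EE r | ⟪P.v m - P.v j, x⟫ = 0}) ?_ ?_
  · rintro x ⟨hx, hx'⟩
    simp only [Maxi.dcell, Set.mem_ofPred_eq, not_and, not_forall, not_lt] at hx'
    obtain ⟨j, hj, hj'⟩ := hx' hx
    simp only [mem_iUnion]
    refine ⟨j, hj.ne, ?_⟩
    simp only [Set.mem_ofPred_eq, inner_sub_left]
    linarith [hx j]
  · exact measure_iUnion_null fun j => measure_iUnion_null fun hj =>
      hyperplane_null (P.sub_ne_zero' hj)

lemma setIntegral_cell (h : EE r → ℝ) (m : Fin k) :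
    ∫ x in P.cell m, h x = ∫ x in P.dcell m, h x :=
  setIntegral_congr_set (P.dcell_ae m).symm

lemma moment (y : EE r) (m : Fin k) :
    ∫ x in P.cell m, ⟪y, x⟫ * dens x = ⟪y, P.v m⟫ := by
  rw [P.setIntegral_cell, P.moment_dcell]

lemma sum_pm : ∑ m, pm (P.cell m) = 1 := by
  simp only [pm, P.setIntegral_cell]
  rw [P.sum_setIntegral _ integrable_dens, integral_dens]

lemma nsq_eq_moment (m : Fin k) :
    ∫ x in P.cell m, ⟪P.v m, x⟫ * dens x = ‖P.v m‖ ^ 2 := by
  rw [P.moment, real_inner_self_eq_norm_sq]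

lemma linearIndependent (m : Fin k) :
    LinearIndependent ℝ (fun j : {j : Fin k // j ≠ m} => P.v j.1) := by
  classical
  rw [Fintype.linearIndependent_iff]
  intro c hc
  set pos := Finset.univ.filter (fun j => 0 < c j) with hpos
  set neg := Finset.univ.filter (fun j => c j < 0) with hneg
  set X := ∑ j ∈ pos, c j • P.v j.1 with hX
  set Y := ∑ j ∈ neg, (-c j) • P.v j.1 with hY
  have hXY : X = Y := by
    have : X - Y = ∑ j, c j • P.v j.1 := by
      rw [hX, hY]
      simp only [neg_smul, Finset.sum_neg_distrib, sub_neg_eq_add]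
      rw [← Finset.sum_filter_add_sum_filter_not Finset.univ (fun j => 0 < c j), hpos]
      congr 1
      refine Finset.sum_subset (fun j hj => ?_) (fun j hj hj' => ?_)
      · simp only [hneg, Finset.mem_filter, Finset.mem_univ, true_and, not_lt] at hj ⊢
        exact hj.le
      · simp only [hneg, Finset.mem_filter, Finset.mem_univ, true_and, not_lt] at hj hj'
        rw [le_antisymm hj hj', zero_smul]
    rw [hc, sub_eq_zero] at this
    exact this
  have hle : ‖X‖ ^ 2 ≤ 0 := by
    rw [← real_inner_self_eq_norm_sq]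
    nth_rewrite 2 [hXY]
    simp only [hX, hY, sum_inner, inner_sum, real_inner_smul_left, real_inner_smul_right]
    refine Finset.sum_nonpos fun j hj => Finset.sum_nonpos fun i hi => ?_
    simp only [hpos, hneg, Finset.mem_filter, Finset.mem_univ, true_and] at hi hj
    have hij : i.1 ≠ j.1 := by
      intro he; rw [Subtype.ext he] at hi; linarith
    have := P.obtuse j.1 i.1 (Ne.symm hij)
    have h2 := mul_nonpos_of_nonneg_of_nonpos (mul_pos (by linarith : (0:ℝ) < -c j) hi).le this.le
    rw [real_inner_comm] at h2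
    linarith [h2]
  have hX0 : X = 0 := norm_eq_zero.1 (by nlinarith [norm_nonneg X])
  have key : ∀ (s : Finset {j : Fin k // j ≠ m}) (d : {j : Fin k // j ≠ m} → ℝ),
      (∀ j ∈ s, 0 < d j) → ∑ j ∈ s, d j • P.v j.1 = 0 → s = ∅ := by
    intro s d hd hs
    by_contra hne
    have h1 : ∑ j ∈ s, d j * ⟪P.v j.1, P.v m⟫ = 0 := by
      have := congrArg (fun z => ⟪z, P.v m⟫) hs
      simpa [sum_inner, real_inner_smul_left] using this
    have h2 : ∑ j ∈ s, d j * ⟪P.v j.1, P.v m⟫ < 0 :=
      Finset.sum_neg (fun j hj => mul_neg_of_pos_of_neg (hd j hj) (P.obtuse _ _ j.2))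
        (Finset.nonempty_of_ne_empty hne)
    linarith
  have hp := key pos c (fun j hj => (Finset.mem_filter.1 hj).2) hX0
  have hn := key neg (fun j => -c j) (fun j hj => neg_pos.2 (Finset.mem_filter.1 hj).2)
    (by rw [← hY, ← hXY, hX0])
  intro j
  by_contra hj
  rcases lt_or_gt_of_ne hj with h | h
  · have : j ∈ neg := by simp [hneg, h]
    simp [hn] at this
  · have : j ∈ pos := by simp [hpos, h]
    simp [hp] at this

lemma linearIndependent_sub (m : Fin k) :
    LinearIndependent ℝ (fun j : {j : Fin k // j ≠ m} => P.v m - P.v j.1) := by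
  classical
  have hli := Fintype.linearIndependent_iff.1 (P.linearIndependent m)
  rw [Fintype.linearIndependent_iff]
  intro c hc
  have hm : P.v m = -∑ j : {j : Fin k // j ≠ m}, P.v j.1 := by
    rw [eq_neg_iff_add_eq_zero, ← P.sum_v]
    have := Fintype.sum_subtype_add_sum_subtype (fun j => j ≠ m) P.v
    rw [← this, add_comm]
    congr 1
    rw [Finset.sum_eq_single_of_mem (⟨m, by simp⟩ : {j : Fin k // ¬j ≠ m}) (Finset.mem_univ _)]
    intro b _ hb
    exact absurd (Subtype.ext (not_not.1 b.2)) hb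
  set C := ∑ j, c j with hC
  have h0 : ∑ j, (C + c j) • P.v j.1 = 0 := by
    have : ∑ j, c j • (P.v m - P.v j.1) = -∑ j, (C + c j) • P.v j.1 := by
      have h1 : ∑ j, c j • P.v m = C • P.v m := by rw [hC, Finset.sum_smul]
      simp only [smul_sub, add_smul, Finset.sum_sub_distrib, Finset.sum_add_distrib, h1,
        ← Finset.smul_sum]
      rw [hm, smul_neg]
      abel
    rw [this, neg_eq_zero] at hc
    exact hc
  have hcj := hli _ h0
  have hC0 : C = 0 := by
    have : ∑ j : {j : Fin k // j ≠ m}, (C + c j) = 0 := by simp [hcj]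
    rw [Finset.sum_add_distrib, Finset.sum_const, Finset.card_univ, ← hC, nsmul_eq_mul] at this
    have h2 : ((Fintype.card {j : Fin k // j ≠ m} : ℝ) + 1) * C = 0 := by linarith
    rcases mul_eq_zero.1 h2 with h | h
    · exfalso; linarith [Nat.cast_nonneg (α := ℝ) (Fintype.card {j : Fin k // j ≠ m})]
    · exact h
  intro j
  have := hcj j
  linarith

/-- Existence of dual vectors. -/
lemma exists_dual (m : Fin k) :
    ∃ G : Fin k → EE r, ∀ j l, j ≠ m → l ≠ m → ⟪P.v m - P.v l, G j⟫ = if j = l then 1 else 0 := by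
  classical
  set e := fun j : {j : Fin k // j ≠ m} => P.v m - P.v j.1 with he
  let b := Module.Basis.span (P.linearIndependent_sub m)
  have key : ∀ j : {j : Fin k // j ≠ m}, ∃ G : EE r, ∀ l : {j : Fin k // j ≠ m},
      ⟪e l, G⟫ = if j = l then 1 else 0 := by
    intro j
    obtain ⟨φ, hφ⟩ := LinearMap.exists_extend (b.coord j)
    refine ⟨(InnerProductSpace.toDual ℝ (EE r)).symm φ.toContinuousLinearMap, fun l => ?_⟩
    rw [real_inner_comm, InnerProductSpace.toDual_symm_apply, LinearMap.coe_toContinuousLinearMap']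
    have h1 := LinearMap.congr_fun hφ (b l)
    simp only [LinearMap.comp_apply, Submodule.subtype_apply] at h1
    rw [show ((b l : Submodule.span ℝ (Set.range e)) : EE r) = e l from
      congrArg Subtype.val (Module.Basis.span_apply _ l)] at h1
    rw [h1, Module.Basis.coord_apply, Module.Basis.repr_self, Finsupp.single_apply]
    by_cases hjl : l = j
    · simp [hjl]
    · simp [hjl, Ne.symm hjl]
  choose G hG using key
  refine ⟨fun j => if hj : j ≠ m then G ⟨j, hj⟩ else 0, fun j l hj hl => ?_⟩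
  simp only [dif_pos hj]
  rw [hG ⟨j, hj⟩ ⟨l, hl⟩]
  simp

end Simp

end Vale.Agent.P226
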